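import Vale.Agent.P073Y.Ac4.Sk2

/-!
# One auxiliary layer of cores
-/

open Set Metric Topology Filter MeasureTheory
open scoped ENNReal NNReal

namespace P073.Ac4

open An (M3)
open Zn Gc
open Vale.Agent.P073.HB (WeakDeriv)

namespace A1

theorem cube_fin {p : ℝ} (hp : 3 ≤ p) {Ω : Set E3} {F : E3 → M3} (hb : Bornology.IsBounded Ω)
    (hi : ∫⁻ x in Ω, ‖F x‖ₑ ^ p < ⊤) : ∫⁻ x in Ω, ‖F x‖ₑ ^ (3 : ℝ) < ⊤ := by
  refine lt_of_le_of_lt (lintegral_mono (g := fun x => ‖F x‖ₑ ^ p + 1) fun x => ?_) ?_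
  · rcases le_total ‖F x‖ₑ 1 with h | h
    · exact le_add_left (ENNReal.rpow_le_one h (by norm_num))
    · exact le_add_right (ENNReal.rpow_le_rpow_of_exponent_le h hp)
  · rw [lintegral_add_right _ measurable_const, setLIntegral_const, one_mul]
    exact ENNReal.add_lt_top.2 ⟨hi, hb.measure_lt_top⟩

theorem small {a : ℝ≥0∞} (ha : a ≠ ⊤) {v : ℝ} (hv : 0 < v) :
    ∃ θ : ℝ, 0 < θ ∧ θ ≤ 1 / 10 ∧ ENNReal.ofReal θ * a ≤ ENNReal.ofReal v := by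
  obtain ⟨ε, h0, h1⟩ := ENNReal.exists_nnreal_pos_mul_lt ha (ENNReal.ofReal_pos.2 hv).ne'
  refine ⟨min ε (1 / 10), lt_min h0 (by norm_num), min_le_right _ _, le_trans ?_ h1.le⟩
  exact mul_le_mul_left ((ENNReal.ofReal_le_ofReal (min_le_left _ _)).trans_eq
    ENNReal.ofReal_coe_nnreal) _

theorem gap {p b τ ρ s θ : ℝ} {K V : Set E3} {f : E3 → E3} {F A : E3 → M3} {w : E3}
    {P₁ P₂ : Finset E3} (h : Sol p f F K V b τ ρ s w P₁ P₂ A) (hs : 0 < s) (hθ : 0 ≤ θ) :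
    volume (K \ cubes P₁ (s / 2 - θ * s)) ≤
      8 * (ENNReal.ofReal (s ^ 3) * P₂.card) + 24 * ENNReal.ofReal θ * volume V := by
  refine (measure_mono (t := reg P₁ P₂ s (θ * s) 0) fun x hx => ?_).trans
    ((vol_reg (θ := θ) hs (by positivity) le_rfl (by linarith) (by linarith)).trans
      (add_le_add le_rfl (mul_le_mul_right (h.card hs) _)))
  rcases h.cover hx.1 with h1 | h1
  · obtain ⟨q, hq, h2⟩ := mem_cubes.1 h1
    refine Or.inr (mem_biUnion hq ⟨mem_closedBall.2 (by linarith), fun h3 => hx.2 ?_⟩)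
    exact mem_cubes.2 ⟨q, hq, by linarith [mem_ball.1 h3]⟩
  · exact Or.inl (by rwa [add_zero])

end A1

/-- **one auxiliary layer** -/
theorem aux1_of {p : ℝ} (hp : 3 ≤ p) (hK : AUXK p) : AUX1 p := by
  intro τ D hτ Ω Λ Z W f f' F o ρ₀ v r μ₀ δ hΩ hΛ hb hf hF hi hw ho hZ hZΛ hW hWΩ hZW hρ₀ hv hr
    hμ₀ hδ
  have hv3 : 0 < v / 3 := by positivity
  obtain ⟨K₁, b, hK₁, -, hb1, hbil, hc, hvol⟩ :=
    hK hΩ hΛ hb hf hF hi hw (ENNReal.ofReal_pos.2 hv3)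
  obtain ⟨C, hC⟩ := An.vol3
  have hm : An.Mon Ω f F :=
    An.mon.2.1 hΩ hΛ (by linarith) hf hF.aestronglyMeasurable hi hw
  replace hC := (hC hm).2 (A1.cube_fin hp hb hi)
  have hZ₀ : IsCompact (f' '' Z) := hZ.image_of_continuousOn (hf.cont_inv.mono hZΛ)
  have hZ₁ : f' '' Z ⊆ W := by
    rintro _ ⟨z, hz, rfl⟩
    exact hZW ⟨hf.mapsTo_inv (hZΛ hz), by rw [mem_preimage, hf.right_inv (hZΛ hz)]; exact hz⟩
  have hKc : IsCompact (K₁ ∩ f' '' Z) := hK₁.inter_right hZ₀.isClosed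
  obtain ⟨V, hV, hKV, hVW, hVc⟩ :=
    exists_open_between_and_isCompact_closure hKc hW (inter_subset_right.trans hZ₁)
  have hVΩ : V ⊆ Ω := subset_closure.trans (hVW.trans hWΩ)
  obtain ⟨o₀, ho₀, ho₁⟩ := ho.exists_lower hVc (hVW.trans hWΩ)
  have hVf : volume V ≠ ⊤ := (hb.subset hVΩ).measure_lt_top.ne
  obtain ⟨θ, hθ, hθ', hθv⟩ := A1.small
    (a := C * ENNReal.ofReal b ^ (3:ℝ) * (24 * volume V)) (by finiteness) hv3
  obtain ⟨c, hc0, -, hcv⟩ := A1.small (a := C * ENNReal.ofReal b ^ (3:ℝ) * 8) (by finiteness) hv3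
  obtain ⟨hτb, hD⟩ := hτ b
  obtain ⟨N, hN, hN1, hN2⟩ : ∃ N : ℝ, 1 ≤ N ∧ 2 * (D b + 1) ≤ θ * N ∧
      20 * b * D b ≤ r * θ * N := by
    refine ⟨1 + 2 * (D b + 1) / θ + 20 * b * D b / (r * θ), ?_, ?_, ?_⟩
    · linarith [show 0 ≤ 2 * (D b + 1) / θ by positivity,
        show 0 ≤ 20 * b * D b / (r * θ) by positivity]
    · rw [mul_add θ, mul_add θ, mul_div_cancel₀ _ hθ.ne']
      linarith [show 0 ≤ θ * (20 * b * D b / (r * θ)) by positivity]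
    · rw [mul_add, mul_add, mul_div_cancel₀ _ (by positivity : r * θ ≠ 0)]
      linarith [show 0 ≤ r * θ * (2 * (D b + 1) / θ) by positivity, show 0 ≤ r * θ * 1 by positivity]
  have hc1 : ENNReal.ofReal c ≠ 0 := (ENNReal.ofReal_pos.2 hc0).ne'
  obtain ⟨ρ₁, hρ₁, hsel⟩ := sel (τ := τ b) (δ := ENNReal.ofReal c * δ)
    (solid_of (p := p) (by linarith) (osc_of_mon (by linarith) hm hVΩ b) hF
      ((lintegral_mono_set hVΩ).trans_lt hi) hKc hV hKV (fun x hx => hbil x hx.1)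
      (hc.mono inter_subset_left)) hKc hV hKV hN hτb (ENNReal.mul_pos hc1 hδ.ne')
  obtain ⟨k, hk⟩ := exists_pow_lt_of_lt_one
    (show 0 < min (min ρ₁ (o₀ / (2 * D b))) (min ρ₀ μ₀ / N) by positivity)
    (by norm_num : (2:ℝ)⁻¹ < 1)
  have hρ : (0:ℝ) < 2⁻¹ ^ k := by positivity
  obtain ⟨hk1, hk3⟩ := lt_min_iff.1 hk
  obtain ⟨hk1, hk2⟩ := lt_min_iff.1 hk1
  rw [lt_div_iff₀ (by positivity)] at hk2 hk3
  obtain ⟨hk3, hk4⟩ := lt_min_iff.1 hk3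
  obtain ⟨Φ, hΦ, hsol⟩ := hsel (2⁻¹ ^ k) 1 hρ hk1.le (pow_le_one₀ (by norm_num) (by norm_num))
  have hs : 0 < N * (2:ℝ)⁻¹ ^ k := by positivity
  refine ⟨⟨K₁ ∩ f' '' Z, V, b, τ b, N * 2⁻¹ ^ k, θ, k⟩, fun w => (ENNReal.ofReal c)⁻¹ * Φ w,
    ⟨⟨hb1, ⟨hτb.le, le_rfl⟩, hθ', hs, ?_⟩, hV, subset_closure.trans hVW, ?_, ?_, ?_,
      fun x hx => ?_⟩, (hΦ.const_mul _).mono ?_, fun w hw => ?_⟩
  · exact (mul_le_mul_of_nonneg_right hN1 hρ.le).trans_eq (mul_assoc _ _ _)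
  · exact (mul_comm _ _).trans_le hk3.le
  · show θ * (N * 2⁻¹ ^ k) / (10 * b) ≤ μ₀
    rw [div_le_iff₀ (by positivity)]
    nlinarith
  · show 2 * D b * 2⁻¹ ^ k ≤ r * (θ * (N * 2⁻¹ ^ k) / (10 * b))
    rw [← mul_div_assoc, le_div_iff₀ (by positivity)]
    nlinarith [mul_le_mul_of_nonneg_right hN2 hρ.le]
  · show 2 * D b * 2⁻¹ ^ k ≤ o x
    linarith [ho₁ x (subset_closure hx)]
  · rw [← mul_assoc, ENNReal.inv_mul_cancel hc1 ENNReal.ofReal_ne_top, one_mul]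
  obtain ⟨P₁, P₂, A, h1, h2⟩ := hsol w
  refine ⟨P₁, P₂, A, h1, ?_⟩
  have h3 : Φ w ≤ ENNReal.ofReal c := by
    have := mul_le_mul_right hw.le (ENNReal.ofReal c)
    rwa [← mul_assoc, ENNReal.mul_inv_cancel hc1 ENNReal.ofReal_ne_top, one_mul, mul_one] at this
  show volume (Z \ f '' cubes P₁ (N * 2⁻¹ ^ k / 2 - θ * (N * 2⁻¹ ^ k))) ≤ _
  set T := cubes P₁ (N * 2⁻¹ ^ k / 2 - θ * (N * 2⁻¹ ^ k)) with hT
  have hTm : MeasurableSet T :=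
    P₁.measurableSet_biUnion fun _ _ => measurableSet_closedBall
  have h4 : Z \ f '' T ⊆ f '' (Ω \ K₁) ∪ f '' ((K₁ ∩ f' '' Z) \ T) := fun z hz => by
    have h5 := hf.right_inv (hZΛ hz.1)
    by_cases h6 : f' z ∈ K₁
    · exact Or.inr ⟨f' z, ⟨⟨h6, z, hz.1, rfl⟩, fun h7 => hz.2 ⟨_, h7, h5⟩⟩, h5⟩
    · exact Or.inl ⟨f' z, ⟨hf.mapsTo_inv (hZΛ hz.1), h6⟩, h5⟩
  have h5 : volume (f '' ((K₁ ∩ f' '' Z) \ T)) ≤
      C * ENNReal.ofReal b ^ (3:ℝ) * volume ((K₁ ∩ f' '' Z) \ T) := by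
    refine (hC _ (hKc.measurableSet.diff hTm) (sdiff_subset.trans (hKV.trans hVΩ))).trans ?_
    rw [mul_assoc, ← setLIntegral_const]
    refine mul_le_mul_right (setLIntegral_mono measurable_const fun x hx => ?_) _
    refine ENNReal.rpow_le_rpow ?_ (by norm_num)
    rw [← ofReal_norm]
    exact ENNReal.ofReal_le_ofReal (hbil x hx.1.1).1
  refine (measure_mono h4).trans ((measure_union_le _ _).trans ?_)
  rw [show v = v / 3 + (v / 3 + v / 3) by ring, ENNReal.ofReal_add hv3.le (by positivity),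
    ENNReal.ofReal_add hv3.le hv3.le]
  refine add_le_add hvol (h5.trans ((mul_le_mul_right (A1.gap h1 hs hθ.le) _).trans ?_))
  rw [mul_add]
  refine add_le_add (le_trans ?_ hcv) (le_trans (le_of_eq (by ring)) hθv)
  exact (mul_le_mul_right (mul_le_mul_right (h2.trans h3) _) _).trans_eq (by ring)

end P073.Ac4
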