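import Vale.Agent.P073Y.Ac4.Sk2
import Vale.Agent.P073Z.ACC.Mean
import Vale.Agent.P073Y.Rd.Par

/-!
# Disjoint neighbourhoods; all auxiliary layers
-/

open Set Metric Topology Filter MeasureTheory
open scoped ENNReal NNReal

namespace P073.Ac4

open M2 Zn Gc

theorem sepz : SEPZ := by
  intro Λ Z hΛ hZ hl hd
  have cl : ∀ n, IsClosed (Λᶜ ∪ ⋃ m ∈ {m | m ≠ n}, Z m) := fun n => by
    refine isClosed_of_closure_subset fun y hy => ?_
    by_contra h1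
    rw [mem_union, not_or, notMem_compl_iff] at h1
    have h2 := Rd.exists_near (fun m y _ hy => (hZ m).1.isClosed.closure_subset hy) hl h1.1
      {m | m ≠ n} fun m hm h3 => h1.2 (mem_biUnion hm h3)
    obtain ⟨w, ⟨w1, w2⟩, w3⟩ := mem_closure_iff_nhds.1 hy _ (h2.and (hΛ.mem_nhds h1.1))
    refine w3.elim (fun h => h w2) fun h => ?_
    obtain ⟨m, hm, h⟩ := mem_iUnion₂.1 h
    exact w1 m hm h
  have key : ∀ n : ℕ, ∃ d : ℝ, 0 < d ∧ d ≤ 1 / ((n : ℝ) + 1) ∧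
      Disjoint (thickening d (Z n)) (thickening d (Λᶜ ∪ ⋃ m ∈ {m | m ≠ n}, Z m)) := fun n => by
    obtain ⟨d, d0, h⟩ := Disjoint.exists_thickenings (disjoint_union_right.2
      ⟨disjoint_compl_right_iff_subset.2 (hZ n).2,
        disjoint_iUnion₂_right.2 fun m hm => hd n m (Ne.symm hm)⟩) (hZ n).1 (cl n)
    exact ⟨min d (1 / ((n : ℝ) + 1)), by positivity, min_le_right _ _,
      h.mono (thickening_mono (min_le_left _ _) _) (thickening_mono (min_le_left _ _) _)⟩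
  choose d d0 d1 h using key
  have h' : ∀ n m, n ≠ m → d n ≤ d m → Disjoint (thickening (d n) (Z n)) (thickening (d m) (Z m)) :=
    fun n m hne hle => (h m).symm.mono_left ((thickening_mono hle _).trans
      (thickening_subset_of_subset _ fun y hy => .inr (mem_biUnion hne hy)))
  refine ⟨fun n => thickening (d n) (Z n), fun n => ⟨isOpen_thickening,
    self_subset_thickening (d0 n) _, fun y hy => by_contra fun h1 =>
      disjoint_left.1 (h n) hy (self_subset_thickening (d0 n) _ (.inl h1))⟩, fun y hy => ?_,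
    fun n m hne => (le_total (d n) (d m)).elim (h' n m hne) fun hle => (h' m n hne.symm hle).symm⟩
  obtain ⟨U, hU, hf⟩ := hl y hy
  obtain ⟨ε, ε0, hε⟩ := Metric.mem_nhds_iff.1 hU
  obtain ⟨N, hN⟩ := exists_nat_one_div_lt (half_pos ε0)
  refine ⟨ball y (ε / 2), ball_mem_nhds _ (half_pos ε0), (hf.union (finite_lt_nat N)).subset ?_⟩
  rintro n ⟨w, w1, w2⟩
  refine (lt_or_ge n N).elim .inr fun hn => .inl ?_
  obtain ⟨u, u1, u2⟩ := mem_thickening_iff.1 w1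
  have : 1 / ((n : ℝ) + 1) ≤ 1 / ((N : ℝ) + 1) := Nat.one_div_le_one_div hn
  exact ⟨u, u1, hε (mem_ball.2 (by
    linarith [dist_triangle_left u y w, mem_ball.1 w2, d1 n]))⟩

theorem auxf_of {p : ℝ} (hS : SEPZ) (hA : AUX1 p) : AUXF p := by
  intro τ D hτ Ω Λ E W f f' F o ρ₀ δ Z vv rr μ₀ hΩ hΛ hb hf hF hp hw ho hZ hl hd hE hW hEW hρ hδ
  obtain ⟨W', w1, w2, w3⟩ := hS hΛ (fun n => ⟨(hZ n).1, (hZ n).2.1⟩) hl hd
  obtain ⟨e, e0, e1⟩ := ENNReal.exists_pos_sum_of_countable' hδ.ne' ℕ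
  choose L Φ h1 h2 h3 using fun n => hA τ D hτ (Z := Z n \ E) (W := Ω ∩ f ⁻¹' W' n ∩ W)
    (δ := e n) hΩ hΛ hb hf hF hp hw ho ((hZ n).1.diff hE) (sdiff_subset.trans (hZ n).2.1)
    ((hf.cont.isOpen_inter_preimage hΩ (w1 n).1).inter hW) (fun _ h => h.1.1)
    (fun x hx => ⟨⟨hx.1, (w1 n).2.1 hx.2.1⟩, hEW x hx.1 hx.2.2⟩) hρ (hZ n).2.2.1 (hZ n).2.2.2.1
    (hZ n).2.2.2.2 (e0 n)
  have sb : ∀ n, ∀ x ∈ (L n).V, f x ∈ W' n := fun n x hx => ((h1 n).sub hx).1.2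
  refine ⟨L, fun w => ∑' n, Φ n w, fun n => ⟨(h1 n).ok, (h1 n).opn,
    fun x hx => ⟨((h1 n).sub hx).1.1, ((h1 n).sub hx).2⟩, (h1 n).s_le, (h1 n).μ_le, (h1 n).r_ge,
    (h1 n).o_ge⟩, fun x hx => ?_, fun n m hne => ⟨disjoint_left.2 fun x a b =>
      disjoint_left.1 (w3 n m hne) (sb n x a) (sb m x b), disjoint_left.2 ?_⟩,
    (Mn.mean_tsum h2).mono e1.le, fun w hw => ?_⟩
  · obtain ⟨U, hU, hfin⟩ := w2 _ (hf.mapsTo hx)
    exact ⟨f ⁻¹' U, (hf.cont.continuousAt (hΩ.mem_nhds hx)).preimage_mem_nhds hU,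
      hfin.subset fun n ⟨y, a, b⟩ => ⟨f y, sb n y a, b⟩⟩
  · rintro _ ⟨x, a, rfl⟩ b
    exact disjoint_left.1 (w3 n m hne) (sb n x a) ((w1 m).2.1 b)
  · choose P₁ P₂ A k1 k2 using fun n => h3 n w ((ENNReal.le_tsum (f := fun n => Φ n w) n).trans_lt hw)
    exact ⟨P₁, P₂, A, fun n => ⟨k1 n, by rw [← sdiff_sdiff]; exact k2 n⟩⟩

end P073.Ac4
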