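import Vale.Agent.P073Y.Ac4.Sk2
import Vale.Agent.P073Y.An.All
import Vale.Agent.P073Y.Ks.Ksel2

/-!
# Most of the target is the image of a compact set with invertible derivative
-/

open Set Metric Topology Filter MeasureTheory
open scoped ENNReal NNReal

namespace P073.Ac4

open _root_.P073.Top

theorem cube_le {p : ℝ} (hp : 3 ≤ p) (x : ℝ≥0∞) : x ^ (3 : ℝ) ≤ 1 + x ^ p := by
  rcases le_total x 1 with h | h
  · exact (ENNReal.rpow_le_one h (by norm_num)).trans le_self_add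
  · exact (ENNReal.rpow_le_rpow_of_exponent_le h hp).trans le_add_self

theorem auxk {p : ℝ} (hp : 3 ≤ p) : AUXK p := by
  intro Ω Λ f f' F v hΩ hΛ bΩ hf hF hi hw hv
  obtain ⟨C, hC⟩ := An.vol3
  have h3 : ∫⁻ x in Ω, ‖F x‖ₑ ^ (3 : ℝ) < ⊤ := by
    refine (lintegral_mono fun x => cube_le hp _).trans_lt ?_
    rw [lintegral_add_left measurable_const, setLIntegral_const, one_mul]
    exact ENNReal.add_lt_top.2 ⟨bΩ.measure_lt_top, hi⟩
  have mo := An.mon.2.1 hΩ hΛ (by norm_num : (1 : ℝ) ≤ 3) hf hF.aestronglyMeasurable h3 hw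
  have hC1 : ((C : ℝ≥0∞) + 1) ≠ ⊤ := by finiteness
  have hδ : 0 < v / (C + 1) := ENNReal.div_pos hv.ne' hC1
  obtain ⟨n, T, K, K₃, b, r₁, hr₁, k1, -, k3, k4, k5, -, hb, k7, k8, -, k9⟩ :=
    ksel2 (fun _ => 1) hΩ bΩ hf.cont hw (by norm_num : (1 : ℝ) ≤ 3) hF.aestronglyMeasurable h3 hδ
      fun _ => one_pos
  have cK : IsCompact (⋃ j, K j) := isCompact_iUnion fun j => (k1 j).1
  refine ⟨K₃, b, k4, (self_subset_cthickening _).trans k5, by exact_mod_cast hb, k7,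
    k8.mono subset_union_left, ?_⟩
  have e : f '' (Ω \ K₃) ⊆ f '' (Ω \ (K₃ ∪ ⋃ j, K j)) ∪ ⋃ j, f '' K j := by
    rintro _ ⟨x, ⟨h1, h2⟩, rfl⟩
    by_cases o : x ∈ ⋃ j, K j
    · obtain ⟨j, hj⟩ := mem_iUnion.1 o
      exact .inr (mem_iUnion.2 ⟨j, x, hj, rfl⟩)
    · exact .inl ⟨x, ⟨h1, fun h => h.elim h2 o⟩, rfl⟩
  refine (measure_mono e).trans ((measure_union_le _ _).trans ?_)
  rw [measure_iUnion_null fun j => (k3 j).2, add_zero]
  refine ((hC mo).2 h3 _ (hΩ.measurableSet.diff (k4.union cK).measurableSet)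
    fun _ h => h.1).trans ?_
  calc (C : ℝ≥0∞) * ∫⁻ x in Ω \ (K₃ ∪ ⋃ j, K j), ‖F x‖ₑ ^ (3 : ℝ)
      ≤ (C + 1) * (v / (C + 1)) := mul_le_mul' le_self_add k9
    _ ≤ v := ENNReal.mul_div_le

end P073.Ac4
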