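import Vale.Agent.P073Y.Ac4.Sk
import Vale.Agent.P073Y.B.Cer

/-!
# The geometric hypotheses of the two batches
-/

open Set Metric Topology Filter MeasureTheory
open scoped ENNReal NNReal

namespace P073.Ac4

open An (M3)
open M2 Zn Gc
open _root_.P073.Top
open B (Cer OscC Fc Main Aux)
open Nr (nrc)

namespace Ce

variable {L : Lay} {τ D : ℝ → ℝ} {A : E3 → M3}

theorem ρ_pos (L : Lay) : 0 < L.ρ := by
  rw [Lay.ρ]
  positivity

theorem ρ_le (h : L.Ok τ D) (hD : 20 ≤ D L.b) : 42 * L.ρ ≤ L.θ * L.s := by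
  nlinarith [h.ρ_le, ρ_pos L]

theorem T_le (h : L.Ok τ D) (q : E3) : (L.cr D A q).T + L.ρ ≤ L.s / 2 := by
  show L.s / 2 - L.θ * L.s / 2 + D L.b * L.ρ + L.ρ ≤ L.s / 2
  linarith [h.ρ_le]

theorem μ_eq (h : L.Ok τ D) : L.b * L.μ = L.θ * L.s / 10 := by
  have := h.b_ge
  rw [Lay.μ]
  field_simp

theorem μ_pos (h : L.Ok τ D) (hD : 20 ≤ D L.b) : 0 < L.μ :=
  pos_of_mul_pos_right (a := L.b) (by linarith [μ_eq h, ρ_le h hD, ρ_pos L])
    (zero_le_one.trans h.b_ge)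

theorem near (h : L.Ok τ D) (hτ : L.b * τ L.b ≤ 1 / 16) (hD : 20 ≤ D L.b) : L.τ * L.ρ ≤ L.μ := by
  refine le_of_mul_le_mul_left ?_ (one_pos.trans_le h.b_ge)
  have k := mul_le_mul_of_nonneg_left h.τ_mem.2 (zero_le_one.trans h.b_ge)
  nlinarith [ρ_le h hD, ρ_pos L, μ_eq h]

theorem deep (h : L.Ok τ D) (hD : 20 ≤ D L.b) {t : ℝ} (ht : t ≤ L.s / 2 - L.θ * L.s) :
    t ≤ L.s / 2 ∧ t + 2 * L.b * L.μ < L.s / 2 - L.θ * L.s / 2 - L.ρ := by
  constructor <;> linarith [ρ_le h hD, ρ_pos L, μ_eq h]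

theorem lip {Λ : Set E3} {δ : E3 → ℝ} (h : Tg Λ δ) {x y z w : E3} (h1 : dist x w ≤ 6 * δ w)
    (h2 : dist y w ≤ 6 * δ w) (h3 : dist z w ≤ 6 * δ w) : dist x y ≤ 30 * δ z := by
  have k := h.lip w z
  rw [dist_comm] at k
  linarith [dist_triangle_right x y w]

theorem U_sub (P : Par) (j : Fin P.N) :
    P.U j ⊆ cthickening (100 * (P.T j).b * P.η) (P.K j) := by
  have : 0 ≤ ((P.T j).b : ℝ) * P.η := by
    rw [Par.η]
    positivity
  exact (thickening_subset_cthickening _ _).trans (cthickening_mono (by linarith) _)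

end Ce

open Ce

theorem cert4_of (hF : FAM) (hL : FLAT) (hC : CERF) (hM : MAINB) : CERT4 := by
  obtain ⟨a₀, a1, a2, hM⟩ := hM
  refine ⟨a₀, a1, a2, ?_⟩
  intro Ω Λ Ω₀ X f f' F P Y τ D L p κ ε s₁ oN d β' δ o o₁ σ Z vv rr μ₀ P₁ P₂ A M₀ Mt S₀ S 𝓜 h1 g
    H Sl hτ hσ hP
  have hD : ∀ b, 20 ≤ D b := fun b => (hτ b).2
  obtain ⟨Fm, hV, -⟩ := hF H Sl hD
  have fl := ((hL 𝓜 h1 H.ok).2.2 Fm hσ hD hP).1
  have gi : InjOn g.toFun Ω := g.left_inv.injOn
  have fi : InjOn f Ω := H.std.homeo.left_inv.injOn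
  have cs : ∀ c, 𝓜.Q.cell c ⊆ Ω := fun c => cell_sub (S := 𝓜.src h1) c
  have rV : ∀ t ∈ acc L D A P₁, (crs L D A t).room ⊆ (L t.1).V := fun t ht =>
    ball_subset_closedBall.trans (hV t ht)
  have a0 : ∀ q ∈ P₁ 0, (0, q) ∈ acc L D A P₁ := fun q hq => ⟨hq, .inl rfl⟩
  have gV : Gam (L 0) D f (A 0) (P₁ 0) ⊆ f '' (L 0).V := iUnion₂_subset fun q hq =>
    image_mono (ball_subset_closedBall.trans ((closedBall_subset_closedBall (by
      linarith [T_le (A := A 0) (H.lay 0) q, (H.lay 0).s_pos])).trans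
      ((Sl.sol 0).lat q (.inl hq)).2.1))
  have rG : ∀ q, (0, q) ∈ acc L D A P₁ →
      f '' (crs L D A (0, q)).room ⊆ Gam (L 0) D f (A 0) (P₁ 0) := fun q hq =>
    subset_iUnion₂_of_subset q hq.1 (image_mono (ball_subset_ball
      (le_add_of_nonneg_right (ρ_pos (L 0)).le)))
  have cf := fun n q (hq : (n + 1, q) ∈ acc L D A P₁) => hC (𝓜.src h1) (f := f) gi
    (Fm.ok _ hq).bil (one_pos.trans_le (Fm.ok _ hq).b_ge) (μ_pos (H.lay (n + 1)) (hD _)).le
    (fl _ hq)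
  have tri : ∀ {c t x y}, x ∈ 𝓜.Q.cell c → y ∈ 𝓜.Q.cell c →
      (∀ x ∈ 𝓜.Q.cell c, ∀ y ∈ 𝓜.Q.cell c, dist (g.toFun x) (f y) ≤ t) →
      dist (g.toFun x) (g.toFun y) ≤ 2 * t := fun {c t x y} hx hy k => by
    linarith [dist_triangle_right (g.toFun x) (g.toFun y) (f y), k x hx y hy, k y hy y hy]
  have off : ∀ t ∈ acc L D A P₁, ∀ j, ∀ x ∈ closedBall (crs L D A t).q (crs L D A t).T,
      x ∉ P.U j := fun t ht j x hx k => disjoint_left.1 ((Fm.ok t ht).off j) hx (U_sub P j k)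
  refine ⟨hM (𝓜.src h1) H.std.oΛ H.std.homeo gi (H.V_sub 0) (H.lay 0) (hτ _).1 (hD _) (Sl.sol 0)
      H.main.1 fun q hq => fl (0, q) (a0 q hq), gV.trans (image_mono H.V_Ω₀),
    fun j => (disjoint_image_image fun x hx y hy e => disjoint_left.1 (H.V_G j) hx
      (fi ((Y j).subΩ hy) (H.V_sub 0 hx) e.symm ▸ hy)).mono_left gV,
    fun n => ⟨⟨isOpen_biUnion fun q hq => (cf n q hq).1, μ_pos (H.lay _) (hD _), (H.aux n).2.1,
      Cer.iUnion fun q => Cer.iUnion fun hq => (cf n q hq).2.1,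
      le_trans (measure_mono ?_) (Sl.vol n), fun c hc x hx y hy => ?_⟩, fun j c hc => ?_⟩,
    fun c => ?_, fun x hx => ?_, fun j c hc x hx y hy => ?_, fun q hq => ?_⟩
  · rintro y ⟨k1, k2⟩
    refine ⟨k1, fun k => k2 (k.elim .inr ?_)⟩
    rintro ⟨x, hx, rfl⟩
    obtain ⟨q, hq, k3⟩ := mem_cubes.1 hx
    obtain ⟨b1, b2⟩ := deep (H.lay (n + 1)) (hD _) k3
    have b4 := (H.lay (n + 1)).s_pos
    by_cases k4 : (n + 1, q) ∈ acc L D A P₁
    · refine .inl (.inl (mem_biUnion k4 ((cf n q k4).2.2.2 x _ ?_ b2)))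
      have k5 := (Sl.sol (n + 1)).close q hq q (mem_closedBall_self (by linarith)) x
        (mem_closedBall.2 (by linarith))
      rw [sub_sub, ← dist_eq_norm] at k5
      exact k5.trans (near (H.lay (n + 1)) (hτ _).1 (hD _))
    · have k5 : ∃ q' ∈ P₁ 0,
          ¬ Disjoint (crs L D A (n + 1, q)).room (crs L D A (0, q')).room := by
        by_contra k6
        push Not at k6
        exact k4 ⟨hq, .inr k6⟩
      obtain ⟨q', k6, k7⟩ := k5
      obtain ⟨u, k8, k9⟩ := not_disjoint_iff.1 k7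
      refine .inl (.inr (mem_biUnion k6 (mem_image_of_mem _ (mem_ball.2 ?_))))
      have c1 : dist u q < ((L (n + 1)).cr D (A (n + 1)) q).T := k8
      have c2 : dist u q' < ((L 0).cr D (A 0) q').T := k9
      linarith [T_le (A := A (n + 1)) (H.lay (n + 1)) q, (H.aux n).1, ρ_pos (L (n + 1)),
        dist_triangle x u q', dist_triangle_right x u q]
  · obtain ⟨u, hu, k1, k2⟩ := mem_hit.1 hc
    rcases hP.cl c with k | ⟨⟨m, q⟩, k3, k4, k5, k6⟩
    · exact (Ce.lip H.tg (k x hx u hu) (k y hy u hu) (k u hu u hu)).trans ((H.aux n).2.2.2.2 _ k1)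
    · have k7 := k5 (mem_image_of_mem _ hu)
      rcases m with - | m
      · exact absurd (rG q k3 k7) k2
      · obtain rfl : m = n := by
          by_contra k8
          exact disjoint_left.1 (H.V_disj m n k8).2 (image_mono (rV _ k3) k7) k1
        exact (tri hx hy k6).trans ((mul_assoc _ _ _).ge.trans (H.aux m).2.2.1)
  · simp only [gau, thickening_iUnion]
    refine disjoint_left.2 ?_
    rintro _ ⟨x, hx, rfl⟩ k
    obtain ⟨q, hq, k1⟩ := mem_iUnion₂.1 k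
    obtain ⟨u, k2, k3⟩ := (cf n q hq).2.2.1 k1
    obtain rfl := gi ((fl _ hq).1 k2) (cs c hx) k3
    have k4 := (Fm.ok _ hq).T_ge
    have k5 : 0 < (crs L D A (n + 1, q)).ρ := ρ_pos (L (n + 1))
    have k6 := mul_le_mul_of_nonneg_right (hD (crs L D A (n + 1, q)).b) k5.le
    exact off _ hq j u (mem_closedBall.2 (by linarith [mem_ball.1 k2])) (hc.2 hx)
  · rcases hP.cl c with k | ⟨⟨m, q⟩, k3, k4, k5, k6⟩
    · refine .inl fun x hx y hy => ?_
      linarith [(H.δ_le.2 y (cs c hy)).1, k x hx y hy, k y hy y hy,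
        dist_triangle_right (g.toFun x) (g.toFun y) (f y)]
    · rcases m with - | m
      · rcases (𝓜.Q.cell c).eq_empty_or_nonempty with e | ⟨u, hu⟩
        · exact .inl fun x hx => absurd (e ▸ hx) (notMem_empty x)
        · exact .inr ⟨mem_hit.2 ⟨u, hu, rG q k3 (k5 (mem_image_of_mem _ hu))⟩,
            fun x hx y hy => (tri hx hy k6).trans ((mul_assoc _ _ _).ge.trans H.main.2.1)⟩
      · exact .inl fun x hx y hy => (tri hx hy k6).trans
          ((mul_assoc _ _ _).ge.trans ((H.aux m).2.2.2.1 y (rV _ k3 (k4 hy))))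
  · obtain ⟨c, hc⟩ := 𝓜.Q.mem_carrier.1 (𝓜.carrier.symm ▸ hx)
    rcases hP.cl c with k | ⟨t, k3, k4, -, k6⟩
    · exact (k x hc x hc).trans (H.δ_le.2 x hx).2
    · exact (k6 x hc x hc).trans (H.V_le t.1 x (rV t k3 (k4 hc))).2.2
  · rcases hP.cl c with k | ⟨t, k3, k4, -, -⟩
    · exact (k x hx y hy).trans (H.δ_le.1 _).2
    · exact absurd (hc hx) (off t k3 j x (ball_subset_closedBall (k4 hx)))
  · refine (fl _ (a0 q hq)).2.1.mono (closedBall_subset_ball ?_)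
    show (L 0).s / 2 - (L 0).θ * (L 0).s < (L 0).s / 2 - (L 0).θ * (L 0).s / 2 - (L 0).ρ
    linarith [ρ_le (H.lay 0) (hD _), ρ_pos (L 0)]

end P073.Ac4
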