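import Vale.Agent.P073Y.Ac4.Sk

/-!
# Sums over the far cells of dimension three
-/

open Set Metric Topology Filter MeasureTheory
open scoped ENNReal NNReal

namespace P073.Ac4

open M2 Zn
open _root_.P073.Top

theorem mean4 : MEAN4 := by
  intro S₀ X G M ς k₀ L hS hM hX hG hς hV hd
  refine ((mean_A le_rfl hS hM hX hG (hς.min continuous_const) k₀).add (Mn.mean_tsum fun n =>
    mean_A (ς := (L n).bmp) le_rfl hS hM (hX.inter (hV n)) hG
      (continuous_const.sub ((continuous_infDist_pt _).div_const _)) k₀)).mono ?_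
  have h1 := sum_cover hX hG hV (c := 2) fun x => (ENat.toENNReal_le.2 (show _ ≤ 2 by
    by_cases h : ∃ n, x ∈ (L (n + 1)).V
    · obtain ⟨n, hn⟩ := h
      refine (encard_le_encard (t := {0, n + 1}) fun m hm => ?_).trans
        (encard_pair (by omega)).le
      rcases m with _ | m
      · exact Or.inl rfl
      · exact Or.inr (by_contra fun e => disjoint_left.1 (hd m n fun a => e (a ▸ rfl)) hm hn)
    · refine (encard_le_encard (t := {0}) fun m hm => ?_).trans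
        ((encard_singleton 0).le.trans one_le_two)
      rcases m with _ | m
      exacts [rfl, absurd ⟨m, hm⟩ h])).trans_eq rfl
  rw [ENNReal.tsum_mul_left]
  refine (add_le_add le_rfl (mul_le_mul_right h1 _)).trans ?_
  calc _ = 65610 * (M * ∫⁻ x in X, G x) := by ring
    _ ≤ _ := by
      rw [mul_assoc]
      exact mul_le_mul_left (by norm_num) _

theorem farl : FARL := by
  intro Ω P σ 𝓒 M₀ Mt S₀ S 𝓜 L h A X G hA
  refine (𝓜.wires_sum (X := fun l => (X ∩ zn (base P.ς P.k₀) P.k₀ l) ∪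
    ⋃ n, X ∩ (L n).V ∩ zn (L n).bmp P.k₀ l) (c := fun l => ENNReal.ofReal (2⁻¹ ^ l * 2⁻¹ ^ l)) G
    fun φ hφ => ⟨(hA φ hφ).1, ?_, fun x hx => ?_⟩).trans (mul_le_mul_right ?_ _)
  · rw [sq, ENNReal.ofReal_mul (by positivity)]
    exact le_rfl
  · have h1 := 𝓜.zone φ x hx
    rcases h x (𝓜.carrier ▸ 𝓜.Q.cell_subset_carrier φ hx) with e | ⟨n, a, e⟩ <;> rw [e] at h1
    exacts [Or.inl ⟨(hA φ hφ).2 hx, Or.inl h1⟩,
      Or.inr (mem_iUnion.2 ⟨n, ⟨(hA φ hφ).2 hx, a⟩, Or.inl h1⟩)]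
  · unfold LAM4 LamA
    rw [ENNReal.tsum_comm, ← ENNReal.tsum_add]
    refine ENNReal.tsum_le_tsum fun l => ?_
    rw [ENNReal.tsum_mul_left, ← mul_add]
    refine mul_le_mul_right (le_trans (lintegral_mono_set ?_) ((lintegral_union_le _ _ _).trans
      (add_le_add le_rfl (lintegral_iUnion_le _ _)))) _
    rintro x ⟨a | a, b⟩
    · exact Or.inl ⟨a, b, trivial⟩
    · obtain ⟨n, a⟩ := mem_iUnion.1 a
      exact Or.inr (mem_iUnion.2 ⟨n, a, b, trivial⟩)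

theorem fart {p : ℝ} (hp : 1 ≤ p) : FART p := by
  classical
  intro Ω P σ 𝓒 M₀ Mt S₀ S 𝓜 h1 δ ok hδ
  have := 𝓜.Q.countable
  have := 𝓜.Q'.countable
  let c : 𝓜.Q.ι → ℝ≥0∞ := fun φ => (2 * M₀ * (M₀ * (𝓜.rr φ)⁻¹)) ^ p
  obtain ⟨η₀, a1, a2⟩ := ACC.exists_tol (fun e => tot {φ ∈ {φ | 𝓜.Q.dim φ = 3 ∧ 𝓜.far φ} |
    e ∈ wrs 𝓜.Q φ} c) (fun e => M2.tot_ne_top
      ((𝓜.Q.finite_cofaces e).subset fun φ hφ => hφ.2.2) fun φ _ =>
      ENNReal.rpow_ne_top_of_nonneg (by linarith) (ENNReal.mul_ne_top (by finiteness)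
        (ENNReal.mul_ne_top ENNReal.coe_ne_top (ENNReal.inv_ne_top.2 (𝓜.rr_ne_zero φ))))) hδ
  obtain ⟨η₁, b1, b2⟩ := ACC.exists_tol (fun _ : 𝓜.Q'.ι => 1) (fun _ => ENNReal.one_ne_top) hδ
  refine ⟨fun e => min (η₁ e) (if h : ∃ i, 𝓜.Q.cell i = 𝓜.Q'.cell e then η₀ h.choose else 1),
    fun φ => c φ * tot (wrs 𝓜.Q φ) η₀, fun e => lt_min (b1 e).1 ?_,
    le_trans (ENNReal.tsum_le_tsum fun e => (min_le_left _ _).trans (one_mul _).ge) b2,
    (tot_swap (fun φ e => e ∈ wrs 𝓜.Q φ) _ _ _).trans_le a2,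
    fun {f _ g F K} hF H H' φ hφ => ?_⟩
  · split_ifs
    exacts [(a1 _).1, one_pos]
  have h2 := 𝓜.far_W h1 (f := f) (g := g) (K := K) hp hF hφ (fun e => (a1 e).2)
    fun e he x y hc => by
      have hf := 𝓜.far_face φ e hφ he.2
      obtain ⟨-, e', d1, d2⟩ := 𝓜.far_keep ok hf
      obtain ⟨d3, d4⟩ := H e' x y (d2.trans he.1) (d1.trans hc)
      have d5 : ∃ i, 𝓜.Q.cell i = 𝓜.Q'.cell e' := ⟨e, d1.symm⟩
      refine ⟨d3, (H' e x y hf he.1 hc).trans (d4.trans (add_le_add le_rfl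
        ((min_le_right _ _).trans_eq ?_)))⟩
      rw [dif_pos d5, 𝓜.Q.cell_injective (d5.choose_spec.trans d1)]
  have h3 : volume (𝓜.Q.cell φ) ≤ 𝓜.rr φ ^ 3 := (Real.volume_pi_le_diam_pow _).trans
    (pow_le_pow_left' (ediam_le fun x hx y hy => by
      rw [edist_dist]
      exact ENNReal.ofReal_le_ofReal (𝓜.far_diam φ hφ x hx y hy)) _)
  unfold Src.W at h2
  rw [𝓜.r_eq] at h2
  calc _ ≤ 𝓜.rr φ * (𝓜.rr φ ^ 2 * (𝓜.src h1).A g φ ^ p) :=
      (mul_le_mul_left h3 _).trans_eq (by ring)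
    _ ≤ _ := by
      refine (mul_le_mul_right h2 _).trans ?_
      rw [mul_add]
      exact add_le_add (le_of_eq (by ring)) (mul_le_of_le_one_left' (𝓜.rr_le φ))

end P073.Ac4
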