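import Vale.Agent.P073Y.Ac4.Sk
import Vale.Agent.P073Y.B.Log

/-!
# The total energy for exponents from three on
-/

open Set Metric Topology Filter MeasureTheory
open scoped ENNReal NNReal

namespace P073.Ac4

open An (M3)
open M2 Zn Gc
open _root_.P073.Top
open B (Far3)
open Nr (nrc nrs)

namespace En

variable {Ω : Set E3} {P : Par} {σ : E3 → ℝ} {𝓒 : Set (ℕ × (Fin 3 → ℤ))} {M₀ : ℝ≥0}
  {Mt : Ty → ℕ → ℝ≥0} {S₀ : Set E3} {S : Ty → ℕ → Set E3} (𝓜 : Mesh2 Ω P σ 𝓒 M₀ Mt S₀ S)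
  {p b τ ρ θ s : ℝ} {K V : Set E3} {f k : E3 → E3} {F A : E3 → M3} {w : E3} {P₁ P₂ : Finset E3}

theorem far_off {c : 𝓜.Q.ι} (h : 𝓜.far c) {x : E3} (hx : x ∈ 𝓜.Q.cell c) (j : Fin P.N) :
    x ∉ P.K j := fun hK => disjoint_left.1 (𝓜.far_K c j h) hx (self_subset_thickening (by
      have h1 : (0:ℝ) < (P.T j).b := by exact_mod_cast (P.T j).b_pos
      have h2 := Cube.eta_pos (P := P)
      positivity) _ hK)

theorem mem_reg (h : Sol p f F K V b τ ρ s w P₁ P₂ A) {a : ℝ} {x : E3} (hx : x ∈ K)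
    (h1 : ∀ q ∈ P₁, x ∉ ball q (s / 2 - a)) : x ∈ reg P₁ P₂ s a 0 := by
  rcases h.cover hx with h3 | h3 <;> obtain ⟨q, hq, h3⟩ := mem_cubes.1 h3
  · exact Or.inr (mem_biUnion hq ⟨mem_closedBall.2 (by linarith), by
      rw [sub_zero]
      exact h1 q hq⟩)
  · exact Or.inl (mem_cubes.2 ⟨q, hq, by linarith⟩)

theorem vol (h : Sol p f F K V b τ ρ s w P₁ P₂ A) (hs : 0 < s) {a c : ℝ} (ha : 0 ≤ a) (h0 : 0 ≤ c)
    (hc : 2 * c ≤ s) (hθ : a + 2 * c ≤ 4 * θ * s) : volume (reg P₁ P₂ s a c) ≤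
      96 * (ENNReal.ofReal (s ^ 3) * P₂.card + ENNReal.ofReal θ * volume V) := by
  refine (Gc.vol_reg hs ha h0 hc hθ).trans ?_
  rw [mul_add, ENNReal.ofReal_mul (by norm_num), ENNReal.ofReal_ofNat, ← mul_assoc 96 _ (volume V)]
  exact add_le_add (mul_le_mul_left (by norm_num) _) (mul_le_mul' (le_of_eq (by ring)) (h.card hs))

/-- the energy on the deep balls -/
theorem deep (h : Sol p f F K V b τ ρ s w P₁ P₂ A) (hs : 0 < s) (hτ : 0 ≤ τ) (hρ : 0 ≤ ρ)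
    (hρ' : ρ ≤ s) {r : ℝ} (h0 : 0 < r) (hr : r ≤ 3 * s)
    (hk : ∀ q ∈ P₁, ∀ x ∈ ball q r, k x = f q + A q (x - q)) :
    ∫⁻ x in cubes P₁ r, ‖fderiv ℝ k x - F x‖ₑ ^ p ≤ ENNReal.ofReal τ * volume V := by
  have : Countable (P₁ : Set E3) := P₁.finite_toSet.countable.to_subtype
  rw [cubes, biUnion_eq_iUnion]
  refine (lintegral_iUnion_le _ _).trans ((tot_eq_subtype (P₁ : Set E3) fun q =>
    ∫⁻ x in closedBall q r, ‖fderiv ℝ k x - F x‖ₑ ^ p).ge.trans ?_)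
  rw [tot_finset]
  refine (Finset.sum_le_card_nsmul _ _ (ENNReal.ofReal (τ * s ^ 3)) fun q hq => ?_).trans ?_
  · rw [← setLIntegral_congr (interior_ae_eq_of_null_frontier
      ((convex_closedBall q r).addHaar_frontier volume)), interior_closedBall q h0.ne']
    refine le_trans (setLIntegral_mono' measurableSet_ball fun x hx => ?_)
      ((lintegral_mono_set (ball_subset_closedBall.trans (closedBall_subset_closedBall hr))).trans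
        ((h.int q hq).trans (ENNReal.ofReal_le_ofReal (by gcongr))))
    have h1 : HasFDerivAt k (A q) x := by
      refine HasFDerivAt.congr_of_eventuallyEq (f := fun u => f q + A q (u - q)) ?_
        (eventually_of_mem (isOpen_ball.mem_nhds hx) (hk q hq))
      simpa using ((A q).hasFDerivAt.comp x ((hasFDerivAt_id x).sub_const q)).const_add (f q)
    rw [h1.fderiv, enorm_sub_rev]
  · rw [nsmul_eq_mul, ENNReal.ofReal_mul hτ, mul_comm, mul_assoc]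
    exact mul_le_mul_right (h.card hs) _

/-- the wires on `K` -/
theorem onK (h : Sol p f F K V b τ ρ s w P₁ P₂ A) (hΩ : IsOpen Ω) (hs : 0 < s) (hρ : 0 ≤ ρ)
    (hθ : θ ≤ 1 / 10) (h3 : 3 * ρ ≤ θ * s) (hK : K ⊆ V)
    (hV : ∀ x ∈ V, σ x ≤ 3 / 2 * ρ ∧ ∀ j, x ∉ P.U j) {W : Set 𝓜.Q.ι}
    (hW : ∀ c ∈ W, ∀ q ∈ P₁, ¬ 𝓜.Q.cell c ⊆ closedBall q (s / 2 - θ * s)) (e : ℝ≥0∞) :
    tot W (fun c => 𝓜.rr c ^ 2 * wint 𝓜.Q (K.indicator fun _ => e) c) ≤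
      96 * (M₀ : ℝ≥0∞) ^ 6 *
        (e * (ENNReal.ofReal (s ^ 3) * P₂.card + ENNReal.ofReal θ * volume V)) := by
  have h1 : θ * s ≤ 1 / 10 * s := by gcongr
  have h2 := (far_vol 𝓜 (Y := V ∩ reg P₁ P₂ s (2 * θ * s) 0) hΩ (fun x hx => hV x hx.1)
    fun x hx => reg_ball hx.2).trans (mul_le_mul_right (vol (θ := θ) h hs (by linarith)
      (by linarith) (by linarith) (by linarith)) _)
  rw [tot_split _ {c | (𝓜.Q.cell c ∩ K).Nonempty}]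
  refine (add_le_add (tot_mono (b := fun c => M₀ * e * rr 𝓜 c ^ 3)
    (B := {c | (𝓜.Q.cell c ∩ (V ∩ reg P₁ P₂ s (2 * θ * s) 0)).Nonempty})
    (fun c hc => ?_) fun c hc => ?_)
    ((tot_le fun c hc => ?_).trans_eq (tot_zero _))).trans ?_
  · obtain ⟨a, x, hx, hx'⟩ := hc
    refine ⟨x, hx, hK hx', mem_reg h hx' fun q hq h4 => hW c a q hq fun y hy =>
      mem_closedBall.2 ?_⟩
    linarith [dist_triangle y x q, mem_ball.1 h4,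
      mem_closedBall.1 ((far_ball 𝓜 hV hx (hK hx')).2 hy)]
  · obtain ⟨-, x, hx, hx'⟩ := hc
    have h7 : wint 𝓜.Q (K.indicator fun _ => e) c ≤ wint 𝓜.Q (fun _ => e) c :=
      tot_le fun _ _ => lintegral_mono fun u => indicator_le_self _ _ u
    refine (mul_le_mul_right (h7.trans (wint_const 𝓜 (far_ball 𝓜 hV hx (hK hx')).1 e)) _).trans_eq ?_
    rw [rr_eq]
    ring
  · rw [wint_zero 𝓜 fun x hx => indicator_of_notMem (fun hx' => hc.2 ⟨x, hx, hx'⟩) _, mul_zero]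
  · rw [add_zero, tot_mul]
    exact (mul_le_mul_right h2 _).trans_eq (by ring)

theorem pow_le {x : E3} (h : ‖F x‖ ≤ b) (hp : 1 ≤ p) : ‖F x‖ₑ ^ p ≤ ENNReal.ofReal b ^ p := by
  rw [← ofReal_norm]
  exact ENNReal.rpow_le_rpow (ENNReal.ofReal_le_ofReal h) (by linarith)

theorem fin {Φ B M Cw Cu T u l v y z δ : ℝ≥0∞} :
    Φ + y + B * (Cu * (Cw * (M * u + 96 * M ^ 6 * v) + δ) + T * (Cw * (M * l) + δ) + δ +
      (z + 96 * v)) ≤ Φ + (1 + B * (Cu * Cw * M + Cw * M + (96 * Cu * Cw * M ^ 6 + 96) + 1 +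
        (Cu + 1))) * (u + T * l + v + y + z + (1 + T) * δ) := by
  have h1 : u ≤ u + T * l + v + y + z + (1 + T) * δ := by
    simp only [add_assoc]
    exact le_self_add
  have h2 : T * l ≤ u + T * l + v + y + z + (1 + T) * δ := by
    simp only [add_assoc]
    exact le_add_left le_self_add
  have h3 : v ≤ u + T * l + v + y + z + (1 + T) * δ :=
    le_add_right (le_add_right (le_add_right le_add_self))
  have h4 : y ≤ u + T * l + v + y + z + (1 + T) * δ := le_add_right (le_add_right le_add_self)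
  have h5 : z ≤ u + T * l + v + y + z + (1 + T) * δ := le_add_right le_add_self
  have h6 : (1 + T) * δ ≤ u + T * l + v + y + z + (1 + T) * δ := le_add_self
  generalize u + T * l + v + y + z + (1 + T) * δ = X at *
  calc _ ≤ Φ + y + B * (Cu * (Cw * (M * u + 96 * M ^ 6 * v) + δ) + T * (Cw * (M * l) + δ) + δ +
      (z + 96 * v) + Cu * T * δ) := add_le_add le_rfl (mul_le_mul_right le_self_add _)
    _ = Φ + (y + B * (Cu * Cw * M * u + Cw * M * (T * l) + (96 * Cu * Cw * M ^ 6 + 96) * v + z +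
      (Cu + 1) * ((1 + T) * δ))) := by ring
    _ ≤ Φ + (X + B * (Cu * Cw * M * X + Cw * M * X + (96 * Cu * Cw * M ^ 6 + 96) * X + X +
      (Cu + 1) * X)) := by gcongr
    _ = _ := by ring

end En

/-- **the energy** -/
def ENER4' (p : ℝ) : Prop := ∃ Cf : ℝ≥0 → ℝ≥0 → ℝ≥0 → ℝ≥0,
  ∀ {Ω X : Set E3} {P : Par} {σ : E3 → ℝ} {𝓒 : Set (ℕ × (Fin 3 → ℤ))} {M₀ : ℝ≥0}
  {Mt : Ty → ℕ → ℝ≥0} {S₀ : Set E3} {S : Ty → ℕ → Set E3} (𝓜 : Mesh2 Ω P σ 𝓒 M₀ Mt S₀ S)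
  (h1 : 1 ≤ M₀) {f g h k : E3 → E3} {F A : E3 → M3} {L : Lay} {D : ℝ → ℝ} {P₁ P₂ : Finset E3}
  {K₀ G : Fin P.N → Set E3} {Cw Cu : ℝ≥0} {Ct : Fin P.N → ℝ≥0} {t : 𝓜.Q.ι → ℝ≥0∞} {Φ δ : ℝ≥0∞}
  (Lm : Set E3 → (E3 → ℝ≥0∞) → ℝ≥0∞), IsOpen Ω → P.Ok Ω → Measurable F →
  Sol p f F L.K L.V L.b L.τ L.ρ L.s P.w P₁ P₂ A → 1 ≤ L.b → 0 ≤ L.τ → L.θ ≤ 1 / 10 → 0 < L.s →
  3 * L.ρ ≤ L.θ * L.s → MeasurableSet L.K → L.K ⊆ L.V → L.V ⊆ Ω → (∀ x ∈ L.K, ‖F x‖ ≤ L.b) →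
  (∀ j, Disjoint L.V (P.U j) ∧ K₀ j ⊆ P.K j) → (∀ x ∈ Ω, σ x ≤ 3 / 2 * L.ρ) →
  (Ω ∩ ⋃ j, cthickening (3 * L.ρ) (G j)) \ (⋃ j, K₀ j) ⊆ X →
  (∀ (A : Set 𝓜.Q.ι) (X : Set E3) (G : E3 → ℝ≥0∞), (∀ c ∈ A, 𝓜.far c ∧ 𝓜.Q.cell c ⊆ X) →
    tot A (fun c => 𝓜.rr c ^ 2 * wint 𝓜.Q G c) ≤ M₀ * Lm X G) →
  (∀ c, 𝓜.far c → volume (𝓜.Q.cell c) * (𝓜.src h1).A g c ^ p ≤
    Cw * (𝓜.rr c ^ 2 * wint 𝓜.Q (fun x => ‖F x‖ₑ ^ p) c) + t c) →
  tot {c | 𝓜.Q.dim c = 3 ∧ 𝓜.far c} t ≤ δ →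
  (∀ q ∈ P₁, EqOn g ((L.cr D A q).a f) (closedBall q (L.s / 2 - L.θ * L.s))) → InjOn g Ω →
  (∀ u ∈ Ω, g u ∈ prot L D f A P₁ → h u = g u) →
  (tot {c ∈ Far3 (𝓜.src h1) (nrc 𝓜) | ¬ g '' 𝓜.Q.cell c ⊆ prot L D f A P₁}
      (fun c => volume (𝓜.Q.cell c) * lipc h (𝓜.Q.cell c) ^ p) ≤
    Cu * tot {c ∈ Far3 (𝓜.src h1) (nrc 𝓜) | ¬ g '' 𝓜.Q.cell c ⊆ prot L D f A P₁}
      (fun c => volume (𝓜.Q.cell c) * (𝓜.src h1).A g c ^ p) +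
    ∑ j, Ct j * tot {c ∈ Far3 (𝓜.src h1) (nrc 𝓜) | (𝓜.Q.cell c ∩ G j).Nonempty}
      (fun c => volume (𝓜.Q.cell c) * (𝓜.src h1).A g c ^ p) + δ) →
  (∀ x, (∀ j, x ∉ nrs 𝓜 j) → k =ᶠ[𝓝 x] h) →
  ∑ j, ∫⁻ x in nrs 𝓜 j, ‖fderiv ℝ k x - F x‖ₑ ^ p ≤ Φ →
  ∫⁻ x in Ω, ‖fderiv ℝ k x - F x‖ₑ ^ p ≤ Φ + Cf M₀ Cw Cu *
    (Lm (Ω \ ⋃ j, K₀ j) (L.Kᶜ.indicator fun x => ‖F x‖ₑ ^ p) +
      (∑ j, (Ct j : ℝ≥0∞)) * Lm X (fun x => ‖F x‖ₑ ^ p) +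
      ENNReal.ofReal L.b ^ p * (ENNReal.ofReal (L.s ^ 3) * P₂.card +
        ENNReal.ofReal L.θ * volume L.V) +
      ENNReal.ofReal L.τ * volume L.V + (∫⁻ x in Ω \ (L.K ∪ ⋃ j, K₀ j), ‖F x‖ₑ ^ p) +
      (1 + ∑ j, (Ct j : ℝ≥0∞)) * δ)

theorem ener4 {p : ℝ} (hp : 1 ≤ p) : ENER4' p := by
  refine ⟨fun M Cw Cu => 1 + 2 ^ p * (Cu * Cw * M + Cw * M + (96 * Cu * Cw * M ^ 6 + 96) + 1 +
    (Cu + 1)), ?_⟩
  intro Ω X P σ 𝓒 M₀ Mt S₀ S 𝓜 h1 f g h k F A L D P₁ P₂ K₀ G Cw Cu Ct t Φ δ Lm hΩ ok hF sol hb hτ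
    hθ hs h3 hKm hKV hVΩ hKb hU hσ hX hLm hA ht hg hi hh hE hk hΦ
  have := 𝓜.Q.countable
  have a0 : 0 < L.ρ := by
    unfold Lay.ρ
    positivity
  have a1 : L.θ * L.s ≤ 1 / 10 * L.s := by gcongr
  have a2 : ∀ q ∈ P₁, closedBall q (L.s / 2 - L.θ * L.s) ⊆ L.V := fun q hq =>
    (closedBall_subset_closedBall (by linarith)).trans (sol.lat q (Or.inl hq)).2.1
  have a3 : ∀ q ∈ P₁, ∀ x ∈ closedBall q (L.s / 2 - L.θ * L.s), g x ∈ prot L D f A P₁ :=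
    fun q hq x hx => mem_biUnion hq ⟨x, hx, (hg q hq hx).symm⟩
  have a4 := En.deep (k := k) sol hs hτ a0.le (by linarith) (r := L.s / 2 - L.θ * L.s)
    (by linarith) (by linarith) fun q hq x hx => by
      have h4 := ball_subset_closedBall hx
      rw [(hk x fun j hj => disjoint_left.1 (hU j).1 (a2 q hq h4) (nrs_U 𝓜 j hj)).eq_of_nhds,
        hh x (hVΩ (a2 q hq h4)) (a3 q hq x h4), hg q hq h4]
      rfl
  have a5 : ∀ c, c ∈ Far3 (𝓜.src h1) (nrc 𝓜) → 𝓜.Q.dim c = 3 ∧ 𝓜.far c := fun c hc =>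
    ⟨hc.1, (far_iff 𝓜).1 hc.2⟩
  have a6 : ∀ c, 𝓜.far c → 𝓜.Q.cell c ⊆ Ω \ ⋃ j, K₀ j := fun c hc x hx =>
    ⟨𝓜.carrier ▸ 𝓜.Q.cell_subset_carrier c hx, fun h4 =>
      let ⟨j, hj⟩ := mem_iUnion.1 h4; En.far_off 𝓜 hc hx j ((hU j).2 hj)⟩
  have a7 : ∀ W : Set 𝓜.Q.ι, W ⊆ Far3 (𝓜.src h1) (nrc 𝓜) →
      tot W (fun c => volume (𝓜.Q.cell c) * (𝓜.src h1).A g c ^ p) ≤
        Cw * tot W (fun c => 𝓜.rr c ^ 2 * wint 𝓜.Q (fun x => ‖F x‖ₑ ^ p) c) + δ := fun W hW => by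
    refine (tot_le fun c hc => hA c (a5 c (hW hc)).2).trans ?_
    rw [tot_add, tot_mul]
    exact add_le_add le_rfl ((tot_subset (fun c hc => a5 c (hW hc)) _).trans ht)
  have a8 : ∀ j, tot {c ∈ Far3 (𝓜.src h1) (nrc 𝓜) | (𝓜.Q.cell c ∩ G j).Nonempty}
      (fun c => volume (𝓜.Q.cell c) * (𝓜.src h1).A g c ^ p) ≤
      Cw * (M₀ * Lm X fun x => ‖F x‖ₑ ^ p) + δ := fun j => by
    refine (a7 _ (sep_subset _ _)).trans (add_le_add (mul_le_mul_right (hLm _ _ _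
      fun c hc => ?_) _) le_rfl)
    obtain ⟨c1, x, hx, hx'⟩ := hc
    have c2 := (a5 c c1).2
    refine ⟨c2, fun y hy => hX ⟨⟨(a6 c c2 hy).1,
      mem_iUnion.2 ⟨j, mem_cthickening_of_dist_le y x _ _ hx' ?_⟩⟩, (a6 c c2 hy).2⟩⟩
    have h2 : (0:ℝ) < 2⁻¹ ^ 𝓜.kf c := by positivity
    linarith [𝓜.far_diam c c2 y hy x hx, (𝓜.zone c x hx).1, hσ x (a6 c c2 hx).1]
  obtain ⟨W, hW⟩ : ∃ W : Set 𝓜.Q.ι,
    W = {c ∈ Far3 (𝓜.src h1) (nrc 𝓜) | ¬ g '' 𝓜.Q.cell c ⊆ prot L D f A P₁} := ⟨_, rfl⟩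
  rw [← hW] at hE
  have b0 : W ⊆ Far3 (𝓜.src h1) (nrc 𝓜) := hW ▸ sep_subset _ _
  have b1 := En.onK 𝓜 sol hΩ hs a0.le hθ h3 hKV (fun x hx => ⟨hσ x (hVΩ hx),
    fun j => disjoint_left.1 (hU j).1 hx⟩) (W := W) (fun c hc q hq h4 => (hW ▸ hc :).2
      (image_subset_iff.2 fun x hx => a3 q hq x (h4 hx))) (ENNReal.ofReal L.b ^ p)
  have b2 : tot W (fun c => 𝓜.rr c ^ 2 * wint 𝓜.Q (fun x => ‖F x‖ₑ ^ p) c) ≤ _ :=
    (tot_le fun c _ => (mul_le_mul_right (wint_le 𝓜.Q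
      (G₂ := L.K.indicator fun _ => ENNReal.ofReal L.b ^ p)
      ((hF.enorm.pow_const p).indicator hKm.compl) fun x _ => by
        by_cases hx : x ∈ L.K
        · exact le_add_left ((En.pow_le (hKb x hx) hp).trans
            (indicator_of_mem hx fun _ => ENNReal.ofReal L.b ^ p).ge)
        · exact le_add_right (indicator_of_mem (s := L.Kᶜ) hx fun x => ‖F x‖ₑ ^ p).ge) _).trans_eq
      (mul_add _ _ _)).trans ((tot_add _ _ _).trans_le (add_le_add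
        (hLm _ _ _ fun c hc => ⟨(a5 c (b0 hc)).2, a6 c (a5 c (b0 hc)).2⟩) b1))
  have b3 := hE.trans (add_le_add (add_le_add (mul_le_mul_right ((a7 W b0).trans
    (add_le_add (mul_le_mul_right b2 _) le_rfl)) _) ((Finset.sum_le_sum fun j _ =>
      mul_le_mul_right (a8 j) _).trans_eq (Finset.sum_mul _ _ _).symm)) le_rfl)
  obtain ⟨R, hR⟩ : ∃ R, R = Ω \ ((⋃ j, nrs 𝓜 j) ∪ cubes P₁ (L.s / 2 - L.θ * L.s)) := ⟨_, rfl⟩
  have b4 : MeasurableSet R := hR ▸ hΩ.measurableSet.diff ((MeasurableSet.iUnion fun j => by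
      rw [show nrs 𝓜 j = ⋃ i ∈ nrc 𝓜 j, 𝓜.Q.cell i by ext; simp [nrs]]
      exact .biUnion (to_countable _) fun i _ => (𝓜.Q.isClosed_cell i).measurableSet).union
      (.biUnion (to_countable _) fun i _ => measurableSet_closedBall))
  have b5 : ∫⁻ x in R, ‖fderiv ℝ h x‖ₑ ^ p ≤
      tot W fun c => volume (𝓜.Q.cell c) * lipc h (𝓜.Q.cell c) ^ p := by
    refine (lintegral_mono_set (t := ⋃ c : W, 𝓜.Q.cell c) fun x hx => ?_).trans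
      ((lintegral_iUnion_le _ _).trans ((ENNReal.tsum_le_tsum fun c : W =>
        B.Lg.int_cvx h (𝓜.cvx c).1 (by linarith)).trans_eq (tot_eq_subtype W fun c =>
          volume (𝓜.Q.cell c) * lipc h (𝓜.Q.cell c) ^ p).symm))
    rw [hR] at hx
    obtain ⟨i, hi'⟩ := 𝓜.Q.mem_carrier.1 (𝓜.carrier.symm ▸ hx.1)
    obtain ⟨c, hc, hic⟩ := TP.exists_top 𝓜.cvx (𝓜.carrier.symm ▸ hΩ) i
    refine mem_iUnion.2 ⟨⟨c, hW ▸ ⟨⟨hc, fun j hj => hx.2 (Or.inl (mem_iUnion.2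
      ⟨j, c, hj, hic hi'⟩))⟩, fun h4 => hx.2 (Or.inr ?_)⟩⟩, hic hi'⟩
    obtain ⟨q, hq, y, hy, h5⟩ := mem_iUnion₂.1 (h4 ⟨x, hic hi', rfl⟩)
    rw [← hi (hVΩ (a2 q hq hy)) hx.1 ((hg q hq hy).trans h5)]
    exact mem_biUnion hq hy
  have b6 : ∫⁻ x in R, ‖F x‖ₑ ^ p ≤ (∫⁻ x in Ω \ (L.K ∪ ⋃ j, K₀ j), ‖F x‖ₑ ^ p) +
      96 * (ENNReal.ofReal L.b ^ p * (ENNReal.ofReal (L.s ^ 3) * P₂.card +
        ENNReal.ofReal L.θ * volume L.V)) := by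
    refine (lintegral_mono_set (t := (Ω \ (L.K ∪ ⋃ j, K₀ j)) ∪
      (L.K ∩ reg P₁ P₂ L.s (L.θ * L.s) 0)) fun x hx => ?_).trans
      ((lintegral_union_le _ _ _).trans (add_le_add le_rfl ?_))
    · rw [hR] at hx
      by_cases hK : x ∈ L.K
      · exact Or.inr ⟨hK, En.mem_reg sol hK fun q hq h4 =>
          hx.2 (Or.inr (mem_biUnion hq (ball_subset_closedBall h4)))⟩
      · exact Or.inl ⟨hx.1, fun h4 => h4.elim hK fun h5 =>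
          hx.2 (Or.inl (iUnion_mono (fun j => (hU j).2.trans (K_nrs 𝓜 ok j)) h5))⟩
    · refine le_trans (lintegral_mono_ae ?_) ((setLIntegral_const _ _).trans_le
        ((mul_le_mul_right ((measure_mono inter_subset_right).trans (En.vol (θ := L.θ) sol hs
          (by linarith) le_rfl (by linarith) (by linarith))) _).trans_eq (mul_left_comm _ _ _)))
      filter_upwards [ae_mono (Measure.restrict_mono inter_subset_left le_rfl)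
        (ae_restrict_mem hKm)] with x hx
      exact En.pow_le (hKb x hx) hp
  have b7 : ∫⁻ x in R, ‖fderiv ℝ k x - F x‖ₑ ^ p ≤
      2 ^ p * ((∫⁻ x in R, ‖fderiv ℝ h x‖ₑ ^ p) + ∫⁻ x in R, ‖F x‖ₑ ^ p) := by
    rw [← lintegral_add_right _ (hF.enorm.pow_const p), ← lintegral_const_mul' _ _
      (ENNReal.rpow_ne_top_of_nonneg (by linarith) ENNReal.ofNat_ne_top)]
    refine setLIntegral_mono' b4 fun x hx => ?_
    rw [(hk x fun j hj => (hR ▸ hx :).2 (Or.inl (mem_iUnion.2 ⟨j, hj⟩))).fderiv_eq]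
    exact (ENNReal.rpow_le_rpow enorm_sub_le (by linarith)).trans (Nr.Sm.add_rpow_le hp _ _)
  refine (lintegral_mono_set (subset_union_right.trans union_sdiff_self.ge)).trans
    ((lintegral_union_le _ ((⋃ j, nrs 𝓜 j) ∪ cubes P₁ (L.s / 2 - L.θ * L.s)) _).trans
      ((add_le_add ((lintegral_union_le _ _ _).trans (add_le_add (((lintegral_iUnion_le _ _).trans_eq
        (tsum_fintype _)).trans hΦ) a4)) (hR ▸ b7.trans (mul_le_mul_right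
          (add_le_add (b5.trans b3) b6) _))).trans (En.fin.trans_eq ?_)))
  push_cast [ENNReal.coe_rpow_of_nonneg _ (zero_le_one.trans hp)]
  rfl

end P073.Ac4
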