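import Vale.Agent.P073Y.Ac4.Sk2
import Vale.Agent.P073Y.Ac4.Ener
import Vale.Agent.P073Y.Gd.Good2
import Vale.Agent.P073Z.ACC.Mid

/-!
# The construction for a fixed shift, exponents from three on
-/

open Set Metric Topology Filter MeasureTheory
open scoped ENNReal NNReal

namespace P073.Ac4

open An (M3)
open M2 Zn Gc
open _root_.P073.Top
open Nr (nrc nrs)

namespace F4

theorem exists_small {c δ δ' : ℝ≥0∞} (hc : c ≠ ⊤) (h : 0 < δ) (h' : 0 < δ') :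
    ∃ e, 0 < e ∧ e ≤ δ' ∧ c * e ≤ δ :=
  ⟨min δ' (δ / c), lt_min h' (ENNReal.div_pos h.ne' hc), min_le_left _ _,
    (mul_le_mul_right (min_le_right _ _) _).trans ENNReal.mul_div_le⟩

variable {Ω : Set E3} {P : Par} {σ : E3 → ℝ} {𝓒 : Set (ℕ × (Fin 3 → ℤ))} {M₀ : ℝ≥0}
  {Mt : Ty → ℕ → ℝ≥0} {S₀ : Set E3} {S : Ty → ℕ → Set E3} (𝓜 : Mesh2 Ω P σ 𝓒 M₀ Mt S₀ S)

theorem U_sub (j : Fin P.N) : P.U j ⊆ cthickening (100 * (P.T j).b * P.η) (P.K j) :=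
  thickening_subset_cthickening_of_le (by
    nlinarith [mul_nonneg (Nat.cast_nonneg (P.T j).b : (0:ℝ) ≤ _) (Cube.eta_pos (P := P)).le]) _

theorem wires {R : E3 → E3 → Prop} (h : ∀ x y : E3, segment ℝ x y ⊆ Ω →
    (∀ i, ∃ q : ℚ, x i = P.w i + q) → (∀ i, ∃ q : ℚ, y i = P.w i + q) → R x y) (e : 𝓜.Q'.ι)
    (x y : E3) (he : 𝓜.Q'.dim e = 1) (hs : 𝓜.Q'.cell e = segment ℝ x y) : R x y := by
  obtain ⟨-, ⟨v, hv, hx⟩, v', hv', hy⟩ := Mid.ends 𝓜.cvx' he hs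
  exact h x y (hs ▸ (𝓜.Q'.cell_subset_carrier e).trans 𝓜.carrier'.le) (𝓜.rat' v hv x hx)
    (𝓜.rat' v' hv' y hy)

end F4

open F4

theorem fix4_of {p : ℝ} (hp : 1 ≤ p) (hS : SIZE4) (hF : FAM) (hP : PREP) (hL : FLAT) (hC : CERT4)
    (hR : FARL) (hT : FART p) (hE : ENER4' p) : FIX4 p := by
  obtain ⟨K₂, hP⟩ := hP
  obtain ⟨a₀, a0, a1, hC⟩ := hC
  obtain ⟨Cf, hE⟩ := hE
  have p0 : 0 ≤ p := zero_le_one.trans hp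
  refine ⟨K₂, fun m u => Cf m ((2 * m * K₂) ^ p * m) u, a₀, a0, a1, ?_⟩
  intro M₀ h1
  obtain ⟨τ, D, hτ, hP⟩ := hP M₀
  have hD := fun b => (hτ b).2.2
  refine ⟨τ, D, fun b => ⟨(hτ b).1, by linarith [hD b]⟩, ?_⟩
  intro Ω Λ Ω₀ X f f' F P Y L κ ε s₁ oN d β' c₀ e δ o o₁ Z vv rr μ₀ P₁ P₂ A Cz CM Cu Ct Mt S₀ Sl Tg B
    Φ δ₀ H ⟨mq, hmk⟩ hs hB hN hδ₀
  have hΩ := H.std.oΩ
  obtain ⟨fam, hV, hσ⟩ := hF H hs hD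
  obtain ⟨σ, sz, ok0, ok1⟩ := hS H.ok fam hD
  have cmp := hmk _ _ ok1 _ _ ok0
  generalize mq _ _ ok1 = 𝓜₁ at cmp
  generalize mq _ _ ok0 = 𝓜 at cmp
  have hseg := wires 𝓜 H.good
  obtain ⟨γ₁, δN, Pw, d0, g1, g2, hN⟩ := hN 𝓜 H.ok β' le_rfl H.inv hseg
  obtain ⟨γ', g3, g4⟩ := G2.gsum γ₁ H.β_pos fun j j' hj i hi i' hi' _ ⟨x, hx, e1⟩ _ ⟨y, hy, e2⟩ => by
    obtain ⟨v, a1, a2⟩ := (g1 j i hi).2 x hx
    obtain ⟨v', a3, a4⟩ := (g1 j' i' hi').2 y hy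
    rw [← e1, ← e2]
    linarith [H.sep j j' hj v a1.2 v' a3.2, dist_comm (f v) ((γ₁ j).A i x),
      dist_triangle4 (f v) ((γ₁ j).A i x) ((γ₁ j').A i' y) (f v')]
  have fC : ∑ j, (Ct M₀ (Y j).θ (Y j).N (Y j).t (Y j).L : ℝ≥0∞) ≠ ⊤ :=
    ENNReal.sum_ne_top.2 fun _ _ => ENNReal.coe_ne_top
  obtain ⟨δ', e0, e1, e2⟩ := exists_small (c := Cf M₀ ((2 * M₀ * K₂) ^ p * M₀) (Cu M₀) *
    (1 + ∑ j, (Ct M₀ (Y j).θ (Y j).N (Y j).t (Y j).L : ℝ≥0∞))) (by finiteness) hδ₀ d0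
  obtain ⟨η, t, b1, b2, b3, hW⟩ := hT 𝓜 h1 H.ok e0.ne'
  obtain ⟨g₀, o1, o2, o3⟩ := hP (K₀ := ⋃ j, (Y j).K) 𝓜 𝓜₁ γ' η H.std H.meas fam sz ok1 cmp H.good
    H.β_pos b1 H.tg (fun i hi x hx => (H.V_le i.1 x (hV i hi (ball_subset_closedBall hx))).2.1)
    H.osc (iUnion_subset fun j => (Y j).sub.trans (Y j).subΩ)
    (fun v hv => by
      obtain ⟨j, hj⟩ := mem_iUnion.1 hv
      exact ⟨(H.β_le j v hj).1, fun x hx hd => ⟨j, (H.β_le j v hj).2 x hx hd⟩⟩)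
    (fun i hi => by
      obtain ⟨j, hj⟩ := (g3 i).1 hi
      refine ⟨⟨j, (g1 j i hj).1⟩, fun x hx => ?_⟩
      obtain ⟨v, c1, c2⟩ := (g1 j i hj).2 x hx
      exact ⟨v, mem_iUnion.2 ⟨j, c1.2⟩, (g4 j i hj).1 ▸ c2⟩)
  obtain ⟨Θ, q1, q2, q3⟩ := csw 𝓜.Q g₀ Pw hΩ 𝓜.cvx 𝓜.carrier
  obtain ⟨g, hg⟩ : ∃ g : ConHomeo Ω Λ, g.toFun = g₀.toFun ∘ Θ.toFun := ⟨Θ.trans g₀, rfl⟩
  obtain ⟨fc, fn, hL⟩ := hL 𝓜 h1 H.ok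
  obtain ⟨c1, c2, c3, c4, c5, c6, c7, c8⟩ := hC 𝓜 h1 g H hs (fun b => (hτ b).2) sz
    (hg ▸ (hL fam sz hD o3).2 Θ.toFun q1 q2)
  obtain ⟨𝓢, ψ, a, m, n1, hN⟩ := hN g₀.toFun Θ.toFun g.toFun (fun _ x _ => congrFun hg x)
    ⟨fun j i hi => (g4 j i hi).1 ▸ o1 i ((g3 i).2 ⟨j, hi⟩),
      ⟨η, b2.trans e1, fun e x y he hs _ => o2 e x y he hs⟩, q1, q3, fun j i hi x hx y hy => by
        have := c7 j i hi x hx y hy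
        rwa [hg] at this⟩
  obtain ⟨h, r1, r2, r3, r4⟩ := hB (𝓜.src h1) g M₀ (fun c => volume (𝓜.Q.cell c)) (nrc 𝓜) 𝓜.ν
    (𝓜.nrm h1 H.ok) δ' 𝓢 ψ a m _ _ _ _ _ fc fn e0 c1 c2 c3 c4 c5 c6
    (fun j => ⟨let ⟨u, v, b1, b2, b3⟩ := 𝓜.cond H.ok j; ⟨u, v, b1, b2, b3.trans (H.L_ge j)⟩,
      fun i hi x hx => H.near j (U_sub j (hi.2 hx)), n1 j⟩)
    fun c hc => ⟨𝓜.MI_far c ((far_iff 𝓜).1 hc.2), (𝓜.Q.isCompact_cell c).measure_lt_top.ne⟩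
  obtain ⟨k, k1, k2, k3⟩ := hN h B δ' e1 r4
  refine ⟨k, fun u hu => ?_, ?_⟩
  · obtain ⟨y, hy, s1, s2⟩ := k1 u hu
    rw [s2]
    linarith [dist_triangle (h.toFun y) (f y) (f u), r1 y hy, (H.δ_le.1 (f u)).1,
      H.osc u hu y hy (by linarith [(H.ok.pos u hu).1])]
  have l0 := H.lay 0
  have r0 : 0 < (L 0).ρ := by unfold Lay.ρ; positivity
  refine (hE 𝓜 h1 (fun X G => LAM4 S₀ P.ς P.k₀ L X G P.w) (K₀ := fun j => (Y j).K)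
    (G := fun j => (Y j).G) (Cw := (2 * M₀ * K₂) ^ p * M₀) hΩ H.ok H.meas (hs.sol 0) l0.b_ge
    l0.τ_mem.1 l0.θ_le l0.s_pos (by nlinarith [l0.ρ_le, hD (L 0).b]) H.K_meas H.K_V (H.V_sub 0)
    H.K_b (fun j => ⟨(H.V_off 0 j).mono_right (U_sub j), H.K_sub j⟩)
    (fun x hx => (hσ σ sz x hx).1) H.X_ge (hR 𝓜 L fun x hx => (hσ σ sz x hx).2)
    (fun c hc => ?_) b3 c8 g.injOn r2 r3 k2 k3).trans ?_
  · have := hW (g := g.toFun) H.meas (fun e x y he hs => ⟨hseg e x y he hs, o2 e x y he hs⟩)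
      (fun e x y hf he hs => by
        have b7 := (q3 e x y he hs).1
        rw [g2 e (𝓜.far_keep H.ok hf).1] at b7
        exact hg ▸ b7) c hc
    rwa [ENNReal.coe_mul, ENNReal.coe_rpow_of_nonneg _ p0, ENNReal.coe_mul, ENNReal.coe_mul]
  · rw [mul_add _ _ (_ * δ'), ← add_assoc, ← mul_assoc]
    exact add_le_add le_rfl e2

end P073.Ac4
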