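import Vale.Agent.P073Y.Ac4.Sk

/-!
# Flat cores and their certificates
-/

open Set Metric Topology Filter MeasureTheory
open scoped ENNReal NNReal

namespace P073.Ac4

open Me (dy)
open An (M3)
open M2 Zn Gc
open _root_.P073.Top
open B (Cer Fc)

namespace Fl

/-- the affine map of a core is an affine equivalence -/
theorem exists_equiv (c : Cr) (f : E3 → E3) (h : Bil c.b c.A) :
    ∃ e : E3 ≃ᴬ[ℝ] E3, ∀ x, e x = c.a f x := by
  have h1 : Function.Injective (c.A : E3 →ₗ[ℝ] E3) := (injective_iff_map_eq_zero _).2 fun u hu =>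
    norm_le_zero_iff.1 ((h.2 u).trans_eq (by rw [show c.A u = 0 from hu, norm_zero, mul_zero]))
  obtain ⟨θ, hθ⟩ := Me.exists_aff (LinearEquiv.ofInjectiveEndo _ h1) c.q
  exact ⟨θ.trans (ContinuousAffineEquiv.constVAdd ℝ E3 (f c.q)), fun x => by
    rw [ContinuousAffineEquiv.trans_apply, hθ]; rfl⟩

variable {Ω : Set E3} {P : Par} {σ : E3 → ℝ} {M₀ : ℝ≥0} {Mt : Ty → ℕ → ℝ≥0} {S₀ : Set E3}
  {S : Ty → ℕ → Set E3} {f : E3 → E3} {F : E3 → M3} {τ D : ℝ} {c : Cr}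

theorem ρ_pos (c : Cr) : 0 < c.ρ := by unfold Cr.ρ; positivity

theorem box (𝓜 : Mesh2 Ω P σ ∅ M₀ Mt S₀ S) (h : c.Ok Ω P f F τ D) (hD : 20 ≤ D)
    (hσ : ∀ x ∈ c.room, σ x = max (base P.ς P.k₀ x) (c.bump x)) {l : 𝓜.Q.ι} {x : E3}
    (hl : x ∈ 𝓜.Q.ocell l) (hx : x ∈ closedBall c.q c.R) :
    𝓜.Q.cell l = dy P c.k ⁻¹' hull (dy P c.k x) := by
  refine (𝓜.unif l c.k x hl fun y hy => ?_).2 fun ⟨_, h1, _⟩ => h1
  have h0 := ρ_pos c
  have h1 : dist y c.q ≤ c.R + c.ρ := by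
    linarith [dist_triangle y x c.q, mem_closedBall.1 hx, show dist y x ≤ c.ρ from hy]
  have h2 : y ∈ c.room := mem_ball.2 (by nlinarith [h.T_ge])
  have h3 : σ y = 3 / 2 * c.ρ := by
    rw [hσ y h2, Cr.bump, infDist_zero_of_mem (mem_closedBall.2 (by linarith)), zero_div, sub_zero]
    exact max_eq_right (h.bas y h2)
  refine ⟨?_, fun j h4 => Set.disjoint_left.1 (h.off j) (ball_subset_closedBall h2)
    (Gd.U_cth P j h4)⟩
  rw [Pin, h3]
  exact ⟨by show 11 / 10 * c.ρ ≤ _; linarith, by show _ ≤ 17 / 10 * c.ρ; linarith⟩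

theorem ball_core (c : Cr) (P : Par) : ball c.q (c.R - c.ρ) ⊆ c.core P := fun x hx => by
  have h1 : dy P c.k x ∈ ucube fun i => ⌊dy P c.k x i⌋ :=
    Me.mem_ucube.2 fun i => ⟨Int.floor_le _, (Int.lt_floor_add_one _).le⟩
  refine ⟨_, fun y hy => ?_, h1⟩
  have h2 := Me.dist_dy (P := P) c.k y x
  have h3 := mul_le_mul_of_nonneg_left (Me.dist_ucube hy h1) (ρ_pos c).le
  rw [mem_closedBall]
  rw [Cr.ρ] at h3
  rw [mem_ball, Cr.ρ] at hx
  linarith [dist_triangle y x c.q]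

end Fl

/-- **certificates from flat balls** -/
theorem cerf : CERF := by
  intro Ω S f g c μ hg hA hb hμ ⟨h1, h2, ξ, h3⟩
  obtain ⟨e, he⟩ := Fl.exists_equiv c f hA
  have he' : c.a f = e := funext fun x => (he x).symm
  have h4 : ∀ y ∈ c.inn f μ, ∀ x ∈ Ω, g x ∈ ball y μ → x ∈ ball c.q (c.R - c.ρ) := by
    intro y hy x hx h5
    obtain ⟨u, hu, h6⟩ := hy (ball_subset_closedBall h5)
    rwa [← hg (h1 hu) hx ((h2 hu).trans h6)]
  refine ⟨isOpen_iff_mem_nhds.2 fun y hy => ?_, fun y hy => ⟨ξ, e.toAffineEquiv, fun l x hx h5 =>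
    h3 l x hx (h4 y hy x (S.carrier ▸ S.Q.cell_subset_carrier l (S.Q.ocell_subset l hx)) h5),
    fun x hx h5 => (h2 (h4 y hy x hx h5)).trans (he x).symm⟩, fun z hz => ?_,
    fun x y h5 h6 z hz => ?_⟩
  · obtain ⟨r, hr, h5⟩ := (isCompact_closedBall y μ).exists_cthickening_subset_open
      (t := c.a f '' ball c.q (c.R - c.ρ)) (he' ▸ e.toHomeomorph.isOpenMap _ isOpen_ball) hy
    refine mem_of_superset (closedBall_mem_nhds y hr) fun y' hy' z hz => h5 ?_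
    rw [cthickening_closedBall hr.le hμ]
    exact closedBall_subset_closedBall' (add_comm μ r ▸ add_le_add le_rfl hy') hz
  · obtain ⟨y, hy, h5⟩ := mem_thickening_iff.1 hz
    rw [h2.image_eq]
    exact hy h5.le
  · obtain ⟨u, rfl⟩ := e.surjective z
    refine ⟨u, mem_ball.2 ?_, (he u).symm⟩
    have h7 := hA.2 (u - x)
    have h8 : c.A (u - x) = e u - c.a f x := by
      rw [he, Cr.a, Cr.a, add_sub_add_left_eq_sub, ← map_sub, sub_sub_sub_cancel_right]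
    rw [h8, ← dist_eq_norm, ← dist_eq_norm] at h7
    have h9 := mul_le_mul_of_nonneg_left
      ((dist_triangle (e u) y _).trans (add_le_add (mem_closedBall.1 hz) h5)) hb.le
    linarith [dist_triangle u x c.q]

/-- **the cores are flat** -/
theorem flat : FLAT := by
  intro Ω P σ M₀ Mt S₀ S 𝓜 h1 ok
  refine ⟨fun c l h _ => 𝓜.chartI c l h, fun j c l h _ => ?_, ?_⟩
  · have h2 : 𝓜.Q.cell l ⊆ 𝓜.Q.cell c := (image_subset_image_iff (𝓜.ν j).injective).1 h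
    show Bd.Chart (𝓜.Q.dim l) (𝓜.ν j '' 𝓜.Q.cell l) (𝓜.ν j '' 𝓜.Q.bd l)
      ((𝓜.nrm h1 ok j).M c / (2⁻¹ ^ 𝓜.kf c / 2⁻¹ ^ P.k₀))
      ((𝓜.nrm h1 ok j).M c * (2⁻¹ ^ 𝓜.kf c / 2⁻¹ ^ P.k₀))
    by_cases hb : 𝓜.Q.cell c ⊆ P.BufSet j
    · rw [𝓜.nrm_M_buf h1 ok hb, 𝓜.kf_buf ok hb, div_self (by positivity), div_one, mul_one]
      exact 𝓜.chart_buf hb h2
    · rw [𝓜.nrm_M h1 ok hb]
      exact 𝓜.chart_nu ok j h2
  intro f g F τ D δ ι I c hF hS hD hP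
  have h0 : ∀ i ∈ I, closedBall (c i).q (c i).R ⊆ Ω := fun i hi =>
    (closedBall_subset_closedBall (by
      nlinarith [(hF.ok i hi).T_ge, Fl.ρ_pos (c i), hD (c i).b])).trans (hF.ok i hi).sub
  refine ⟨fun i hi => ?_, fun Θ h2 h3 => ⟨fun i hi x hx => ?_, fun l => ?_⟩⟩
  · have h2 : ball (c i).q ((c i).R - (c i).ρ) ⊆ closedBall (c i).q (c i).R :=
      ball_subset_closedBall.trans (closedBall_subset_closedBall (by linarith [Fl.ρ_pos (c i)]))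
    obtain ⟨ν, hν⟩ := Me.exists_dy P (c i).k
    refine ⟨h2.trans (h0 i hi), (hP.core i hi).mono (Fl.ball_core _ P), ν.toAffineEquiv,
      fun l x hx h3 => ?_⟩
    rw [show ⇑ν.toAffineEquiv = dy P (c i).k from funext hν]
    exact Fl.box 𝓜 (hF.ok i hi) (hD _) (hS.on i hi) hx (h2 h3)
  · obtain ⟨z, hz, h4⟩ := hx
    obtain ⟨l, hl⟩ := 𝓜.Q.exists_ocell (𝓜.carrier ▸ h0 i hi (hz h4))
    obtain ⟨e, he⟩ := Fl.exists_equiv (c i) f (hF.ok i hi).bil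
    have h5 : 𝓜.Q.cell l ⊆ (c i).core P := by
      rw [Fl.box 𝓜 (hF.ok i hi) (hD _) (hS.on i hi) hl (hz h4)]
      exact fun y hy => ⟨z, hz, hull_cube h4 hy⟩
    have h6 := h3 l e.toAffineEquiv.toAffineMap
      (fun y hy => (hP.core i hi (h5 hy)).trans (he y).symm) (𝓜.Q.ocell_subset l hl)
    exact (congrArg g h6).trans (hP.core i hi ⟨z, hz, h4⟩)
  · have h4 : ∀ x ∈ 𝓜.Q.cell l, Θ x ∈ 𝓜.Q.cell l := fun x hx => (h2 l).subset ⟨x, hx, rfl⟩
    refine (hP.cl l).imp (fun h x hx y hy => h _ (h4 x hx) y hy) fun ⟨i, hi, a, b, d⟩ =>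
      ⟨i, hi, a, ?_, fun x hx y hy => d _ (h4 x hx) y hy⟩
    rwa [image_comp, h2]

end P073.Ac4
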