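import Vale.Agent.P073Y.Ms.Start

/-!
# Balls in the target are covered
-/

open Set Metric

namespace P073.Ac4

open An (M3)
open M2 Gc

theorem cover {Ω Λ : Set E3} {f f' : E3 → E3} {A : M3} {q x : E3} {T b l t : ℝ} (hΛ : IsOpen Λ)
    (hf : HomeoOn f f' Ω Λ) (hT : closedBall q T ⊆ Ω) (hA : Bil b A)
    (hc : Close f A (closedBall q T) l) (hb : 0 < b) (ht : 0 ≤ t) (hl : 0 ≤ l)
    (h : dist x q + b * (t + l) < T) : closedBall (f x) t ⊆ f '' closedBall x (b * (t + l)) := by
  have h0 := mul_nonneg hb.le (add_nonneg ht hl)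
  have sub : closedBall x (T - dist x q) ⊆ closedBall q T :=
    closedBall_subset_closedBall' (by linarith)
  have hx : x ∈ closedBall q T := sub (mem_closedBall_self (by linarith))
  intro y hy
  obtain ⟨u, hu, rfl⟩ := ball_sub_image hΛ hf (sub.trans hT) (mem_ball_self (by linarith)) ht
    (fun u hu => lt_of_not_ge fun k => by
      have := (close_lip hA hc hb.le hx (sub (sphere_subset_closedBall hu))).2
      rw [mem_sphere.1 hu] at this
      nlinarith) hy
  exact ⟨u, (close_lip hA hc hb.le hx (sub (ball_subset_closedBall hu))).2.trans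
    (mul_le_mul_of_nonneg_left (add_le_add hy le_rfl) hb.le), rfl⟩

end P073.Ac4
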