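import Vale.Agent.P073Y.Ac4.Sk
import Vale.Agent.P073Y.Ac4.Cover
import Vale.Agent.P073Y.B.Cube2

/-!
# The main cores in the target
-/

open Set Metric Topology Filter MeasureTheory
open scoped ENNReal NNReal

namespace P073.Ac4

open An (M3)
open Zn Gc
open B (Cer Main)

namespace Mb

/-- a face plane of the image of a cube -/
noncomputable def pl (B : E3 →ₗ[ℝ] E3) (y₀ : E3) (i : Fin 3) (σ r : ℝ) : E3 →ᵃ[ℝ] ℝ :=
  (σ • (LinearMap.proj i : E3 →ₗ[ℝ] ℝ).comp B).toAffineMap +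
    AffineMap.const ℝ E3 (-(σ * B y₀ i) - r)

theorem pl_apply (B : E3 →ₗ[ℝ] E3) (y₀ : E3) (i : Fin 3) (σ r : ℝ) (z : E3) :
    pl B y₀ i σ r z = σ * B (z - y₀) i - r := by
  simp [pl]
  ring

theorem pl_ne {B : E3 →ₗ[ℝ] E3} (hB : Function.Surjective B) (y₀ : E3) (i : Fin 3) {σ : ℝ}
    (hσ : σ ≠ 0) (r : ℝ) : (pl B y₀ i σ r).linear ≠ 0 := fun h => by
  obtain ⟨v, hv⟩ := hB (Pi.single i 1)
  have := LinearMap.congr_fun h v
  simp [pl, hv, hσ] at this

theorem neg_of {ℓ : E3 →ᵃ[ℝ] ℝ} {c z z' : E3} {e : ℝ} (h : ∀ u ∈ closedBall c e, ℓ u ≠ 0)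
    (hz : z ∈ closedBall c e) (hz' : z' ∈ closedBall c e) (h0 : ℓ z ≤ 0) : ℓ z' < 0 := by
  by_contra hn
  obtain ⟨u, hu, e0⟩ := (convex_closedBall c e).isPreconnected.intermediate_value hz hz'
    ℓ.continuous_of_finiteDimensional.continuousOn ⟨h0, not_lt.1 hn⟩
  exact h u hu e0

theorem exists_inv {b : ℝ} {A : M3} (h : Bil b A) :
    ∃ B : E3 →ₗ[ℝ] E3, (∀ u, B (A u) = u) ∧ ∀ v, A (B v) = v := by
  have hi : Function.Injective A.toLinearMap := (injective_iff_map_eq_zero _).2 fun u hu => by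
    have := h.2 u
    rw [show A u = 0 from hu, norm_zero, mul_zero] at this
    exact norm_le_zero_iff.1 this
  let e := LinearEquiv.ofInjectiveEndo A.toLinearMap hi
  exact ⟨e.symm.toLinearMap, e.symm_apply_apply, e.apply_symm_apply⟩

/-- the nearest point of a cube -/
theorem exists_proj (q x : E3) {r d : ℝ} (hr : 0 ≤ r) (hd : 0 ≤ d) (h : dist x q ≤ r + d) :
    ∃ x', dist x' q ≤ r ∧ dist x x' ≤ d := by
  refine ⟨fun i => max (q i - r) (min (x i) (q i + r)), (dist_pi_le_iff hr).2 fun i => ?_,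
    (dist_pi_le_iff hd).2 fun i => ?_⟩
  · rw [Real.dist_eq, abs_le]
    exact ⟨by linarith [le_max_left (q i - r) (min (x i) (q i + r))],
      sub_le_iff_le_add'.2 (max_le (by linarith) (min_le_right _ _))⟩
  · have h1 := abs_le.1 ((Real.dist_eq _ _).ge.trans ((dist_le_pi_dist x q i).trans h))
    rw [Real.dist_eq, abs_le]
    refine ⟨le_sub_comm.1 ?_, sub_le_comm.1 ?_⟩
    · exact max_le (by linarith [h1.1]) ((min_le_left _ _).trans (by linarith))
    · exact le_max_of_le_right (le_min (by linarith) (by linarith [h1.2]))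

theorem card_le {s : ℝ} (hs : 0 < s) {q₀ : E3} (h0 : q₀ ∈ lat0 s) {Q : Finset E3}
    (hQ : ∀ q ∈ Q, q ∈ lat0 s ∧ dist q q₀ < 2 * s) : Q.card ≤ 27 := by
  classical
  have : Q ⊆ (Fintype.piFinset fun _ : Fin 3 => Finset.Icc (-1 : ℤ) 1).image
      fun k i => q₀ i + k i * s := fun q hq => by
    obtain ⟨h1, h2⟩ := hQ q hq
    choose m hm using h1
    choose n hn using h0
    refine Finset.mem_image.2 ⟨fun i => m i - n i, Fintype.mem_piFinset.2 fun i => ?_,
      funext fun i => ?_⟩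
    · have h3 := (dist_le_pi_dist q q₀ i).trans_lt h2
      rw [Real.dist_eq, hm, hn, ← sub_mul, abs_mul, abs_of_pos hs] at h3
      have h4 : |m i - n i| < 2 := by exact_mod_cast lt_of_mul_lt_mul_right h3 hs.le
      rw [Finset.mem_Icc, ← abs_le]
      omega
    · rw [hm, hn]
      push_cast
      ring
  refine (Finset.card_le_card this).trans (Finset.card_image_le.trans ?_)
  simp

end Mb

open Mb

theorem mainb_of (hF : CERF) : MAINB := by
  classical
  refine ⟨(1 / 4) ^ 162 / 24, by positivity, by norm_num, ?_⟩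
  intro Ω Λ S f f' g F A p τ D L w P₁ P₂ hΛ hf hg hV ok hτ hD sol hm flat
  have ha : ((1 : ℝ) / 4) ^ 162 ≤ 1 := pow_le_one₀ (by norm_num) (by norm_num)
  have ha0 : (0 : ℝ) < (1 / 4) ^ 162 := by positivity
  obtain ⟨a, hae⟩ : ∃ a : ℝ, a = (1 / 4) ^ 162 := ⟨_, rfl⟩
  rw [← hae] at ha ha0 hm ⊢
  have hb := ok.b_ge
  have hb0 : 0 < L.b := by linarith
  have hs := ok.s_pos
  have hρ : 0 < L.ρ := by unfold Lay.ρ; positivity
  have hθ := ok.θ_le
  have hρ' := ok.ρ_le
  have hDρ : 20 * L.ρ ≤ D L.b * L.ρ := mul_le_mul_of_nonneg_right hD hρ.le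
  have hθs : L.θ * L.s ≤ 1 / 10 * L.s := mul_le_mul_of_nonneg_right hθ hs.le
  have hbμ : L.b * L.μ = L.θ * L.s / 10 := by unfold Lay.μ; field_simp
  have hμ : 0 < L.μ := by
    unfold Lay.μ
    exact div_pos (by linarith) (by linarith)
  have hτ0 : 0 ≤ L.τ * L.ρ := mul_nonneg ok.τ_mem.1 hρ.le
  have hbτ : L.b * (L.τ * L.ρ) ≤ L.ρ / 16 := by
    have := (mul_le_mul_of_nonneg_left ok.τ_mem.2 hb0.le).trans hτ
    nlinarith
  have hτ1 : L.τ * L.ρ ≤ L.ρ / 16 := (le_mul_of_one_le_left hτ0 hb).trans hbτ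
  obtain ⟨m, hme⟩ : ∃ m : ℝ, m = a / 24 * (L.μ / 2) := ⟨_, rfl⟩
  rw [← hme] at hm ⊢
  have hm0 : 0 < m := by rw [hme]; positivity
  have hm1 : 48 * m ≤ L.μ := by rw [hme]; nlinarith
  obtain ⟨r, hr⟩ : ∃ r : ℝ, r = L.s / 2 - L.θ * L.s / 2 - L.ρ := ⟨_, rfl⟩
  have hr0 : 0 < r := by linarith
  have eR : ∀ q, (L.cr D A q).R - (L.cr D A q).ρ = r := fun q => hr.symm
  have eT : ∀ q, (L.cr D A q).T + L.ρ = r + (D L.b * L.ρ + 2 * L.ρ) := fun q => by
    rw [hr]; simp only [Lay.cr]; ring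
  have ea : ∀ q x, (L.cr D A q).a f x = f q + A q (x - q) := fun q x => rfl
  have sub : ∀ q ∈ P₁, closedBall q (2 * L.s) ⊆ Ω := fun q hq =>
    (closedBall_subset_closedBall (by linarith)).trans ((sol.lat q (Or.inl hq)).2.1.trans hV)
  have cl : ∀ q ∈ P₁, ∀ x, dist x q ≤ 2 * L.s → dist (f x) (f q + A q (x - q)) ≤ L.τ * L.ρ :=
    fun q hq x hx => by
    rw [dist_eq_norm, ← sub_sub]
    exact sol.close q hq q (mem_closedBall_self (by linarith)) x hx
  have cov := fun q hq x t ht h => cover (q := q) (x := x) (t := t) hΛ hf (sub q hq)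
    (sol.bil q hq) (sol.close q hq) hb0 ht hτ0 h
  have cerf := fun q hq μ hμ => hF S (f := f) (c := L.cr D A q) (μ := μ) hg (sol.bil q hq) hb0 hμ
    (flat q hq)
  refine ⟨isOpen_biUnion fun q hq => (cerf q hq m hm0.le).1, fun y hy => ?_, fun y hy => ?_,
    fun y hy => ?_, fun y => ?_⟩
  · obtain ⟨q, hq, hy⟩ := mem_iUnion₂.1 hy
    obtain ⟨x, hx, rfl⟩ := hy (mem_closedBall_self hm0.le)
    rw [eR, mem_ball] at hx
    change dist x q < r at hx
    obtain ⟨x', h1, h2⟩ := cov q hq x (L.τ * L.ρ) hτ0 (by linarith)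
      (mem_closedBall'.2 (cl q hq x (by linarith)))
    refine mem_biUnion hq ⟨x', ?_, h2⟩
    rw [mem_closedBall] at h1
    rw [eT, mem_ball]
    linarith [dist_triangle x' x q]
  · obtain ⟨y', h1, h2⟩ := mem_thickening_iff.1 hy
    obtain ⟨q, hq, x, hx, rfl⟩ := mem_iUnion₂.1 h1
    rw [mem_closedBall] at hx
    have := (cerf q hq (4 * (L.μ / 2)) (by positivity)).2.2.2 x y h2.le (by
      rw [eR]
      change dist x q + 2 * L.b * (4 * (L.μ / 2)) < r
      linarith)
    exact mem_biUnion hq ((closedBall_subset_closedBall (by linarith)).trans this)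
  · obtain ⟨q, hq, hy⟩ := mem_iUnion₂.1 hy
    rw [← hme]
    exact (cerf q hq m hm0.le).2.1 y hy
  · let Q := P₁.filter fun q =>
      (f '' ball q ((L.cr D A q).T + L.ρ) ∩ closedBall y (L.μ / 2)).Nonempty
    have hQ : Q.card ≤ 27 := by
      rcases Q.eq_empty_or_nonempty with h | ⟨q₀, h0⟩
      · simp [h]
      obtain ⟨h0, _, ⟨x₀, hx₀, rfl⟩, k0⟩ := Finset.mem_filter.1 h0
      refine card_le hs (sol.lat q₀ (Or.inl h0)).1 fun q hq => ?_
      obtain ⟨hq, _, ⟨x, hx, rfl⟩, k⟩ := Finset.mem_filter.1 hq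
      refine ⟨(sol.lat q (Or.inl hq)).1, ?_⟩
      rw [eT, mem_ball] at hx hx₀
      rw [mem_closedBall] at k k0
      obtain ⟨x', h1, h2⟩ := cov q₀ h0 x₀ L.μ hμ.le (by linarith) (a := f x)
        (mem_closedBall.2 (by linarith [dist_triangle_right (f x) (f x₀) y]))
      rw [mem_closedBall] at h1
      have e : x' = x := hf.left_inv.injOn
        (sub q₀ h0 (mem_closedBall.2 (by linarith [dist_triangle x' x₀ q₀])))
        (sub q hq (mem_closedBall.2 (by linarith))) h2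
      rw [e] at h1
      linarith [dist_triangle_left q q₀ x, dist_triangle x x₀ q₀]
    have inv : ∀ q, ∃ B : E3 →ₗ[ℝ] E3, q ∈ P₁ → (∀ u, B (A q u) = u) ∧ ∀ v, A q (B v) = v :=
      fun q => by
      by_cases hq : q ∈ P₁
      · obtain ⟨B, hB⟩ := exists_inv (sol.bil q hq)
        exact ⟨B, fun _ => hB⟩
      · exact ⟨0, fun h => (hq h).elim⟩
    choose B hB using inv
    let T : Finset (E3 × Fin 3 × ℝ) := Q ×ˢ (Finset.univ ×ˢ {1, -1})
    let ℓ : E3 × Fin 3 × ℝ → (E3 →ᵃ[ℝ] ℝ) := fun t => pl (B t.1) (f t.1) t.2.1 t.2.2 r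
    have hT : (T.image ℓ).card ≤ 162 := by
      refine Finset.card_image_le.trans ?_
      have : ({1, -1} : Finset ℝ).card ≤ 2 := Finset.card_le_two
      rw [Finset.card_product, Finset.card_product, Finset.card_univ, Fintype.card_fin]
      exact (Nat.mul_le_mul hQ (Nat.mul_le_mul_left 3 this)).trans (by norm_num)
    obtain ⟨c, hc, -, h3⟩ := P073.B.Cb.avoid (T.image ℓ) (fun l hl => by
      obtain ⟨t, ht, rfl⟩ := Finset.mem_image.1 hl
      obtain ⟨t1, t2⟩ := Finset.mem_product.1 ht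
      refine pl_ne (fun u => ⟨_, (hB _ (Finset.mem_filter.1 t1).1).1 u⟩) _ _ ?_ _
      rcases Finset.mem_insert.1 (Finset.mem_product.1 t2).2 with e | e
      · rw [e]; norm_num
      · rw [Finset.mem_singleton.1 e]; norm_num) y (L.μ / 2 / 8) (by positivity)
    have h4 : closedBall c (3 * m) ⊆ closedBall c ((1 / 4) ^ (T.image ℓ).card * (L.μ / 2 / 8)) :=
      closedBall_subset_closedBall (by
        have := pow_le_pow_of_le_one (by norm_num : (0 : ℝ) ≤ 1 / 4) (by norm_num) hT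
        rw [← hae] at this
        rw [hme]
        nlinarith)
    -- one point of the ball in the closed image cube puts the ball into the open one
    have key : ∀ q ∈ Q, ∀ z ∈ closedBall c (3 * m), ‖B q (z - f q)‖ ≤ r →
        ∀ z' ∈ closedBall c (3 * m), ‖B q (z' - f q)‖ < r := fun q hq z hz h z' hz' => by
      refine (pi_norm_lt_iff hr0).2 fun i => ?_
      have h5 := abs_le.1 ((norm_le_pi_norm _ i).trans h)
      have h6 : ∀ σ ∈ ({1, -1} : Finset ℝ), σ * B q (z - f q) i - r ≤ 0 →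
          σ * B q (z' - f q) i - r < 0 := fun σ hσ k => by
        rw [← pl_apply] at k ⊢
        exact neg_of (fun u hu => h3 _ (Finset.mem_image_of_mem ℓ (a := (q, i, σ))
          (Finset.mem_product.2 ⟨hq, Finset.mem_product.2 ⟨Finset.mem_univ _, hσ⟩⟩)) u (h4 hu))
          hz hz' k
      have h7 := h6 1 (by simp) (by linarith [h5.2])
      have h8 := h6 (-1) (by simp) (by linarith [h5.1])
      exact abs_lt.2 ⟨by linarith, by linarith⟩
    refine ⟨c, hc, ?_⟩
    by_cases hin : ∃ q ∈ Q, ∃ z ∈ closedBall c (3 * m), ‖B q (z - f q)‖ ≤ r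
    · obtain ⟨q, hq, z, hz, h⟩ := hin
      have hq' := (Finset.mem_filter.1 hq).1
      refine Or.inl fun u hu => mem_biUnion hq' fun v hv => ⟨q + B q (v - f q), ?_, ?_⟩
      · rw [eR]
        change q + _ ∈ ball q r
        rw [mem_ball_iff_norm, add_sub_cancel_left]
        rw [mem_closedBall] at hu hv
        exact key q hq z hz h v (mem_closedBall.2 (by linarith [dist_triangle v u c]))
      · rw [ea, add_sub_cancel_left, (hB q hq').2, add_sub_cancel]
    · refine Or.inr (disjoint_left.2 fun z hz hz' => hin ?_)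
      obtain ⟨q, hq, x, hx, rfl⟩ := mem_iUnion₂.1 hz'
      rw [mem_closedBall] at hz hc
      refine ⟨q, Finset.mem_filter.2 ⟨hq, _, ⟨x, hx, rfl⟩,
        mem_closedBall.2 (by linarith [dist_triangle (f x) c y])⟩, ?_⟩
      rw [eT, mem_ball] at hx
      obtain ⟨x', h1, h2⟩ := exists_proj q x hr0.le (by linarith) hx.le
      refine ⟨f q + A q (x' - q), mem_closedBall.2 ?_, ?_⟩
      · have h5 := cl q hq x (by linarith)
        have h6 : dist (f q + A q (x - q)) (f q + A q (x' - q)) ≤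
            L.b * (D L.b * L.ρ + 2 * L.ρ) := by
          rw [dist_add_left, dist_eq_norm, ← map_sub, sub_sub_sub_cancel_right]
          exact ((A q).le_opNorm _).trans (mul_le_mul (sol.bil q hq).1
            (dist_eq_norm x x' ▸ h2) (norm_nonneg _) hb0.le)
        have h7 : L.ρ ≤ L.b * L.ρ := le_mul_of_one_le_left hρ.le hb
        linarith [dist_triangle4_left (f q + A q (x' - q)) c (f q + A q (x - q)) (f x),
          dist_triangle_left (f q + A q (x' - q)) c (f x),
          dist_triangle (f x) (f q + A q (x - q)) (f q + A q (x' - q))]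
      · rw [add_sub_cancel_left, (hB q hq).1, ← dist_eq_norm]
        exact h1

end P073.Ac4
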