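import Vale.Agent.P073Y.Ac4.Sk
import Vale.Agent.P073Y.Ac4.Cover

/-!
# Correction of the map at the vertices of the cores
-/

open Set Metric Topology Filter
open scoped NNReal ENNReal

namespace P073.Ac4

open Me (dy)
open An (M3)
open M2 Gc

/-- a small Lipschitz perturbation of the identity is a homeomorphism -/
theorem exists_near {φ : E3 → E3} (h : ∀ x y, ‖φ x - φ y‖ ≤ 1 / 2 * ‖x - y‖) :
    ∃ Ψ : E3 ≃ₜ E3, ∀ x, Ψ x = x + φ x := by
  have ha : ApproximatesLinearOn (fun x => x + φ x)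
      ((ContinuousLinearEquiv.refl ℝ E3 : E3 ≃L[ℝ] E3) : E3 →L[ℝ] E3) univ (1 / 2) :=
    fun x _ y _ => by simpa [show x + φ x - (y + φ y) - (x - y) = φ x - φ y by abel] using h x y
  refine ⟨ha.toHomeomorph _ (Or.inr ?_), fun _ => rfl⟩
  rw [show ((ContinuousLinearEquiv.refl ℝ E3).symm : E3 →L[ℝ] E3) = .id ℝ E3 from rfl,
    ContinuousLinearMap.nnnorm_id]
  norm_num

/-- the tent -/
noncomputable def tent (y : E3) (r : ℝ) (u : E3) : ℝ := max 0 (1 - dist u y / r)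

theorem tent_lip (y d : E3) {r L : ℝ} (hr : 0 < r) (h : ‖d‖ ≤ L * r) (u u' : E3) :
    ‖tent y r u • d - tent y r u' • d‖ ≤ L * ‖u - u'‖ := by
  have h1 : |tent y r u - tent y r u'| ≤ ‖u - u'‖ / r := by
    rw [tent, tent, max_comm, max_comm 0]
    refine (abs_max_sub_max_le_abs _ _ _).trans ?_
    rw [sub_sub_sub_cancel_left, ← sub_div, abs_div, abs_of_pos hr, abs_sub_comm, ← dist_eq_norm]
    exact div_le_div_of_nonneg_right (abs_dist_sub_le _ _ _) hr.le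
  rw [← sub_smul, norm_smul]
  refine (mul_le_mul h1 h (norm_nonneg _) (by positivity)).trans_eq ?_
  field_simp

theorem tent_zero {y u : E3} {r : ℝ} (hr : 0 < r) (h : u ∉ ball y r) : tent y r u = 0 :=
  max_eq_left (sub_nonpos.2 ((one_le_div hr).2 (not_lt.1 h)))

theorem bump : BUMP := by
  classical
  intro κ J y d r L hJ hd
  obtain ⟨U, h1, h0⟩ : ∃ U : E3 → E3,
      (∀ j ∈ J, ∀ u ∈ ball (y j) (r j), U u = tent (y j) (r j) u • d j) ∧
      ∀ u, (∀ j ∈ J, u ∉ ball (y j) (r j)) → U u = 0 := by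
    refine ⟨fun u => if h : ∃ j ∈ J, u ∈ ball (y j) (r j) then
      tent (y h.choose) (r h.choose) u • d h.choose else 0, fun j hj u hu => ?_,
      fun u hu => dif_neg fun ⟨j, hj, k⟩ => hu j hj k⟩
    have h : ∃ j ∈ J, u ∈ ball (y j) (r j) := ⟨j, hj, hu⟩
    have e : h.choose = j := by_contra fun e =>
      disjoint_left.1 (hd _ h.choose_spec.1 j hj e) h.choose_spec.2 hu
    simp only [dif_pos h, e]
  have tl := fun j hj => tent_lip (y j) (d j) (hJ j hj).1 (hJ j hj).2.2.2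
  have one : ∀ l u u', 0 ≤ l → (∀ j ∈ J, u ∈ ball (y j) (r j) → L j ≤ l ∧ u' ∉ ball (y j) (r j)) →
      ‖U u‖ ≤ l * ‖u - u'‖ := fun l u u' hl h => by
    by_cases k : ∃ j ∈ J, u ∈ ball (y j) (r j)
    · obtain ⟨j, hj, hu⟩ := k
      have := tl j hj u u'
      rw [tent_zero (hJ j hj).1 (h j hj hu).2, zero_smul, sub_zero, ← h1 j hj u hu] at this
      exact this.trans (mul_le_mul_of_nonneg_right (h j hj hu).1 (norm_nonneg _))
    · rw [h0 u fun j hj hu => k ⟨j, hj, hu⟩, norm_zero]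
      positivity
  have two : ∀ (X : Set E3) (l : ℝ), 0 ≤ l →
      (∀ j ∈ J, (ball (y j) (r j) ∩ X).Nonempty → L j ≤ l) →
      ∀ u ∈ X, ∀ u' ∈ X, ‖U u - U u'‖ ≤ 2 * l * ‖u - u'‖ := fun X l hl h u hu u' hu' => by
    have n0 := mul_nonneg hl (norm_nonneg (u - u'))
    by_cases k : ∃ j ∈ J, u ∈ ball (y j) (r j) ∧ u' ∈ ball (y j) (r j)
    · obtain ⟨j, hj, k, k'⟩ := k
      rw [h1 j hj u k, h1 j hj u' k']
      linarith [tl j hj u u', mul_le_mul_of_nonneg_right (h j hj ⟨u, k, hu⟩) (norm_nonneg (u - u'))]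
    · linarith [norm_sub_le (U u) (U u'), norm_sub_rev u u' ▸
        one l u' u hl fun j hj a => ⟨h j hj ⟨_, a, hu'⟩, fun b => k ⟨j, hj, b, a⟩⟩,
        one l u u' hl fun j hj a => ⟨h j hj ⟨_, a, hu⟩, fun b => k ⟨j, hj, a, b⟩⟩]
  have half : ∀ u u', ‖U u - U u'‖ ≤ 1 / 2 * ‖u - u'‖ := fun u u' => (two univ (1 / 4)
    (by norm_num) (fun j hj _ => (hJ j hj).2.2.1) u trivial u' trivial).trans_eq (by ring)
  obtain ⟨Ψ, e⟩ := exists_near half
  refine ⟨Ψ, LipschitzWith.of_dist_le_mul fun u u' => ?_, fun j hj => ⟨?_, fun u hu => ?_⟩,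
    fun u hu => by rw [e, h0 u hu, add_zero], fun X l hl h u hu u' hu' => ?_⟩
  · rw [e, e, dist_eq_norm, dist_eq_norm, add_sub_add_comm]
    push_cast
    linarith [norm_add_le (u - u') (U u - U u'), half u u', norm_nonneg (u - u')]
  · rw [e, h1 j hj _ (mem_ball_self (hJ j hj).1), tent]
    simp
  · obtain ⟨a, b, c, k⟩ := hJ j hj
    have k0 := (sub_pos.2 ((div_lt_one a).2 (mem_ball.1 hu))).le
    have k1 : dist (Ψ u) u = (1 - dist u (y j) / r j) * ‖d j‖ := by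
      rw [e, dist_self_add_left, h1 j hj u hu, norm_smul, tent, max_eq_right k0,
        Real.norm_of_nonneg k0]
    have k2 := mul_le_mul_of_nonneg_left (k.trans (mul_le_mul_of_nonneg_right c a.le)) k0
    exact ⟨k1 ▸ mul_le_of_le_one_left (norm_nonneg _) (sub_le_self _ (by positivity)),
      (dist_triangle _ u _).trans_lt
        (by linarith [mem_ball.1 hu, div_mul_cancel₀ (dist u (y j)) a.ne'])⟩
  · rw [e, e, add_sub_cancel_left, add_sub_cancel_left]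
    exact two X l hl h u hu u' hu'

/-- the vertices of the lattice are separated -/
theorem le_dist_vert {P : Par} {k : ℕ} {v v' : E3} (h : ∀ l, ∃ m : ℤ, dy P k v l = m)
    (h' : ∀ l, ∃ m : ℤ, dy P k v' l = m) (hd : dist v v' < (2:ℝ)⁻¹ ^ k) : v = v' := by
  have h1 : dist (dy P k v) (dy P k v') < 1 := by
    rwa [Me.dist_dy (P := P) k, mul_lt_iff_lt_one_right (by positivity)] at hd
  have h2 : dy P k v = dy P k v' := funext fun l => by
    obtain ⟨m, e⟩ := h l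
    obtain ⟨m', e'⟩ := h' l
    have := (dist_le_pi_dist _ _ l).trans_lt h1
    rw [e, e', Int.dist_cast_real, Int.dist_eq, ← Int.cast_sub, ← Int.cast_abs, ← Int.cast_one,
      Int.cast_lt, Int.abs_lt_one_iff, sub_eq_zero] at this
    rw [e, e', this]
  rw [← dist_eq_zero, Me.dist_dy (P := P) k, h2, dist_self, mul_zero]

theorem chg : CHG := by
  intro Ω Λ P f f' F τ D ι I c hS hF hτ
  have hf := hS.homeo
  have inj : InjOn f Ω := hf.left_inv.injOn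
  have ρ0 : ∀ i, 0 < (c i).ρ := fun i => by unfold Cr.ρ; positivity
  have b0 : ∀ i ∈ I, 0 < (c i).b := fun i hi => one_pos.trans_le (hF.ok i hi).b_ge
  have τ0 := fun i hi => hτ _ (hF.ok i hi).b_ge
  have T0 : ∀ i ∈ I, (c i).R + 2 * (c i).ρ ≤ (c i).T := fun i hi =>
    le_trans (by gcongr; exacts [(ρ0 i).le, (τ0 i hi).2.2]) (hF.ok i hi).T_ge
  have sub : ∀ i ∈ I, closedBall (c i).q ((c i).R + (c i).ρ) ⊆ (c i).room := fun i hi =>
    closedBall_subset_ball (by linarith [T0 i hi, ρ0 i])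
  have rΩ : ∀ i ∈ I, (c i).room ⊆ Ω := fun i hi => ball_subset_closedBall.trans (hF.ok i hi).sub
  set J : Set (ι × E3) := {j | j.1 ∈ I ∧ j.2 ∈ closedBall (c j.1).q (c j.1).R ∧
    ∀ l, ∃ m : ℤ, dy P (c j.1).k j.2 l = m}
  have cov : ∀ j ∈ J, ∀ u ∈ ball (f j.2) ((c j.1).ρ / (4 * (c j.1).b)),
      ∃ x ∈ closedBall (c j.1).q ((c j.1).R + (c j.1).ρ), dist x j.2 < (c j.1).ρ / 2 ∧ f x = u :=
    fun ⟨i, v⟩ ⟨hi, hv, _⟩ u hu => by
      have k := hF.ok i hi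
      have a := ρ0 i
      have b := b0 i hi
      have e : (c i).b * ((c i).ρ / (4 * (c i).b) + τ (c i).b * (c i).ρ) < (c i).ρ / 2 := by
        have : (c i).b * ((c i).ρ / (4 * (c i).b)) = (c i).ρ / 4 := by field_simp
        linarith [mul_le_mul_of_nonneg_right (τ0 i hi).2.1 a.le]
      have hv' : dist v (c i).q ≤ (c i).R := hv
      obtain ⟨x, hx, e'⟩ := cover hS.oΛ hf k.sub k.bil k.close b (by positivity)
        (mul_nonneg (τ0 i hi).1 a.le) (by linarith [T0 i hi]) (ball_subset_closedBall hu)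
      exact ⟨x, (dist_triangle x v _).trans (by linarith [mem_closedBall.1 hx]), hx.trans_lt e, e'⟩
  have one : ∀ j ∈ J, ∀ x ∈ Ω, f x ∈ ball (f j.2) ((c j.1).ρ / (4 * (c j.1).b)) →
      x ∈ closedBall (c j.1).q ((c j.1).R + (c j.1).ρ) ∧ dist x j.2 < (c j.1).ρ / 2 :=
    fun j hj x hx k =>
      let ⟨_, a, b, e⟩ := cov j hj _ k
      inj (rΩ _ hj.1 (sub _ hj.1 a)) hx e ▸ ⟨a, b⟩
  have idx : ∀ j ∈ J, ∀ i ∈ I, ∀ x ∈ (c i).room,
      f x ∈ ball (f j.2) ((c j.1).ρ / (4 * (c j.1).b)) → j.1 = i := fun j hj i hi x hx k =>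
    by_contra fun e => disjoint_left.1 (hF.disj _ hj.1 i hi e)
      (sub _ hj.1 (one j hj x (rΩ i hi hx) k).1) hx
  have nd : ∀ j ∈ J, ‖(c j.1).a f j.2 - f j.2‖ ≤ τ (c j.1).b * (c j.1).ρ := fun ⟨i, v⟩ hj => by
    have a := ρ0 i
    have := (hF.ok i hj.1).close _ (mem_closedBall_self
      (by linarith [T0 i hj.1, (hF.ok i hj.1).R_ge])) v
      (closedBall_subset_closedBall (by linarith [T0 i hj.1]) hj.2.1)
    rwa [sub_sub, norm_sub_rev] at this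
  obtain ⟨Ψ, l1, l2, l3, l4⟩ := bump J (fun j => f j.2) (fun j => (c j.1).a f j.2 - f j.2)
    (fun j => (c j.1).ρ / (4 * (c j.1).b)) (fun j => 4 * (c j.1).b * τ (c j.1).b)
    (fun j hj => ⟨div_pos (ρ0 _) (by linarith [b0 _ hj.1]),
      mul_nonneg (by linarith [b0 _ hj.1]) (τ0 _ hj.1).1, by linarith [(τ0 _ hj.1).2.1],
      (nd j hj).trans_eq (by have := b0 _ hj.1; field_simp)⟩)
    fun ⟨i, v⟩ hj ⟨i', v'⟩ hj' hne => disjoint_left.2 fun u k k' => by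
      obtain ⟨x, a, b, rfl⟩ := cov _ hj u k
      obtain rfl := idx _ hj' i hj.1 x (sub i hj.1 a) k'
      have b' := (one _ hj' x (rΩ _ hj.1 (sub _ hj.1 a)) k').2
      exact hne (congrArg _ (le_dist_vert hj.2.2 hj'.2.2
        ((dist_triangle_left _ _ x).trans_lt ((add_lt_add b b').trans_eq (add_halves _)))))
  have inv : ∀ X : Set E3, (∀ j ∈ J, ∀ u ∈ ball (f j.2) ((c j.1).ρ / (4 * (c j.1).b)),
      ∀ u' ∈ ball (f j.2) ((c j.1).ρ / (4 * (c j.1).b)), u ∈ X → u' ∈ X) →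
      ∀ u, Ψ u ∈ X ↔ u ∈ X := fun X h u => by
    by_cases k : ∃ j ∈ J, u ∈ ball (f j.2) ((c j.1).ρ / (4 * (c j.1).b))
    · obtain ⟨j, hj, k⟩ := k
      exact ⟨h j hj _ ((l2 j hj).2 u k).2 u k, h j hj u k _ ((l2 j hj).2 u k).2⟩
    · rw [l3 u fun j hj a => k ⟨j, hj, a⟩]
  have iΛ := inv Λ fun j hj _ _ u k _ =>
    let ⟨_, a, _, e⟩ := cov j hj u k
    e ▸ hf.mapsTo (rΩ _ hj.1 (sub _ hj.1 a))
  have var : ∀ x y, segVar (Ψ ∘ f) x y ≤ 2 * segVar f x y := fun x y =>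
    segVar_comp_le (l1.lipschitzOnWith (s := univ)) (mapsTo_univ _ _)
  have mΛ : MapsTo Ψ.symm Λ Λ := fun u hu => (iΛ _).1 (by rwa [Ψ.apply_symm_apply])
  refine ⟨Ψ ∘ f, f' ∘ Ψ.symm, ⟨hS.oΩ, hS.oΛ, hS.cΩ, hS.cΛ, hS.bΛ,
    ⟨fun x hx => (iΛ _).2 (hf.mapsTo hx), hf.mapsTo_inv.comp mΛ, fun x hx => ?_, fun y hy => ?_,
      Ψ.continuous.comp_continuousOn hf.cont, hf.cont_inv.comp Ψ.symm.continuous.continuousOn mΛ⟩,
    fun x => (hS.gen x).mono fun y h a ha b hb k k' => (var a b).trans_lt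
      (ENNReal.mul_lt_top (by simp) (h a ha b hb k k'))⟩, var,
    fun x hx h => l3 _ fun j hj k => h _ hj.1 (one j hj x hx k).1, fun i hi => ⟨⟨fun x hx => ?_,
      fun v hv h => (l2 (i, v) ⟨hi, hv, h⟩).1.trans (add_sub_cancel _ _), fun x hx y hy => ?_⟩, ?_⟩⟩
  · simpa using hf.left_inv hx
  · simp [hf.right_inv (mΛ hy)]
  · by_cases k : ∃ j ∈ J, f x ∈ ball (f j.2) ((c j.1).ρ / (4 * (c j.1).b))
    · obtain ⟨j, hj, k⟩ := k
      exact idx j hj i hi x hx k ▸ ((l2 j hj).2 _ k).1.trans (nd j hj)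
    · exact (dist_eq_zero.2 (l3 _ fun j hj a => k ⟨j, hj, a⟩)).trans_le
        (mul_nonneg (τ0 i hi).1 (ρ0 i).le)
  · refine (l4 (f '' (c i).room) (4 * (c i).b * τ (c i).b)
      (mul_nonneg (by linarith [b0 i hi]) (τ0 i hi).1) ?_ _ ⟨x, hx, rfl⟩ _ ⟨y, hy, rfl⟩).trans_eq
      (by ring)
    rintro j hj ⟨_, k, u, hu, rfl⟩
    rw [idx j hj i hi u hu k]
  · have k := inv (f '' (c i).room) (by
      rintro j hj _ k u k' ⟨x, hx, rfl⟩
      obtain ⟨x', a, -, e⟩ := cov j hj u k'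
      exact ⟨x', idx j hj i hi x hx k ▸ sub _ hj.1 a, e⟩)
    rw [image_comp]
    exact Subset.antisymm (image_subset_iff.2 fun u hu => (k u).2 hu) fun u hu =>
      ⟨Ψ.symm u, (k _).1 (by rwa [Ψ.apply_symm_apply]), Ψ.apply_symm_apply u⟩

end P073.Ac4
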