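import Vale.Agent.P073Y.Ac4.Sk
import Vale.Agent.P073Y.Gc.GoodC

/-!
# Good cells for the corrected map
-/

open Set Metric Topology Filter MeasureTheory
open scoped ENNReal NNReal

namespace P073.Ac4

open Me (dy)
open An (M3)
open M2 Zn Gc
open G2 (Fine1)
open Inf (gim)

namespace G4

theorem var_le {φ ψ : ℝ → E3} {a c : ℝ} (ha : 0 ≤ a) (hc : 0 ≤ c)
    (h : ∀ s ∈ Icc (0:ℝ) 1, ∀ t ∈ Icc (0:ℝ) 1,
      dist (φ t) (φ s) ≤ a * dist (ψ t) (ψ s) + c * dist t s) :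
    eVariationOn φ (Icc 0 1) ≤ ENNReal.ofReal a * eVariationOn ψ (Icc 0 1) + ENNReal.ofReal c := by
  have h4 := (monotone_id (α := ℝ)).monotoneOn (Icc (0:ℝ) 1) |>.eVariationOn_eq
    (left_mem_Icc.2 zero_le_one) (right_mem_Icc.2 zero_le_one)
  rw [inter_self, id, id, sub_zero, ENNReal.ofReal_one] at h4
  refine iSup_le fun q => (Finset.sum_le_sum (g := fun i => ENNReal.ofReal a *
    edist (ψ (q.2.1 (i + 1))) (ψ (q.2.1 i)) +
      ENNReal.ofReal c * edist (id (q.2.1 (i + 1))) (id (q.2.1 i))) fun i _ => ?_).trans ?_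
  · rw [edist_dist, edist_dist, edist_dist, ← ENNReal.ofReal_mul ha, ← ENNReal.ofReal_mul hc,
      ← ENNReal.ofReal_add (by positivity) (by positivity)]
    exact ENNReal.ofReal_le_ofReal (h _ (q.2.2.2 _) _ (q.2.2.2 _))
  · rw [Finset.sum_add_distrib, ← Finset.mul_sum, ← Finset.mul_sum]
    exact add_le_add (mul_le_mul_right (eVariationOn.sum_le q.2.2.1 q.2.2.2) _)
      (mul_le_of_le_one_right' ((eVariationOn.sum_le q.2.2.1 q.2.2.2).trans h4.le))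

theorem dev_le {f g : E3 → E3} {x y u v : E3} {L c s t : ℝ} (hL : 0 ≤ L)
    (h1 : ‖g u - f u - (g v - f v)‖ ≤ L * ‖f u - f v‖) (h2 : L * ‖f y - f x‖ +
      (dist (g x) (f x) + dist (g y) (f y)) ≤ c) :
    dist (g u - AffineMap.lineMap (g x) (g y) t) (g v - AffineMap.lineMap (g x) (g y) s) ≤
      (1 + L) * dist (f u - AffineMap.lineMap (f x) (f y) t)
        (f v - AffineMap.lineMap (f x) (f y) s) + c * dist t s := by
  obtain ⟨d, hd⟩ : ∃ d, d = f u - AffineMap.lineMap (f x) (f y) t -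
    (f v - AffineMap.lineMap (f x) (f y) s) := ⟨_, rfl⟩
  have e1 : f u - f v = d + (t - s) • (f y - f x) := by
    simp only [hd, AffineMap.lineMap_apply_module']
    module
  have e2 : g u - AffineMap.lineMap (g x) (g y) t - (g v - AffineMap.lineMap (g x) (g y) s) =
      d + (g u - f u - (g v - f v)) + (t - s) • (g x - f x - (g y - f y)) := by
    simp only [hd, AffineMap.lineMap_apply_module']
    module
  have h3 := norm_add_le d ((t - s) • (f y - f x))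
  have h4 := norm_sub_le (g x - f x) (g y - f y)
  rw [dist_eq_norm, dist_eq_norm] at h2
  rw [dist_eq_norm, dist_eq_norm, ← hd, e2, dist_eq_norm]
  rw [← e1, norm_smul] at h3
  refine norm_add₃_le.trans ?_
  rw [norm_smul]
  nlinarith [mul_le_mul_of_nonneg_left h3 hL, norm_nonneg (t - s),
    mul_le_mul_of_nonneg_left (h4.trans (le_sub_iff_add_le'.2 h2)) (norm_nonneg (t - s))]

theorem cth_sub {P : Par} {c : Cr} {z : Fin 3 → ℤ} (hz : z ∈ c.Z P) {r : ℝ} (hr : 0 ≤ r) :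
    dy P c.k ⁻¹' cthickening r (ucube z) ⊆ closedBall c.q (c.R + r * c.ρ) := by
  obtain ⟨ν, hν⟩ := Me.exists_dy P c.k
  intro u hu
  rw [mem_preimage, (show IsCompact (ucube z) from isCompact_Icc).cthickening_eq_biUnion_closedBall
    hr] at hu
  obtain ⟨ζ, h3, h4⟩ := mem_iUnion₂.1 hu
  obtain ⟨x, rfl⟩ := ν.surjective ζ
  rw [hν] at h3 h4
  have h6 := Me.dist_dy (P := P) c.k u x
  have h7 := mul_le_mul_of_nonneg_left h4 (show (0:ℝ) ≤ 2⁻¹ ^ c.k by positivity)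
  rw [mem_closedBall, Cr.ρ]
  linarith [dist_triangle u x c.q, mem_closedBall.1 (hz h3)]

theorem Z_fin (P : Par) (c : Cr) : (c.Z P).Finite := by
  obtain ⟨ν, hν⟩ := Me.exists_dy P c.k
  refine (Me.finite_cubes ((isCompact_closedBall c.q c.R).image ν.continuous).isBounded).subset
    fun z hz => ?_
  have h : (fun i => (z i : ℝ)) ∈ ucube z := left_mem_Icc.2 fun i => by simp
  refine ⟨_, h, ν.symm _, hz ?_, ν.apply_symm_apply _⟩
  rwa [mem_preimage, ← hν, ν.apply_symm_apply]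

end G4

open G4

theorem good1 : GOOD1 := by
  intro κ₀ hκ M₀ b hb
  obtain ⟨τ₀, M, h0, h1, H⟩ := goodc κ₀ hκ M₀ b hb
  have hb2 : 1 ≤ b ^ 2 := one_le_pow₀ hb
  refine ⟨min (τ₀ / (36 * b ^ 2)) 1, M, by positivity, h1, ?_⟩
  rintro Ω P f f₁ F c Q τ D β rfl ok hD hτ hτ' hβ hF hf ho hi hQ hg ch
  have hρ : 0 < c.ρ := by unfold Cr.ρ; positivity
  have t1 := hτ'.trans (min_le_right _ _)
  have t2 := (le_div_iff₀ (by positivity)).1 (hτ'.trans (min_le_left _ _))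
  have hT := ok.T_ge
  have h2 : ∀ z ∈ c.Z P, ∀ r, 0 ≤ r → r ≤ 2 → dy P c.k ⁻¹' cthickening r (ucube z) ⊆ c.room :=
    fun z hz r h3 h4 => (cth_sub hz h3).trans (closedBall_subset_ball (by nlinarith))
  have h3 : c.room ⊆ closedBall c.q c.T := ball_subset_closedBall
  obtain ⟨γ, g1, g2⟩ := H P c.k _ Q (fun _ => c.A) (τ := 3 * τ) hf ho hi (Z_fin P c) hQ
    (by linarith) (by nlinarith) hβ (fun z hz => ⟨ok.bil,
      (h2 z hz 2 zero_le_two le_rfl).trans (h3.trans ok.sub), fun x hx y hy => by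
        have a1 := h2 z hz 2 zero_le_two le_rfl hx
        have a2 := h2 z hz 2 zero_le_two le_rfl hy
        have a3 := ch.near x a1
        have a4 := ch.near y a2
        rw [dist_eq_norm] at a3 a4
        rw [show f₁ y - f₁ x - c.A (y - x) =
          f y - f x - c.A (y - x) + ((f₁ y - f y) - (f₁ x - f x)) by abel]
        refine (norm_add_le _ _).trans ?_
        linarith [ok.close x (h3 a1) y (h3 a2), norm_sub_le (f₁ y - f y) (f₁ x - f x),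
          show c.ρ = 2⁻¹ ^ c.k from rfl, show 3 * τ * 2⁻¹ ^ c.k = 3 * (τ * c.ρ) from mul_assoc ..]⟩)
    fun z hz e x y he hxy _ ⟨ζ, hζ⟩ h5 => by
      have h6 := (P073.Gd.edge_ends hQ.cvx he hxy).1
      rw [hxy] at hζ h5
      replace h5 := h5.trans (h2 z hz 1 zero_le_one one_le_two)
      have hx := left_mem_segment ℝ x y
      have hy := right_mem_segment ℝ x y
      have a1 : dist y x ≤ c.ρ := Me.dist_cube (kcell_ucube (Me.floor_mem ζ) (hζ.subset hy))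
        (kcell_ucube (Me.floor_mem ζ) (hζ.subset hx))
      have a2 := (close_lip ok.bil ok.close (by linarith) (h3 (h5 hx)) (h3 (h5 hy))).1
      have a3 := mul_le_mul_of_nonneg_left a1 (zero_le_one.trans hb)
      have a4 := mul_nonneg hτ hρ.le
      have a5 : τ * c.ρ ≤ c.ρ := mul_le_of_le_one_left hρ.le t1
      rw [dist_eq_norm] at a2
      refine (var_le (a := 1 + 8 * c.b * τ) (c := 8 * c.b * τ * (c.b * c.ρ + c.ρ) + 2 * (τ * c.ρ))
        (by positivity) (by positivity) fun s hs t ht => dev_le (f := f) (by positivity)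
        (ch.lip _ (h5 (lineMap_mem_segment ℝ x y ht)) _ (h5 (lineMap_mem_segment ℝ x y hs)))
        (add_le_add (mul_le_mul_of_nonneg_left (by linarith) (by positivity))
          (by linarith [ch.near x (h5 hx), ch.near y (h5 hy)]))).trans
        ((add_le_add (mul_le_mul_right ((segv c.A le_rfl h6 hF (hg e x y he hxy)).2.2.1.trans
          (mul_le_mul_right (ok.wire x y ζ h6 hζ (h5.trans h3)) _)) _) le_rfl).trans ?_)
      rw [← ENNReal.ofReal_ofNat, ← ENNReal.ofReal_mul zero_le_two,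
        ← ENNReal.ofReal_mul (by positivity), ← ENNReal.ofReal_add (by positivity) (by positivity)]
      refine ENNReal.ofReal_le_ofReal (le_trans (b := τ * (36 * c.b ^ 2) * c.ρ) ?_
        (mul_le_mul_of_nonneg_right t2 hρ.le))
      have a6 : c.b ≤ c.b ^ 2 := by nlinarith
      nlinarith [mul_le_mul_of_nonneg_left a6 a4, mul_le_mul_of_nonneg_left hb2 a4,
        mul_le_mul_of_nonneg_left (mul_le_of_le_one_right (zero_le_one.trans hb) t1) a4]
  refine ⟨γ, g1, fun i hi => ?_⟩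
  obtain ⟨-, -, ⟨z, hz, h5⟩, -, -, h6⟩ := g2 i hi
  have e : ∀ x, ((c.A : E3 →ₗ[ℝ] E3).toAffineMap + AffineMap.const ℝ E3 (f c.q - c.A c.q)) x =
      c.a f x := fun x => by
    simp only [Cr.a, map_sub, AffineMap.coe_add, Pi.add_apply, LinearMap.coe_toAffineMap,
      ContinuousLinearMap.coe_coe, AffineMap.const_apply]
    abel
  exact fun x hx => (h6 _ (fun v hv h => (ch.vert v (hz (h5 hv)) h).trans (e v).symm) hx).trans (e x)

theorem gtr : GTR := by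
  intro Ω P σ 𝓒 M₀ Mt S₀ S 𝓜₀ 𝓜₁ f f₁ κ₀ β γ ok h hG hf hfar
  classical
  choose B hB using h.refine' (empty_subset _)
  have k0 : ∀ i, 𝓜₁.Q'.cell i ⊆ Core P 𝓒 ∨ Eqc 𝓜₁.Q' 𝓜₀.Q' i (B i) := fun i => by
    obtain ⟨x, hx⟩ := 𝓜₁.Q'.ocell_nonempty i
    by_cases hc : x ∈ Core P 𝓒
    · obtain ⟨q, q1, q2⟩ := id hc
      obtain ⟨l, l1, l2⟩ := 𝓜₁.refine i
      have e := (𝓜₁.core_nbr l q q1 x (l1 hx) (self_subset_cthickening _ q2)).2.2.1 hc
      exact Or.inl fun y hy => ⟨q, q1, kcell_ucube q2 (e.subset (l2 hy))⟩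
    · exact Or.inr (h.fine.eqc i _ x ⟨hx, (hB i).2.1 hx⟩ (Or.inl fun _ _ => rfl)
        (fun _ a _ => a.elim) fun q a b => absurd ⟨q, a, b⟩ hc)
  have hU : ∀ i ∈ γ.G, ∃ j, 𝓜₀.Q'.cell i ⊆ P.U j := fun i hi => (hG i hi).imp fun j hj x hx =>
    Cube.buf_U ok.ok j (Cube.fine_buf j (hj hx).1)
  have k1 : ∀ {i j x}, x ∈ 𝓜₁.Q'.cell i → x ∈ P.U j →
      Eqc 𝓜₁.Q' 𝓜₀.Q' i (B i) ∧ EqOn f₁ f (𝓜₁.Q'.cell i) := fun {i j x} hx hj => by
    refine ⟨(k0 i).resolve_left fun a => ?_, (hf j).mono fun y hy => ?_⟩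
    · obtain ⟨q, q1, q2⟩ := a hx
      exact (ok.cpin q q1 x (self_subset_cthickening _ q2)).2.2 j hj
    · obtain ⟨l, -, l2⟩ := 𝓜₁.refine i
      obtain ⟨z, hz, h2⟩ := mem_thickening_iff.1 hj
      have h3 : (0 : ℝ) ≤ (P.T j).b * P.η := mul_nonneg (Nat.cast_nonneg _) Cube.eta_pos.le
      exact mem_cthickening_of_dist_le y z _ _ hz (by
        linarith [𝓜₁.near_diam l j ⟨x, l2 hx, hj⟩ y (l2 hy) x (l2 hx), dist_triangle y x z])
  have k2 : ∀ {i l x}, B i ∈ γ.G → x ∈ 𝓜₁.Q'.cell i → x ∈ 𝓜₁.Q'.cell l →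
      Eqc 𝓜₁.Q' 𝓜₀.Q' l (B l) ∧ EqOn f₁ f (𝓜₁.Q'.cell l) := fun hi hx hl =>
    let ⟨_, hj⟩ := hU _ hi
    k1 hl (hj ((hB _).1 hx))
  have k3 : ∀ {i l}, B i ∈ γ.G → 𝓜₁.Q'.cell l ⊆ 𝓜₁.Q'.cell i →
      Eqc 𝓜₁.Q' 𝓜₀.Q' l (B l) ∧ EqOn f₁ f (𝓜₁.Q'.cell l) := fun {_ l} hi hl =>
    let ⟨_, hx⟩ := 𝓜₁.Q'.cell_nonempty l
    k2 hi (hl hx) hx
  have k4 : ∀ {i}, B i ∈ γ.G → 𝓜₀.Q'.cell (B i) = 𝓜₁.Q'.cell i := fun hi =>
    (k3 hi Subset.rfl).1.1
  have k5 : ∀ i ∈ γ.G, ∃ l, B l = i := fun i hi => by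
    obtain ⟨x, hx⟩ := 𝓜₀.Q'.ocell_nonempty i
    obtain ⟨l, hl⟩ := 𝓜₁.Q'.exists_ocell
      (𝓜₁.carrier'.symm ▸ 𝓜₀.carrier' ▸ 𝓜₀.Q'.cell_subset_carrier i hx.1)
    exact ⟨l, 𝓜₀.Q'.ocell_unique ((hB l).2.1 hl) hx⟩
  obtain ⟨G, hG'⟩ : ∃ G : Finset 𝓜₁.Q'.ι, ∀ i, i ∈ G ↔ B i ∈ γ.G :=
    ⟨(γ.G.finite_toSet.preimage (f := B) fun a ha b hb e => 𝓜₁.Q'.cell_injective (by
      rw [← k4 ha, ← k4 hb, e])).toFinset, fun i => Finite.mem_toFinset _⟩
  have h4 : ∀ i ∈ γ.G, γ.s i / γ.M i ≤ β := fun i hi => by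
    obtain ⟨a, b, c⟩ := γ.pos i hi
    exact (div_le_self a.le b).trans ((le_mul_of_one_le_left a.le b).trans c)
  refine ⟨{ G := G, A := γ.A ∘ B, s := γ.s ∘ B, M := γ.M ∘ B, face := ?_, simplex := ?_,
            vert := ?_, inj := ?_, inter := ?_, pos := fun i hi => γ.pos _ ((hG' i).1 hi),
            sep := ?_, deg := ?_, wire := ?_, far := ?_, ang := ?_ }, ?_, ?_⟩ <;>
    simp only [gim, hG', Function.comp_apply]
  · intro i hi l hl
    rw [← (k3 hi hl).1.1]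
    exact γ.face _ hi _ (by rwa [(k3 hi hl).1.1, k4 hi])
  · intro i hi
    obtain ⟨t, t1, t2, t3⟩ := γ.simplex _ hi
    refine ⟨t, t1, k4 hi ▸ t2, fun l hl => ?_⟩
    rw [← (k3 hi hl).1.1]
    exact t3 _ (by rwa [(k3 hi hl).1.1, k4 hi])
  · intro v hv h0 x hx
    exact (γ.vert _ hv ((k3 hv Subset.rfl).1.2.2.2.trans h0) (k4 hv ▸ hx)).trans
      ((k3 hv Subset.rfl).2 hx).symm
  · intro i hi
    exact k4 hi ▸ γ.inj _ hi
  · intro i hi l hl
    rw [← k4 hi, ← k4 hl]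
    exact γ.inter _ hi _ hl
  · intro i hi l hl
    rw [← k4 hi, ← k4 hl]
    exact γ.sep _ hi _ hl
  · intro v hv h0
    obtain ⟨x, hx⟩ := 𝓜₁.Q'.cell_nonempty v
    refine le_trans (Nat.cast_le.2 (ncard_le_ncard_of_injOn B (fun e he => ?_)
      (fun a ha b hb e => 𝓜₁.Q'.cell_injective ?_) ?_))
      (γ.deg _ hv ((k3 hv Subset.rfl).1.2.2.2.trans h0))
    · have a := (k2 hv hx (he.2 hx)).1
      exact ⟨a.2.2.2.trans he.1, by rw [k4 hv, a.1]; exact he.2⟩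
    · rw [← (k2 hv hx (ha.2 hx)).1.1, ← (k2 hv hx (hb.2 hx)).1.1, e]
    · exact (𝓜₀.Q'.finite_meet_cell (B v)).subset fun e he => ⟨x, he.2 (k4 hv ▸ hx), k4 hv ▸ hx⟩
  · intro v hv e x y he hx hs
    obtain ⟨a, h⟩ := k2 (l := e) hv (hx ▸ rfl : x ∈ _) (hs ▸ left_mem_segment _ _ _)
    rw [hs] at h
    rw [h (left_mem_segment _ _ _), h (right_mem_segment _ _ _), eVariationOn.eq_of_eqOn
      (f' := fun t : ℝ => f (AffineMap.lineMap x y t) - AffineMap.lineMap (f x) (f y) t)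
      fun t ht => by simp only [h (lineMap_mem_segment ℝ x y ht)]]
    exact γ.wire _ hv _ x y (a.2.2.2.trans he) ((k4 hv).trans hx) (a.1.trans hs)
  · intro i hi e he hd x hx y hy
    rw [← k4 hi] at hd hy
    by_cases hc : x ∈ Core P 𝓒 ∨ f₁ x ≠ f x
    · exact (h4 _ hi).trans (hfar x (𝓜₁.carrier' ▸ 𝓜₁.Q'.cell_subset_carrier e hx) hc y
        (mem_biUnion hi hy))
    · have a := (k0 e).resolve_left fun a => hc (Or.inl (a hx))
      rw [not_not.1 fun b => hc (Or.inr b)]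
      exact γ.far _ hi _ (a.2.2.2.trans he) (a.1 ▸ hd) x (a.1 ▸ hx) y hy
  · intro i hi e x y he hs hx hy
    obtain ⟨a, h⟩ := k2 (l := e) hi hx (hs ▸ left_mem_segment _ _ _)
    rw [hs] at h
    rw [h (left_mem_segment _ _ _), h (right_mem_segment _ _ _), ← k4 hi]
    exact γ.ang _ hi _ x y (a.2.2.2.trans he) (a.1.trans hs) (k4 hi ▸ hx) (k4 hi ▸ hy)
  · refine Subset.antisymm (iUnion₂_subset fun i hi => k4 hi ▸ subset_biUnion_of_mem
      (u := fun j => γ.A j '' 𝓜₀.Q'.cell j) hi) (iUnion₂_subset fun i hi => ?_)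
    obtain ⟨l, rfl⟩ := k5 i hi
    exact k4 hi ▸ subset_iUnion₂_of_subset l hi Subset.rfl
  · intro g hg i hi
    obtain ⟨l, rfl⟩ := k5 i hi
    exact k4 hi ▸ hg l hi

end P073.Ac4
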