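import Vale.Agent.P073Y.Ac4.Osc
import Vale.Agent.P073Y.Ac4.Chg
import Vale.Agent.P073Y.Ac4.Good
import Vale.Agent.P073Z.ACC.Mid

/-!
# The first PL homeomorphism, which is affine on the cores
-/

open Set Metric Topology Filter MeasureTheory
open scoped ENNReal NNReal

namespace P073.Ac4

open M2 Gc Os
open Inf (gim)
open Vale.Agent.P073.HB (GoodSeg)

theorem prep_of (hC : CHG) (hG : GOOD1) (hT : GTR) : PREP := by
  classical
  obtain ⟨K₂, H⟩ := tgt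
  refine ⟨K₂ * 2, fun M₀ => ?_⟩
  choose! τ₀ M h0 hM hG using hG STR.kap STR.kap_pos M₀
  obtain ⟨τ, D, p1, p2⟩ : ∃ τ D : ℝ → ℝ, (∀ b, 0 < τ b ∧ b * τ b ≤ 1 / 16 ∧ 20 ≤ D b) ∧
      ∀ b, 1 ≤ b → τ b ≤ τ₀ b ∧ 60 * (b * (200 * M b + 10 * b)) ≤ D b := by
    refine ⟨fun b => min (τ₀ (max b 1)) (1 / 16 / max b 1),
      fun b => max 20 (60 * (b * (200 * M b + 10 * b))), fun b => ?_, fun b hb =>
        ⟨by simp only [max_eq_left hb]; exact min_le_left _ _, le_max_right _ _⟩⟩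
    have a1 : 0 < max b 1 := one_pos.trans_le (le_max_right _ _)
    have a2 : 0 < min (τ₀ (max b 1)) (1 / 16 / max b 1) :=
      lt_min (h0 _ (le_max_right _ _)) (by positivity)
    exact ⟨a2, (mul_le_mul_of_nonneg_right (le_max_left b 1) a2.le).trans
      ((le_div_iff₀' a1).1 (min_le_right _ _)), le_max_left _ _⟩
  refine ⟨τ, D, p1, ?_⟩
  intro Ω Λ K₀ P f f' F ι I c σ δ β' Mt S₀ S 𝓜₀ 𝓜₁ γ' η std hF fam siz ok2 cmp good hβ hη T hδ ho
    hK h1 h2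
  have hf := std.homeo
  obtain ⟨f₁, f₁', std₁, var, off, chg⟩ := hC std fam fun b _ =>
    ⟨(p1 b).1.le, (p1 b).2.1, by linarith [(p1 b).2.2]⟩
  obtain ⟨δ', T', t1, t2, t3⟩ := gauge4 (C := fun b => 200 * M b + 10 * b) std.oΛ hf std₁.homeo
    ok2.ok fam siz (fun b hb => ⟨(p1 b).1.le, by nlinarith [(p1 b).1, (p1 b).2.1],
      by linarith [hM b hb], (p2 b hb).2⟩) off (fun i hi => ⟨(chg i hi).1.near, (chg i hi).2⟩) T hδ ho
  have rm : ∀ i ∈ I, closedBall (c i).q ((c i).R + (c i).ρ) ⊆ (c i).room := fun i hi =>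
    closedBall_subset_ball (by nlinarith [(fam.ok i hi).T_ge, (p1 (c i).b).2.2, ρ_pos (c i)])
  have g1 : ∀ y ∈ gim γ', ∃ v ∈ K₀, dist y (f v) ≤ β' := fun y hy => by
    obtain ⟨i, a, x, a1, rfl⟩ := mem_iUnion₂.1 hy
    exact (h2 i a).2 x a1
  have far : ∀ i ∈ I, ∀ z ∈ f '' (c i).room, ∀ y ∈ gim γ', β' ≤ dist z y := by
    rintro i hi _ ⟨x, hx, rfl⟩ y hy
    obtain ⟨v, a1, a2⟩ := g1 y hy
    by_contra a3
    obtain ⟨j, a4⟩ := (h1 v a1).2 x ((fam.ok i hi).sub (ball_subset_closedBall hx))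
      (by linarith [dist_triangle_left (f v) (f x) y, dist_comm y (f x)])
    exact disjoint_left.1 ((fam.ok i hi).off j) (ball_subset_closedBall hx)
      (thickening_subset_cthickening_of_le (by
        nlinarith [mul_nonneg (Nat.cast_nonneg (P.T j).b : (0:ℝ) ≤ _) (Me.η_pos (P := P)).le]) _ a4)
  obtain ⟨γ₁, e1, e2⟩ := hT 𝓜₀ 𝓜₁ (f₁ := f₁) γ' ok2 cmp (fun i hi => (h2 i hi).1)
    (fun j x hx => off x (ok2.ok.big j x hx).1 fun i hi a => disjoint_left.1 ((fam.ok i hi).off j)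
      (ball_subset_closedBall (rm i hi a)) hx) fun x hx h y hy => by
      obtain ⟨i, hi, a⟩ : ∃ i ∈ I, x ∈ closedBall (c i).q ((c i).R + (c i).ρ) := by
        rcases h with ⟨_, ⟨i, hi, a1, a2⟩, a3⟩ | h
        · exact ⟨i, hi, closedBall_subset_closedBall (by linarith [ρ_pos (c i)])
            (a2 (a1 ▸ a3))⟩
        · by_contra a
          exact h (off x hx fun i hi b => a ⟨i, hi, b⟩)
      exact far i hi _ ((chg i hi).2.subset ⟨x, rm i hi a, rfl⟩) y hy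
  have seg : ∀ e x y, 𝓜₁.Q'.dim e = 1 → 𝓜₁.Q'.cell e = segment ℝ x y → GoodSeg f F x (y - x) :=
    fun e x y he hs => by
      obtain ⟨-, ⟨v, hv, hx⟩, v', hv', hy⟩ := Mid.ends 𝓜₁.cvx' he hs
      exact good x y (hs ▸ (𝓜₁.Q'.cell_subset_carrier e).trans 𝓜₁.carrier'.le)
        (𝓜₁.rat' v hv x hx) (𝓜₁.rat' v' hv' y hy)
  obtain ⟨u, hu⟩ := countable_iff_exists_injOn.1 fam.cnt
  have zone : ∀ n : ℕ, ∃ (β : ℝ) (γ : Good 𝓜₁.Q' f₁ STR.kap β), 0 < β ∧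
      (∀ g : E3 → E3, (∀ l ∈ γ.G, EqOn g (γ.A l) (𝓜₁.Q'.cell l)) →
        (n = 0 → ∀ l ∈ γ'.G, EqOn g (γ'.A l) (𝓜₀.Q'.cell l)) ∧
        ∀ i ∈ I, u i + 1 = n → EqOn g ((c i).a f) ((c i).core P)) ∧
      ∀ y ∈ gim γ, (n = 0 ∧ y ∈ gim γ' ∧ β = β') ∨
        ∃ i ∈ I, u i + 1 = n ∧ y ∈ (c i).a f '' (c i).core P ∧ β = M (c i).b * (c i).ρ := by
    intro n
    by_cases hn : ∃ i ∈ I, u i + 1 = n
    · obtain ⟨i, hi, rfl⟩ := hn
      have a0 := fam.ok i hi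
      have a1 := (meshc 𝓜₁ (c i).k ((c i).Z P) ok2 fun z hz => ⟨i, hi, rfl, hz⟩).2
      obtain ⟨γ, a2, a3⟩ := hG _ a0.b_ge rfl a0 (by linarith [(p1 (c i).b).2.2]) (p1 _).1.le
        (p2 _ a0.b_ge).1 le_rfl hF std₁.homeo.cont (An.MaxA.openOn_of std.oΛ std₁.homeo)
        std₁.homeo.left_inv.injOn a1 seg (chg i hi).1
      refine ⟨_, γ, mul_pos (one_pos.trans_le (hM _ a0.b_ge)) (ρ_pos _), fun g hg =>
        ⟨fun h => absurd h (Nat.succ_ne_zero _), fun i' hi' h x ⟨z, b1, b2⟩ => ?_⟩, fun y hy => ?_⟩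
      · obtain rfl := hu hi' hi (Nat.succ_injective h)
        obtain ⟨l, hl⟩ := 𝓜₁.Q'.exists_ocell (𝓜₁.carrier'.symm ▸ a0.sub
          (ball_subset_closedBall (rm _ hi (closedBall_subset_closedBall
            (by linarith [ρ_pos (c i')]) (b1 b2)))))
        have b3 : l ∈ γ.G := (a2 l).2 fun v hv =>
          ⟨z, b1, kcell_ucube b2 ((a1.kuhn l z b1 x hl b2).subset hv)⟩
        exact (hg l b3 hl.1).trans (a3 l b3 hl.1)
      · obtain ⟨l, b1, x, b2, rfl⟩ := mem_iUnion₂.1 hy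
        exact Or.inr ⟨i, hi, rfl, ⟨x, (a2 l).1 b1 b2, (a3 l b1 b2).symm⟩, rfl⟩
    rcases eq_or_ne n 0 with rfl | h
    · exact ⟨β', γ₁, hβ, fun g hg => ⟨fun _ => e2 g hg, fun i hi a => absurd ⟨i, hi, a⟩ hn⟩,
        fun y hy => Or.inl ⟨rfl, e1 ▸ hy, rfl⟩⟩
    · exact ⟨1, none _ _ _ _, one_pos, fun g _ => ⟨fun a => absurd a h,
        fun i hi a => absurd ⟨i, hi, a⟩ hn⟩, fun y hy => ((gim_none _ _ _ _).subset hy).elim⟩
  choose β γ z1 z2 z3 using zone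
  obtain ⟨g, O, o1, o2, o3⟩ := H γ
    (fun l => if h : ∃ e, 𝓜₀.Q'.cell e = 𝓜₁.Q'.cell l then η h.choose else 1) std₁ T' 𝓜₁.cvx'
    𝓜₁.carrier' (fun e x y he hs => (var x y).trans_lt
      (ENNReal.mul_lt_top ENNReal.ofNat_lt_top (Mid.segVar_lt_top (seg e x y he hs)))) z1
    (fun l => by split_ifs; exacts [hη _, one_pos])
    (fun i x hx y hy => let ⟨l, _, a⟩ := 𝓜₁.refine i; (t3 𝓜₁).1 l x (a hx) y (a hy))
    (fun n y hy => by
      rcases z3 n y hy with ⟨-, a, b⟩ | ⟨i, hi, -, a, b⟩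
      · obtain ⟨v, a1, a2⟩ := g1 y a
        exact ⟨T.sub _ (hf.mapsTo (hK a1)) (mem_closedBall.2 (by linarith [(h1 v a1).1])),
          by linarith [(h1 v a1).1, t1 y, T.lip (f v) y, dist_comm y (f v)]⟩
      · obtain ⟨⟨x, a1, a2⟩, a3, -⟩ := t2 i hi y a
        exact ⟨a2 ▸ hf.mapsTo ((fam.ok i hi).sub (ball_subset_closedBall a1)), by
          nlinarith [mul_pos (one_pos.trans_le (fam.ok i hi).b_ge) (ρ_pos (c i))]⟩)
    fun n m hne y hy y' hy' => by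
      rcases z3 n y hy with ⟨a1, a2, -⟩ | ⟨i, hi, a1, a2, -⟩ <;>
        rcases z3 m y' hy' with ⟨b1, b2, -⟩ | ⟨i', hi', b1, b2, -⟩
      · exact absurd (a1.trans b1.symm) hne
      · linarith [(t2 i' hi' y' b2).2.2 y fun a => by linarith [far i' hi' y a y a2, dist_self y],
          dist_comm y y']
      · exact (t2 i hi y a2).2.2 y' fun a => by linarith [far i hi y' a y' b2, dist_self y']
      · refine (t2 i hi y a2).2.2 y' fun ⟨x, c1, c2⟩ => ?_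
        obtain ⟨x', c3, c4⟩ := (t2 i' hi' y' b2).1
        refine disjoint_left.1 (fam.disj i hi i' hi' fun e => hne (by rw [← a1, ← b1, e])) c1 ?_
        rwa [hf.left_inv.injOn ((fam.ok i hi).sub (ball_subset_closedBall c1))
          ((fam.ok i' hi').sub (ball_subset_closedBall c3)) (c2.trans c4.symm)]
  refine ⟨g, (z2 0 _ (o2 0)).1 rfl, fun e x y he hs => ?_,
    fun i hi => (z2 _ _ (o2 _)).2 i hi rfl, (t3 𝓜₀).2 _ o3⟩
  obtain ⟨l, a1, -, -, a2⟩ := cmp.wire' (empty_subset _) he.le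
  have a3 : ∃ e, 𝓜₀.Q'.cell e = 𝓜₁.Q'.cell l := ⟨e, a1⟩
  refine (o1.var l x y (a2.symm.trans he) (a1.symm.trans hs)).trans (add_le_add
    ((mul_le_mul_right (var x y) _).trans_eq (by push_cast; ring)) (le_of_eq ?_))
  rw [dif_pos a3, 𝓜₀.Q'.cell_injective (a3.choose_spec.trans a1.symm)]

theorem prep : PREP := prep_of chg good1 gtr

end P073.Ac4
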