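import Vale.Agent.P073Y.Ac4.Sk

/-!
# The mesh size round the cores, the accepted cores
-/

open Set Metric Topology Filter MeasureTheory
open scoped ENNReal NNReal

namespace P073.Ac4

open Me (dy)
open An (M3)
open M2 Zn Gc
open _root_.P073.Top

namespace Sz

variable {Ω : Set E3} {P : Par} {f : E3 → E3} {F : E3 → M3} {τ D : ℝ} {c : Cr} {x : E3}
  {σ : E3 → ℝ}

theorem ρ_pos (c : Cr) : 0 < c.ρ := by unfold Cr.ρ; positivity

theorem ρ_le (c : Cr) : c.ρ ≤ 1 := pow_le_one₀ (by norm_num) (by norm_num)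

theorem bump_le (c : Cr) (x : E3) : c.bump x ≤ 3 / 2 * c.ρ := by
  unfold Cr.bump
  linarith [infDist_nonneg (x := x) (s := closedBall c.q (c.R + 3 * c.ρ))]

theorem bump_eq (hx : dist x c.q ≤ c.R + 3 * c.ρ) : c.bump x = 3 / 2 * c.ρ := by
  unfold Cr.bump
  rw [infDist_zero_of_mem (mem_closedBall.2 hx), zero_div, sub_zero]

theorem bump_neg (hR : 0 ≤ c.R) (hx : c.R + 18 * c.ρ ≤ dist x c.q) : c.bump x ≤ 0 := by
  have h0 := ρ_pos c
  have h1 : 15 * c.ρ ≤ infDist x (closedBall c.q (c.R + 3 * c.ρ)) :=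
    (le_infDist (nonempty_closedBall.2 (by linarith))).2 fun y hy => by
      linarith [dist_triangle x y c.q, mem_closedBall.1 hy]
  unfold Cr.bump
  linarith

theorem bump_lip (c : Cr) (x y : E3) : c.bump x ≤ c.bump y + dist x y / 10 := by
  have := infDist_le_infDist_add_dist (x := y) (y := x) (s := closedBall c.q (c.R + 3 * c.ρ))
  rw [dist_comm] at this
  unfold Cr.bump
  linarith

theorem base_le (ς : E3 → ℝ) (k : ℕ) (x : E3) : base ς k x ≤ 3 / 2 * (2:ℝ)⁻¹ ^ k := min_le_right _ _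

theorem base_pos (ok : P.Ok Ω) (hx : x ∈ Ω) : 0 < base P.ς P.k₀ x :=
  lt_min (ok.pos x hx).1 (by positivity)

theorem base_lip (ok : P.Ok Ω) (x y : E3) :
    base P.ς P.k₀ x ≤ base P.ς P.k₀ y + dist x y / 10 := by
  have h1 : base P.ς P.k₀ x ≤ base P.ς P.k₀ y + ((1 / 10 : ℝ≥0) : ℝ) * dist x y :=
    (ok.lip.min_const (3 / 2 * (2:ℝ)⁻¹ ^ P.k₀)).le_add_mul x y
  push_cast at h1
  linarith

theorem room_sub (h : c.Ok Ω P f F τ D) : c.room ⊆ Ω := ball_subset_closedBall.trans h.sub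

theorem mem_room (h : c.Ok Ω P f F τ D) (hD : 20 ≤ D) (hx : dist x c.q ≤ c.R + 19 * c.ρ) :
    x ∈ c.room := by
  have := h.T_ge
  have := ρ_pos c
  exact mem_ball.2 (by nlinarith)

theorem not_U (h : c.Ok Ω P f F τ D) (hx : x ∈ c.room) (j : Fin P.N) : x ∉ P.U j := fun hj => by
  refine Set.disjoint_left.1 (h.off j) (ball_subset_closedBall hx)
    (thickening_subset_cthickening _ _ (thickening_mono ?_ _ hj))
  have : (0:ℝ) ≤ (P.T j).b * P.η := mul_nonneg (by positivity) Me.η_pos.le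
  nlinarith

variable {τ' D' : ℝ → ℝ} {ι : Type} {I : Set ι} {d : ι → Cr} {i : ι}

/-- near the core the scale is pinned -/
theorem pin (h : Fam Ω P f F τ' D' I d) (hs : Siz Ω P σ I d) (hD : ∀ b, 20 ≤ D' b) (hi : i ∈ I)
    (hx : dist x (d i).q ≤ (d i).R + 3 * (d i).ρ) :
    x ∈ Ω ∧ Pin σ (d i).k x ∧ ∀ j, x ∉ P.U j := by
  have h0 := ρ_pos (d i)
  have h1 := mem_room (h.ok i hi) (hD _) (x := x) (by linarith)
  refine ⟨room_sub (h.ok i hi) h1, ?_, not_U (h.ok i hi) h1⟩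
  unfold Pin
  rw [hs.on i hi x h1, bump_eq hx, max_eq_right ((h.ok i hi).bas x h1)]
  exact ⟨show 11 / 10 * (d i).ρ ≤ _ by linarith, show _ ≤ 17 / 10 * (d i).ρ by linarith⟩

theorem dist_le {z : Fin 3 → ℤ} (hz : z ∈ c.Z P) {r : ℝ} (hr : 0 ≤ r)
    (hx : dy P c.k x ∈ cthickening r (ucube z)) : dist x c.q ≤ c.R + r * c.ρ := by
  obtain ⟨θ, hθ⟩ := Me.exists_dy P c.k
  have h1 := (isCompact_Icc (a := fun i => (z i : ℝ))
    (b := fun i => (z i : ℝ) + 1)).cthickening_eq_biUnion_closedBall hr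
  obtain ⟨u, h2, h3⟩ := mem_iUnion₂.1 (h1.subset hx)
  have h4 : dy P c.k (θ.symm u) = u := by rw [← hθ, θ.apply_symm_apply]
  have h5 : dist (θ.symm u) c.q ≤ c.R := hz (mem_preimage.2 (by rwa [h4]))
  have h6 := Me.dist_dy (P := P) c.k x (θ.symm u)
  rw [h4] at h6
  have h7 := mul_le_mul_of_nonneg_left (mem_closedBall.1 h3) (ρ_pos c).le
  have h8 := dist_triangle x (θ.symm u) c.q
  unfold Cr.ρ at h7 ⊢
  linarith

end Sz

open Sz

theorem size4 : SIZE4 := by
  intro Ω P f F τ D ι I c ok h hD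
  let A : E3 → Set ℝ := fun x => insert (base P.ς P.k₀ x) ((fun i => (c i).bump x) '' I)
  have hk : (2:ℝ)⁻¹ ^ P.k₀ ≤ 1 := pow_le_one₀ (by norm_num) (by norm_num)
  have hb : ∀ x, ∀ t ∈ A x, t ≤ 3 / 2 := by
    rintro x _ (rfl | ⟨i, -, rfl⟩)
    · linarith [base_le P.ς P.k₀ x]
    · linarith [bump_le (c i) x, ρ_le (c i)]
  have hn : ∀ x, (A x).Nonempty := fun x => insert_nonempty _ _
  have hle : ∀ x, ∀ t ∈ A x, t ≤ sSup (A x) := fun x t ht => le_csSup ⟨_, hb x⟩ ht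
  have hneg : ∀ x ∈ Ω, ∀ i ∈ I, x ∉ (c i).room → (c i).bump x ≤ base P.ς P.k₀ x :=
    fun x hx i hi h1 => by
      have h2 := (h.ok i hi).R_ge
      have h3 := ρ_pos (c i)
      refine (bump_neg (by linarith) (le_of_not_gt fun h4 => h1 ?_)).trans (base_pos ok hx).le
      exact mem_room (h.ok i hi) (hD _) (by linarith)
  have hs : Siz Ω P (fun x => sSup (A x)) I c := by
    refine ⟨fun x hx h1 => le_antisymm (csSup_le (hn x) ?_) (hle x _ (mem_insert _ _)),
      fun i hi x hx => le_antisymm (csSup_le (hn x) ?_) (max_le (hle x _ (mem_insert _ _))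
        (hle x _ (mem_insert_of_mem _ ⟨i, hi, rfl⟩)))⟩
    · rintro _ (rfl | ⟨i, hi, rfl⟩)
      exacts [le_rfl, hneg x hx i hi (h1 i hi)]
    · rintro _ (rfl | ⟨i', hi', rfl⟩)
      · exact le_max_left _ _
      · by_cases e : i' = i
        · exact e ▸ le_max_right _ _
        · exact (hneg x (room_sub (h.ok i hi) hx) i' hi'
            (Set.disjoint_right.1 (h.disj i' hi' i hi e) hx)).trans (le_max_left _ _)
  have hl : LipschitzWith (1 / 10) fun x => sSup (A x) := by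
    refine LipschitzWith.of_le_add_mul _ fun x y => csSup_le (hn x) ?_
    have e : ((1 / 10 : ℝ≥0) : ℝ) * dist x y = dist x y / 10 := by push_cast; ring
    rw [e]
    rintro _ (rfl | ⟨i, hi, rfl⟩)
    · linarith [base_lip ok x y, hle y _ (mem_insert _ _)]
    · linarith [bump_lip (c i) x y, hle y _ (mem_insert_of_mem _ ⟨i, hi, rfl⟩)]
  have hp : ∀ x ∈ Ω, 0 < sSup (A x) ∧ sSup (A x) ≤ 2 ∧ closedBall x (sSup (A x)) ⊆ Ω := by
    intro x hx
    have h1 : closedBall x (base P.ς P.k₀ x) ⊆ Ω :=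
      (closedBall_subset_closedBall (min_le_left _ _)).trans (ok.pos x hx).2
    refine ⟨(base_pos ok hx).trans_le (hle x _ (mem_insert _ _)),
      (csSup_le (hn x) (hb x)).trans (by norm_num), ?_⟩
    by_cases h2 : ∃ i ∈ I, x ∈ (c i).room
    · obtain ⟨i, hi, h2⟩ := h2
      have h3 := ρ_pos (c i)
      have h4 := (h.ok i hi).R_ge
      rw [show sSup (A x) = _ from hs.on i hi x h2]
      rcases le_total ((c i).R + 18 * (c i).ρ) (dist x (c i).q) with h5 | h5
      · rwa [max_eq_left ((bump_neg (by linarith) h5).trans (base_pos ok hx).le)]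
      · refine (closedBall_subset_closedBall' ?_).trans (h.ok i hi).sub
        have h6 := max_le ((h.ok i hi).bas x h2) (bump_le (c i) x)
        have h7 := (h.ok i hi).T_ge
        nlinarith [hD (c i).b]
    · rwa [show sSup (A x) = _ from hs.off x hx fun i hi h3 => h2 ⟨i, hi, h3⟩]
  have hq : ∀ j, ∀ x ∈ cthickening (100 * (P.T j).b * P.η) (P.K j),
      Pin (fun x => sSup (A x)) P.k₀ x := by
    intro j x hx
    obtain ⟨h1, h2⟩ := ok.big j x hx
    have h3 : (1:ℝ) ≤ (P.T j).b := by exact_mod_cast (P.T j).b_pos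
    have h4 := Me.η_pos (P := P)
    have h5 : sSup (A x) = 3 / 2 * P.η := (hs.off x h1 fun i hi h5 =>
      Set.disjoint_left.1 ((h.ok i hi).off j) (ball_subset_closedBall h5) hx).trans
      (min_eq_right (show 3 / 2 * P.η ≤ _ by nlinarith))
    exact ⟨show 11 / 10 * P.η ≤ sSup (A x) by linarith,
      show sSup (A x) ≤ 17 / 10 * P.η by linarith⟩
  refine ⟨_, hs, ⟨ok, hl, hp, hq, fun _ h1 => h1.elim⟩, ok, hl, hp, hq, ?_⟩
  rintro ⟨k, z⟩ ⟨i, hi, rfl, hz⟩ x hx
  exact pin h hs hD hi ((dist_le hz zero_le_two hx).trans (by linarith [ρ_pos (c i)]))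

namespace Sz

theorem lat_sep {s : ℝ} {q q' : E3} (hs : 0 < s) (h : q ∈ lat0 s) (h' : q' ∈ lat0 s)
    (e : q ≠ q') : s ≤ dist q q' := by
  obtain ⟨i, hi⟩ := Function.ne_iff.1 e
  obtain ⟨m, hm⟩ := h i
  obtain ⟨m', hm'⟩ := h' i
  refine le_trans ?_ (dist_le_pi_dist q q' i)
  have h1 : m - m' ≠ 0 := fun h1 => hi (by rw [hm, hm', sub_eq_zero.1 h1])
  have h2 : (1:ℝ) ≤ |(m : ℝ) - m'| := by exact_mod_cast Int.one_le_abs h1
  rw [Real.dist_eq, hm, hm', ← sub_mul, abs_mul, abs_of_pos hs]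
  nlinarith

theorem infDist_ball {q x : E3} {r : ℝ} (hr : 0 ≤ r) (h : r < dist x q) :
    infDist x (closedBall q r) ≤ dist x q - r := by
  have h0 : 0 < dist x q := hr.trans_lt h
  have h1 : dist (AffineMap.lineMap q x (r / dist x q) : E3) q = r := by
    rw [dist_lineMap_left, Real.norm_of_nonneg (by positivity), dist_comm q]
    field_simp
  have h2 : dist x (AffineMap.lineMap q x (r / dist x q) : E3) = dist x q - r := by
    rw [dist_right_lineMap, Real.norm_of_nonneg (sub_nonneg.2 ((div_le_one h0).2 h.le)),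
      dist_comm q]
    field_simp
  exact h2 ▸ infDist_le_dist_of_mem (mem_closedBall.2 h1.le)

theorem infDist_lat {s r : ℝ} {q x : E3} (hs : 0 < s) (hr : 0 ≤ r) (hq : q ∈ lat0 s)
    (hx : dist x q ≤ s / 2) : infDist x (closedBall q r) = infDist x (cubes (lat0 s) r) := by
  have h1 : closedBall q r ⊆ cubes (lat0 s) r := subset_biUnion_of_mem (u := (closedBall · r)) hq
  have h2 := nonempty_closedBall (x := q).2 hr
  refine le_antisymm ((le_infDist (h2.mono h1)).2 fun y hy => ?_)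
    (infDist_le_infDist_of_subset h1 h2)
  obtain ⟨q', h3, h4⟩ := mem_iUnion₂.1 hy
  by_cases e : q = q'
  · exact infDist_le_dist_of_mem (e ▸ h4)
  rcases le_or_gt (dist x q) r with h5 | h5
  · rw [infDist_zero_of_mem (mem_closedBall.2 h5)]
    exact dist_nonneg
  · linarith [infDist_ball hr h5, lat_sep hs hq h3 e, dist_triangle_left q q' x,
      dist_triangle x y q', mem_closedBall.1 h4]

variable {L : Lay} {τ D : ℝ → ℝ}

theorem lay_le (h : L.Ok τ D) (hD : ∀ b, 20 ≤ D b) (A : E3 → M3) (q : E3) :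
    0 < L.ρ ∧ L.ρ ≤ (L.cr D A q).R ∧ (L.cr D A q).T ≤ L.s / 2 ∧ L.ρ ≤ L.s := by
  have h0 : 0 < L.ρ := by unfold Lay.ρ; positivity
  have h1 := h.ρ_le
  have h2 := mul_le_mul_of_nonneg_right h.θ_le h.s_pos.le
  have h3 := mul_le_mul_of_nonneg_right (hD L.b) h0.le
  refine ⟨h0, show _ ≤ L.s / 2 - L.θ * L.s / 2 by linarith,
    show L.s / 2 - L.θ * L.s / 2 + D L.b * L.ρ ≤ _ by linarith, by linarith⟩

end Sz

theorem fam : FAM := by
  intro Ω Λ Ω₀ X f f' F P Y τ D L p a₀ κ ε s₁ oN d β' δ o o₁ Z vv rr μ₀ P₁ P₂ A H S hD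
  have hV : ∀ t ∈ acc L D A P₁, closedBall t.2 (crs L D A t).T ⊆ (L t.1).V := fun t ht => by
    refine (closedBall_subset_closedBall ?_).trans ((S.sol t.1).lat t.2 (Or.inl ht.1)).2.1
    linarith [(lay_le (H.lay t.1) hD (A t.1) t.2).2.2.1, (H.lay t.1).s_pos,
      show (crs L D A t).T = ((L t.1).cr D (A t.1) t.2).T from rfl]
  have hr : ∀ t ∈ acc L D A P₁, (crs L D A t).room ⊆ (L t.1).V := fun t ht =>
    ball_subset_closedBall.trans (hV t ht)
  have hlat : ∀ t ∈ acc L D A P₁, t.2 ∈ lat0 (L t.1).s := fun t ht =>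
    ((S.sol t.1).lat t.2 (Or.inl ht.1)).1
  refine ⟨⟨?_, fun t ht => ?_, ?_⟩, hV, fun σ hσ x hx => ?_⟩
  · refine (countable_iUnion fun n : ℕ => ((P₁ n).countable_toSet.image (Prod.mk n))).mono ?_
    exact fun t ht => mem_iUnion.2 ⟨t.1, t.2, ht.1, rfl⟩
  · obtain ⟨h0, h1, h2, -⟩ := lay_le (H.lay t.1) hD (A t.1) t.2
    have h3 : closedBall t.2 (crs L D A t).T ⊆ closedBall t.2 (2 * (L t.1).s) :=
      closedBall_subset_closedBall (h2.trans (by linarith [(H.lay t.1).s_pos]))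
    have h4 := mul_le_mul_of_nonneg_right (H.lay t.1).τ_mem.2 h0.le
    refine ⟨(H.lay t.1).b_ge, (S.sol t.1).bil t.2 ht.1, h1, le_rfl, (hV t ht).trans (H.V_sub _),
      fun j => (H.V_off _ j).mono_left (hV t ht), fun x hx => (H.V_le _ x (hr t ht hx)).1,
      fun x hx y hy => ((S.sol t.1).close t.2 ht.1 x (h3 hx) y (h3 hy)).trans h4,
      fun x y ζ h5 h6 h7 => ((S.sol t.1).wire t.2 ht.1 x y ζ h5 (h6.trans ?_) (h7.trans h3)).trans
        (ENNReal.ofReal_le_ofReal h4)⟩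
    congr 1
    funext u
    show (2:ℝ) ^ (L t.1).k • (u - P.w) = ((2:ℝ)⁻¹ ^ (L t.1).k)⁻¹ • (u - P.w)
    rw [inv_pow, inv_inv]
  · rintro ⟨n, q⟩ ht ⟨n', q'⟩ ht' e
    by_cases e1 : n = n'
    · subst e1
      refine ball_disjoint_ball (le_trans ?_ (lat_sep (H.lay n).s_pos (hlat _ ht) (hlat _ ht')
        fun e2 => e (Prod.ext rfl e2)))
      have h1 := (lay_le (H.lay n) hD (A n) q).2.2.1
      have h2 := (lay_le (H.lay n) hD (A n) q').2.2.1
      exact (add_le_add h1 h2).trans_eq (add_halves _)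
    rcases n with _ | n
    · exact ((ht'.2.resolve_left (Ne.symm e1)) q ht.1).symm
    rcases n' with _ | n'
    · exact (ht.2.resolve_left e1) q' ht'.1
    · exact (H.V_disj n n' fun e2 => e1 (by rw [e2])).1.mono (hr _ ht) (hr _ ht')
  · have h0 : base P.ς P.k₀ x ≤ 3 / 2 * (L 0).ρ := (base_le _ _ x).trans
      (mul_le_mul_of_nonneg_left (pow_le_pow_of_le_one (by norm_num) (by norm_num) H.main.2.2)
        (by norm_num))
    by_cases h1 : ∃ t ∈ acc L D A P₁, x ∈ (crs L D A t).room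
    · obtain ⟨⟨n, q⟩, ht, h1⟩ := h1
      obtain ⟨h2, h3, h4, h5⟩ := lay_le (H.lay n) hD (A n) q
      rw [hσ.on _ ht x h1]
      refine ⟨max_le h0 ((bump_le _ x).trans (mul_le_mul_of_nonneg_left ?_ (by norm_num))), ?_⟩
      · rcases n with _ | n
        exacts [le_rfl, h5.trans (H.aux n).1]
      · refine (max_choice _ _).imp_right fun e => ⟨n, hr _ ht h1, e.trans ?_⟩
        exact congrArg (fun t => 3 / 2 * (L n).ρ - t / 10) (infDist_lat (H.lay n).s_pos
          (add_nonneg (h2.le.trans h3) (mul_nonneg zero_le_three h2.le)) (hlat _ ht)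
          ((mem_ball.1 h1).le.trans h4))
    · rw [hσ.off x hx fun t ht h2 => h1 ⟨t, ht, h2⟩]
      exact ⟨h0, Or.inl rfl⟩

end P073.Ac4
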