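import Vale.Agent.P073Y.Ac4.Main
import Vale.Agent.P073Y.Ac4.Fix
import Vale.Agent.P073Y.Ac4.Size
import Vale.Agent.P073Y.Ac4.Prep
import Vale.Agent.P073Y.Ac4.Flat
import Vale.Agent.P073Y.Ac4.Cert
import Vale.Agent.P073Y.Ac4.MainB
import Vale.Agent.P073Y.Ac4.Far4
import Vale.Agent.P073Y.Ac4.Aux1
import Vale.Agent.P073Y.Ac4.AuxK
import Vale.Agent.P073Y.Ac4.AuxF
import Vale.Agent.P073Y.B4.All
import Vale.Agent.P073Y.Nr.Near3
import Vale.Agent.P073Y.Ms.Two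
import Vale.Agent.P073Y.An.TR0

/-!
# The approximation theorem for exponents from three on
-/

namespace P073.Ac4

theorem fix4 {p : ℝ} (hp : 1 ≤ p) : FIX4 p :=
  fix4_of hp size4 fam prep flat (cert4_of fam flat cerf (mainb_of cerf)) farl (fart hp) (ener4 hp)

theorem pla0 {p : ℝ} (h3 : 3 ≤ p) : An.PLA0 p :=
  have h1 : 1 ≤ p := by linarith
  pla0_of (by linarith) (fix4 h1) (B4.batch4 h1) (Nr.near3 h1) M2.mesh3 mean4
    (auxf_of sepz (aux1_of h3 (auxk h3)))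

theorem ballEvans {p : ℝ} (h3 : 3 ≤ p) : Vale.Agent.P073Z.Fin.BallEvans p :=
  An.ballEvans_of_PLA0 (by linarith) (pla0 h3)

end P073.Ac4
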