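import Vale.Agent.P073Y.Ac4.Sk

/-!
# The accounting for exponents from three on: fixed shift, auxiliary layers
-/

open Set Metric Topology Filter MeasureTheory
open scoped ENNReal NNReal

namespace P073.Ac4

open An (M3)
open M2 Zn Gc
open _root_.P073.Top
open B (Cer OscC Fc Main Aux Far3 Z3)
open Nr (nrc nrs Pre2L)
open G2 (Fine1)
open Vale.Agent.P073.HB (GoodSeg WeakDeriv)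

/-- the inner clause of `BATCH4` -/
def BIn4 (p a₀ c₀ κ : ℝ) (Cz : ℝ → ℝ≥0) (CM : ℝ → ℝ≥0 → ℝ≥0) (Cu : ℝ≥0 → ℝ≥0)
    (Ct : ℝ≥0 → ℝ → ℕ → ℝ → ℝ≥0 → ℝ≥0) {Ω : Set E3} (Λ Ω₀ : Set E3) {f : E3 → E3} (ε : ℝ)
    {J : Type} [Fintype J] (Y : J → TyZ Ω f) (T : J → (E3 ≃ᴬ[ℝ] E3)) (B : J → Set Z3)
    (s₁ l₂ e : ℝ) (o₁ o : E3 → ℝ) (Z : ℕ → Set E3) (vv rr μ₀ : ℕ → ℝ) : Prop :=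
  ∀ (S : Src Ω) (g : ConHomeo Ω Λ) (M₀ : ℝ≥0) (w : S.Q.ι → ℝ≥0∞)
    (Nr : J → Set S.Q.ι) (ν : J → (E3 ≃ᴬ[ℝ] E3)) (n : ∀ j, Nrm S (ν j)) (η : ℝ≥0∞)
    (𝓢 : J → Set S.Q.ι) (ψ : J → S.Q.ι → (E2 →ᵃ[ℝ] E3)) (a : J → S.Q.ι → ℝ)
    {ι : Type} [Fintype ι] (m : J → ι → S.Q.ι → ℝ≥0∞) (γ Γ D : Set E3) (G : ℕ → Set E3)
    (μ : ℕ → ℝ), Fc S → (∀ j, Fc (n j).src) → 0 < η →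
    Main S g.toFun a₀ l₂ γ Γ D → Γ ⊆ f '' Ω₀ → (∀ j, Disjoint Γ (f '' (Y j).G)) →
    (∀ k, Aux S g.toFun (Z k) Γ (⋃ j, f '' (Ω ∩ thickening s₁ (Y j).K)) (G k) (vv k) (rr k)
      (μ₀ k) (μ k) ∧
      ∀ j, ∀ c ∈ Nr j, Disjoint (g.toFun '' S.Q.cell c) (thickening (μ k) (G k))) →
    (∀ c, (∀ x ∈ S.Q.cell c, ∀ y ∈ S.Q.cell c, dist (g.toFun x) (g.toFun y) ≤ o y) ∨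
      (c ∈ hit S g.toFun Γ ∧ OscC S g.toFun c (κ * l₂))) →
    (∀ x ∈ Ω, dist (g.toFun x) (f x) ≤ o₁ x) →
    (∀ j, Cond (ν j) (Y j).L ∧ (∀ c ∈ Nr j, S.Q.cell c ⊆ thickening s₁ (Y j).K) ∧
      ∀ φ ∈ 𝓢 j, Marked (n j).src (T j ∘ g.toFun ∘ (ν j).symm) (Y j).θ φ (ψ j φ) (a j φ)) →
    (∀ c ∈ Far3 S Nr, S.M c = M₀ ∧ w c ≠ ⊤) →
  ∃ h : ConHomeo Ω Λ, (∀ u ∈ Ω, dist (h.toFun u) (f u) ≤ ε) ∧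
    (∀ u ∈ Ω, g.toFun u ∈ D → h.toFun u = g.toFun u) ∧
    (tot {c ∈ Far3 S Nr | ¬ g.toFun '' S.Q.cell c ⊆ D}
        (fun c => w c * lipc h.toFun (S.Q.cell c) ^ p) ≤
      Cu M₀ * tot {c ∈ Far3 S Nr | ¬ g.toFun '' S.Q.cell c ⊆ D}
        (fun c => w c * S.A g.toFun c ^ p) +
      ∑ j, Ct M₀ (Y j).θ (Y j).N (Y j).t (Y j).L *
        tot {c ∈ Far3 S Nr | (S.Q.cell c ∩ (Y j).G).Nonempty}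
          (fun c => w c * S.A g.toFun c ^ p) + η) ∧
    ∀ j, (∀ φ ∈ Nr j, ∀ u ∈ S.Q.cell φ, ∃ z, nbr 1 {z} ⊆ B j ∧
        T j (g.toFun u) ∈ lbox (Y j).N 0 z) ∧
      (∃ c k, NearOut p c₀ (Y j).θ (Y j).ϑ e (Cz (Y j).θ) (CM (Y j).θ) (n j).src (Y j).N
        (Y j).t (B j) (T j ∘ g.toFun ∘ (ν j).symm) (T j ∘ h.toFun ∘ (ν j).symm) (Nr j) η (𝓢 j)
        (ψ j) (a j) (m j) c k) ∧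
      ∀ c' ∈ Nr j, S.Q.dim c' = 3 →
        lipc (T j ∘ h.toFun ∘ (ν j).symm) (ν j '' S.Q.cell c') ≤ CM (Y j).θ ((n j).M c') *
          (n j).src.A (vst (Y j).N (Y j).t ∘ T j ∘ g.toFun ∘ (ν j).symm) c' + η

/-- the inner clause of `NEAR3` at the shift `P.w`; `Φ` is the value of the functional -/
def NIn3 (p : ℝ) (K₂ : ℝ≥0) {M₀ : ℝ≥0} (h1 : 1 ≤ M₀) (c₀ : ℝ) (Cz : ℝ → ℝ≥0)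
    (CM : ℝ → ℝ≥0 → ℝ≥0) (Mt : Ty → ℕ → ℝ≥0) (Sl : Ty → ℕ → Set E3)
    {Ω : Set E3} (Λ : Set E3) {f : E3 → E3} (F : E3 → M3) (P : Par) (Y : Fin P.N → TyZ Ω f)
    (Tg : Fin P.N → (E3 ≃ᴬ[ℝ] E3)) (o e d β' : ℝ) (Φ : ℝ≥0∞) : Prop :=
  ∀ {σ : E3 → ℝ} {𝓒 : Set (ℕ × (Fin 3 → ℤ))} {S₀ : Set E3} (𝓜 : Mesh2 Ω P σ 𝓒 M₀ Mt S₀ Sl)
    (ok : P.Ok Ω) (β : ℝ), β' ≤ β →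
  (∀ j, ∀ x ∈ P.U j, ∀ y ∈ Ω, dist (f x) (f y) ≤ 20 * β' → dist x y ≤ d) →
  (∀ e x y, 𝓜.Q'.dim e = 1 → 𝓜.Q'.cell e = segment ℝ x y → GoodSeg f F x (y - x)) →
  ∃ (γ : Fin P.N → Good 𝓜.Q' f STR.kap β) (δ : ℝ≥0∞) (Pw : 𝓜.Q.ι → (E3 ≃L[ℝ] E3)), 0 < δ ∧
    (∀ j, ∀ i ∈ (γ j).G, 𝓜.Q'.cell i ⊆ Fine1 P j ∧
      ∀ x ∈ 𝓜.Q'.cell i, ∃ v ∈ 𝓜.Q'.cell i ∩ (Y j).K, dist ((γ j).A i x) (f v) ≤ β') ∧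
    (∀ e, (∀ j, ¬ 𝓜.Q.cell e ⊆ Fine1 P j) → Pw e = ContinuousLinearEquiv.refl ℝ E3) ∧
  ∀ (g₀ Θ g : E3 → E3), (∀ j, ∀ x ∈ P.U j, g x = g₀ (Θ x)) →
    Pre2L P 𝓜.Q 𝓜.Q' f g₀ Θ K₂ γ Pw o δ →
  ∃ (𝓢 : Fin P.N → Set 𝓜.Q.ι) (ψ : Fin P.N → 𝓜.Q.ι → (E2 →ᵃ[ℝ] E3)) (a : Fin P.N → 𝓜.Q.ι → ℝ)
    (m : Fin P.N → Fin 4 → 𝓜.Q.ι → ℝ≥0∞),
    (∀ j, ∀ φ ∈ 𝓢 j, Marked (𝓜.nrm h1 ok j).src (Tg j ∘ g ∘ (𝓜.ν j).symm) (Y j).θ φ (ψ j φ)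
      (a j φ)) ∧
  ∀ (h : ConHomeo Ω Λ) (B : Fin P.N → Set (Fin 3 → ℤ)) (η : ℝ≥0∞), η ≤ δ →
    (∀ j, (∀ φ ∈ nrc 𝓜 j, ∀ u ∈ 𝓜.Q.cell φ,
        ∃ z, nbr 1 {z} ⊆ B j ∧ Tg j (g u) ∈ lbox (Y j).N 0 z) ∧
      (∃ c k, NearOut p c₀ (Y j).θ (Y j).ϑ e (Cz (Y j).θ) (CM (Y j).θ) (𝓜.nrm h1 ok j).src (Y j).N
        (Y j).t (B j) (Tg j ∘ g ∘ (𝓜.ν j).symm) (Tg j ∘ h.toFun ∘ (𝓜.ν j).symm) (nrc 𝓜 j) η (𝓢 j)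
        (ψ j) (a j) (m j) c k) ∧
      ∀ c' ∈ nrc 𝓜 j, 𝓜.Q.dim c' = 3 →
        lipc (Tg j ∘ h.toFun ∘ (𝓜.ν j).symm) (𝓜.ν j '' 𝓜.Q.cell c') ≤
          CM (Y j).θ ((𝓜.nrm h1 ok j).M c') *
            (𝓜.nrm h1 ok j).src.A (vst (Y j).N (Y j).t ∘ Tg j ∘ g ∘ (𝓜.ν j).symm) c' + η) →
    ∃ k : ConHomeo Ω Λ, (∀ x ∈ Ω, ∃ y ∈ Ω, dist y x ≤ P.ς x ∧ k.toFun x = h.toFun y) ∧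
      (∀ x, (∀ j, x ∉ nrs 𝓜 j) → k.toFun =ᶠ[𝓝 x] h.toFun) ∧
      ∑ j, ∫⁻ x in nrs 𝓜 j, ‖fderiv ℝ k.toFun x - F x‖ₑ ^ p ≤ Φ

/-- **the construction for a fixed shift** -/
def FIX4 (p : ℝ) : Prop := ∃ (K₂ : ℝ≥0) (Cf : ℝ≥0 → ℝ≥0 → ℝ≥0) (a₀ : ℝ), 0 < a₀ ∧ a₀ ≤ 1 / 100 ∧
  ∀ {M₀ : ℝ≥0} (h1 : 1 ≤ M₀), ∃ τ D : ℝ → ℝ, (∀ b, 0 < τ b ∧ 1 ≤ D b) ∧
  ∀ {Ω Λ Ω₀ X : Set E3} {f f' : E3 → E3} {F : E3 → M3} {P : Par} {Y : Fin P.N → TyZ Ω f}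
    {L : ℕ → Lay} {κ ε s₁ oN d β' c₀ e : ℝ} {δ o o₁ : E3 → ℝ} {Z : ℕ → Set E3}
    {vv rr μ₀ : ℕ → ℝ} {P₁ P₂ : ℕ → Finset E3} {A : ℕ → E3 → M3} {Cz : ℝ → ℝ≥0}
    {CM : ℝ → ℝ≥0 → ℝ≥0} {Cu : ℝ≥0 → ℝ≥0} {Ct : ℝ≥0 → ℝ → ℕ → ℝ → ℝ≥0 → ℝ≥0}
    {Mt : Ty → ℕ → ℝ≥0} {S₀ : Set E3} {Sl : Ty → ℕ → Set E3} {Tg : Fin P.N → (E3 ≃ᴬ[ℝ] E3)}
    {B : Fin P.N → Set (Fin 3 → ℤ)} {Φ δ₀ : ℝ≥0∞},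
  Hy4 Λ Ω₀ X f f' F P Y τ D L a₀ κ ε s₁ oN d β' δ o o₁ Z rr μ₀ →
  (∃ mk : ∀ σ 𝓒, Ok2 Ω P σ 𝓒 → Mesh2 Ω P σ 𝓒 M₀ Mt S₀ Sl,
    ∀ σ 𝓒 h σ' 𝓒' h', Cmp (mk σ 𝓒 h) (mk σ' 𝓒' h')) →
  Sel p f F Y L s₁ Z vv P.w P₁ P₂ A →
  BIn4 p a₀ c₀ κ Cz CM Cu Ct Λ Ω₀ ε Y Tg B s₁ ((L 0).μ / 2) e o₁ o Z vv rr μ₀ →
  NIn3 p K₂ h1 c₀ Cz CM Mt Sl Λ F P Y Tg oN e d β' Φ → 0 < δ₀ →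
  ∃ h : ConHomeo Ω Λ, (∀ u ∈ Ω, dist (h.toFun u) (f u) ≤ 2 * ε) ∧
    ∫⁻ x in Ω, ‖fderiv ℝ h.toFun x - F x‖ₑ ^ p ≤ Φ + Cf M₀ (Cu M₀) *
      (LAM4 S₀ P.ς P.k₀ L (Ω \ ⋃ j, (Y j).K) ((L 0).Kᶜ.indicator fun x => ‖F x‖ₑ ^ p) P.w +
        (∑ j, (Ct M₀ (Y j).θ (Y j).N (Y j).t (Y j).L : ℝ≥0∞)) *
          LAM4 S₀ P.ς P.k₀ L X (fun x => ‖F x‖ₑ ^ p) P.w +
        ENNReal.ofReal (L 0).b ^ p * (ENNReal.ofReal ((L 0).s ^ 3) * (P₂ 0).card +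
          ENNReal.ofReal (L 0).θ * volume (L 0).V) +
        ENNReal.ofReal (L 0).τ * volume (L 0).V +
        ∫⁻ x in Ω \ ((L 0).K ∪ ⋃ j, (Y j).K), ‖F x‖ₑ ^ p) + δ₀

/-- most of the target is the image of a compact set on which the derivative is invertible -/
def AUXK (p : ℝ) : Prop := ∀ {Ω Λ : Set E3} {f f' : E3 → E3} {F : E3 → M3} {v : ℝ≥0∞},
  IsOpen Ω → IsOpen Λ → Bornology.IsBounded Ω → HomeoOn f f' Ω Λ → Measurable F →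
  ∫⁻ x in Ω, ‖F x‖ₑ ^ p < ⊤ → WeakDeriv volume Ω f F → 0 < v →
  ∃ (K : Set E3) (b : ℝ), IsCompact K ∧ K ⊆ Ω ∧ 1 ≤ b ∧ (∀ x ∈ K, Bil b (F x)) ∧
    ContinuousOn F K ∧ volume (f '' (Ω \ K)) ≤ v

/-- disjoint neighbourhoods -/
def SEPZ : Prop := ∀ {Λ : Set E3} {Z : ℕ → Set E3}, IsOpen Λ → (∀ n, IsCompact (Z n) ∧ Z n ⊆ Λ) →
  LFIn Z Λ → (∀ n m, n ≠ m → Disjoint (Z n) (Z m)) →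
  ∃ W : ℕ → Set E3, (∀ n, IsOpen (W n) ∧ Z n ⊆ W n ∧ W n ⊆ Λ) ∧ LFIn W Λ ∧
    ∀ n m, n ≠ m → Disjoint (W n) (W m)

/-- the inequalities of an auxiliary layer -/
structure Lay.Fit (L : Lay) (τ D : ℝ → ℝ) (W : Set E3) (o : E3 → ℝ) (ρ₀ r μ₀ : ℝ) : Prop where
  ok : L.Ok τ D
  opn : IsOpen L.V
  sub : L.V ⊆ W
  s_le : L.s ≤ ρ₀
  μ_le : L.μ ≤ μ₀
  r_ge : 2 * D L.b * L.ρ ≤ r * L.μ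
  o_ge : ∀ x ∈ L.V, 2 * D L.b * L.ρ ≤ o x

/-- one auxiliary layer -/
def AUX1 (p : ℝ) : Prop := ∀ (τ D : ℝ → ℝ), (∀ b, 0 < τ b ∧ 1 ≤ D b) →
  ∀ {Ω Λ Z W : Set E3} {f f' : E3 → E3} {F : E3 → M3} {o : E3 → ℝ} {ρ₀ v r μ₀ : ℝ} {δ : ℝ≥0∞},
  IsOpen Ω → IsOpen Λ → Bornology.IsBounded Ω → HomeoOn f f' Ω Λ → Measurable F →
  ∫⁻ x in Ω, ‖F x‖ₑ ^ p < ⊤ → WeakDeriv volume Ω f F → Gauge o Ω → IsCompact Z → Z ⊆ Λ →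
  IsOpen W → W ⊆ Ω → Ω ∩ f ⁻¹' Z ⊆ W → 0 < ρ₀ → 0 < v → 0 < r → 0 < μ₀ → 0 < δ →
  ∃ (L : Lay) (Φ : E3 → ℝ≥0∞), L.Fit τ D W o ρ₀ r μ₀ ∧ Mean 1 Φ δ ∧ ∀ w, Φ w < 1 →
    ∃ P₁ P₂ A, Sol p f F L.K L.V L.b L.τ L.ρ L.s w P₁ P₂ A ∧
      volume (Z \ f '' L.deep P₁) ≤ ENNReal.ofReal v

/-- all auxiliary layers -/
def AUXF (p : ℝ) : Prop := ∀ (τ D : ℝ → ℝ), (∀ b, 0 < τ b ∧ 1 ≤ D b) →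
  ∀ {Ω Λ E W : Set E3} {f f' : E3 → E3} {F : E3 → M3} {o : E3 → ℝ} {ρ₀ : ℝ} {δ : ℝ≥0∞}
    {Z : ℕ → Set E3} {vv rr μ₀ : ℕ → ℝ},
  IsOpen Ω → IsOpen Λ → Bornology.IsBounded Ω → HomeoOn f f' Ω Λ → Measurable F →
  ∫⁻ x in Ω, ‖F x‖ₑ ^ p < ⊤ → WeakDeriv volume Ω f F → Gauge o Ω →
  (∀ k, IsCompact (Z k) ∧ Z k ⊆ Λ ∧ 0 < vv k ∧ 0 < rr k ∧ 0 < μ₀ k) → LFIn Z Λ →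
  (∀ k k', k ≠ k' → Disjoint (Z k) (Z k')) → IsOpen E → IsOpen W → (∀ x ∈ Ω, f x ∉ E → x ∈ W) →
  0 < ρ₀ → 0 < δ →
  ∃ (L : ℕ → Lay) (Φ : E3 → ℝ≥0∞), (∀ n, (L n).Fit τ D (Ω ∩ W) o ρ₀ (rr n) (μ₀ n)) ∧
    LFIn (fun n => (L n).V) Ω ∧
    (∀ n m, n ≠ m → Disjoint (L n).V (L m).V ∧ Disjoint (f '' (L n).V) (Z m)) ∧
    Mean 1 Φ δ ∧ ∀ w, Φ w < 1 → ∃ (P₁ P₂ : ℕ → Finset E3) (A : ℕ → E3 → M3), ∀ n,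
      Sol p f F (L n).K (L n).V (L n).b (L n).τ (L n).ρ (L n).s w (P₁ n) (P₂ n) (A n) ∧
      volume (Z n \ (E ∪ f '' (L n).deep (P₁ n))) ≤ ENNReal.ofReal (vv n)

end P073.Ac4
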