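import Vale.Agent.P073Y.Ac.Main
import Vale.Agent.P073Y.Ac4.Sk2

/-!
# The choice of the parameters for exponents from three on
-/

open Set Metric Topology Filter MeasureTheory
open scoped ENNReal NNReal

namespace P073.Ac4

open ACC (ev_mul_le ev_small)
open M2 Zn Gc Nr Ac
open _root_.P073.Top

theorem lf_pre {Ω Λ : Set E3} {f : E3 → E3} {Z : ℕ → Set E3} (hΩ : IsOpen Ω)
    (hf : ContinuousOn f Ω) (hm : MapsTo f Ω Λ) (h : LFIn Z Λ) : LFIn (fun n => f ⁻¹' Z n) Ω :=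
  fun _ hx => let ⟨U, h1, h2⟩ := h _ (hm hx)
    ⟨f ⁻¹' U, (hf.continuousAt (hΩ.mem_nhds hx)) h1, h2.subset fun _ ⟨y, a, b⟩ => ⟨f y, a, b⟩⟩

theorem lt_one {E a Φ : ℝ≥0∞} (h0 : E ≠ 0) (h1 : E ≠ ⊤) (h : a + 8 * E * Φ ≤ 7 * E) : Φ < 1 := by
  by_contra hc
  have h2 : 8 * E ≤ 7 * E :=
    (le_mul_of_one_le_right zero_le (not_lt.1 hc)).trans (le_add_self.trans h)
  exact absurd ((ENNReal.mul_le_mul_iff_left h0 h1).1 h2) (by norm_num)

theorem exists_N {b D θ a κ : ℝ} (hb : 1 ≤ b) (hD : 1 ≤ D) (hθ : 0 < θ) (ha : 0 < a) (hκ : 0 < κ) :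
    ∃ N : ℝ, 1 ≤ N ∧ ∀ ρ : ℝ, 0 < ρ → 2 * (D + 1) * ρ ≤ θ * (N * ρ) ∧
      b * (D + 3) * ρ ≤ a * (θ * (N * ρ) / (10 * b) / 2) ∧
      2 * D * ρ ≤ κ * (θ * (N * ρ) / (10 * b) / 2) := by
  have a1 : 0 < 2 * (D + 1) / θ := by positivity
  have a2 : 0 < b * (D + 3) / (a * θ / (20 * b)) := by positivity
  have a3 : 0 < 2 * D / (κ * θ / (20 * b)) := by positivity
  obtain ⟨N, h0, h1, h2, h3⟩ : ∃ N : ℝ, 1 ≤ N ∧ 2 * (D + 1) / θ ≤ N ∧
      b * (D + 3) / (a * θ / (20 * b)) ≤ N ∧ 2 * D / (κ * θ / (20 * b)) ≤ N :=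
    ⟨1 + 2 * (D + 1) / θ + b * (D + 3) / (a * θ / (20 * b)) + 2 * D / (κ * θ / (20 * b)),
      by linarith, by linarith, by linarith, by linarith⟩
  rw [div_le_iff₀ (by positivity)] at h1 h2 h3
  refine ⟨N, h0, fun ρ hρ => ⟨?_, ?_, ?_⟩⟩
  · exact (mul_le_mul_of_nonneg_right h1 hρ.le).trans_eq (by ring)
  · exact (mul_le_mul_of_nonneg_right h2 hρ.le).trans_eq (by field_simp; ring)
  · exact (mul_le_mul_of_nonneg_right h3 hρ.le).trans_eq (by field_simp; ring)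

theorem pla0_of {p : ℝ} (h2p : 2 < p) (hX : FIX4 p) (hB : B.BATCH4 p) (hN : NEAR3 p) (hM : MESH3)
    (hL : MEAN4) (hA : AUXF p) : An.PLA0 p := by
  have h1 : 1 ≤ p := by linarith
  intro Ω Λ f f' F₀ ε hΩ hΛ cΩ cΛ bΩ bΛ hε hf hF₀ hi₀ hw₀
  obtain ⟨F, hF, -, hFe, hFi, hi, hw⟩ := ACC.exists_borel hΩ bΩ h1 hF₀ hi₀ hw₀
  have hiΩ : ∫⁻ x in Ω, ‖F x‖ₑ ^ p < ⊤ := (setLIntegral_le_lintegral _ _).trans_lt hi
  have hli : LocallyIntegrableOn F Ω volume := hFi.locallyIntegrable.locallyIntegrableOn Ω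
  have hV : volume Ω ≠ ⊤ := bΩ.measure_lt_top.ne
  have mF : Measurable fun x => ‖F x‖ₑ ^ p := hF.enorm.pow_const p
  have hu : ∫⁻ x in Ω, (1 + ‖F x‖ₑ ^ p) ≠ ⊤ := by
    rw [lintegral_add_left measurable_const, setLIntegral_const, one_mul]
    exact ENNReal.add_ne_top.2 ⟨hV, hiΩ.ne⟩
  obtain ⟨E, hE⟩ : ∃ E, E = ENNReal.ofReal (ε / 8) := ⟨_, rfl⟩
  have hE0 : E ≠ 0 := by rw [hE]; exact (ENNReal.ofReal_pos.2 (by positivity)).ne'
  have hE1 : E ≠ ⊤ := hE ▸ ENNReal.ofReal_ne_top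
  obtain ⟨M₀, Mt, S₀, Sl, hM₀, hS₀, hSl, hM⟩ := hM
  obtain ⟨K₂, Cf, a₀, ha₀, ha₀', hX⟩ := hX
  obtain ⟨c₀, κ, Cz, CM, Cu, Ct, hc₀, hκ, hB⟩ := hB a₀ ha₀ ha₀'
  obtain ⟨τ₀, D, hτD, hX⟩ := hX hM₀
  obtain ⟨ε₁, hε₁, b0⟩ := exists_small (X := volume Ω + 1) (by finiteness) hE0
  obtain ⟨c, hN⟩ := hN K₂ M₀ STR.kap c₀ Cz CM Mt Sl ε₁ hM₀ STR.kap_pos hc₀ hε₁ hSl
  obtain ⟨δ₁, hδ₁, b1⟩ := exists_small (X := Cf M₀ (Cu M₀) * (70000 * M₀ + 1))
    (by finiteness) hE0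
  obtain ⟨n, T, K, K₃, b, r₁, hr₁, k1, k2, k3, k4, k5, k6, hb, k7, k8, -, k9⟩ :=
    ksel2 c.τ hΩ bΩ hf.cont hw h1 hF.aestronglyMeasurable hiΩ hδ₁ c.τ_pos
  have hb' : (1:ℝ) ≤ b := by exact_mod_cast hb
  obtain ⟨hτ₀, hD⟩ := hτD b
  have hΓ : ∑ j, (c.Γ (T j) : ℝ≥0∞) ≠ ⊤ := ENNReal.sum_ne_top.2 fun _ _ => ENNReal.coe_ne_top
  have hCt : ∑ j, (Ct M₀ (c.θ (T j).b) (c.N (T j).b) (c.t (T j).b) (c.L (T j).b) : ℝ≥0∞) ≠ ⊤ :=
    ENNReal.sum_ne_top.2 fun _ _ => ENNReal.coe_ne_top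
  obtain ⟨δ₂, hδ₂, b2⟩ := exists_small (X := ∑ j, (c.Γ (T j) : ℝ≥0∞) + Cf M₀ (Cu M₀) *
    ((∑ j, (Ct M₀ (c.θ (T j).b) (c.N (T j).b) (c.t (T j).b)
      (c.L (T j).b) : ℝ≥0∞)) * (70000 * M₀))) (by finiteness) hE0
  have cK : IsCompact (⋃ j, K j) := isCompact_iUnion fun j => (k1 j).1
  have cA : IsCompact (K₃ ∪ ⋃ j, K j) := k4.union cK
  obtain ⟨r₂, ⟨⟨t1, t2⟩, t3⟩, hr₂⟩ := ((((ev_small cK.isClosed hu two_pos hδ₂.ne').and
    (eventually_all.2 fun j => ev_small (k1 j).1.isClosed hu two_pos hδ₂.ne')).and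
    (ev_mul_le 10 hr₁)).and self_mem_nhdsWithin).exists
  replace hr₂ : 0 < r₂ := hr₂
  obtain ⟨Z, hZ⟩ : ∃ Z, Z = cthickening (2 * r₂) (K₃ ∪ ⋃ j, K j) := ⟨_, rfl⟩
  have cZ : IsCompact Z := hZ ▸ cA.cthickening
  have hZΩ : Z ⊆ Ω := fun x hx => by
    obtain ⟨y, hy, h⟩ := near_cth cA (by linarith) (hZ ▸ hx)
    rcases hy with hy | hy
    · exact k5 (mem_cthickening_of_dist_le x y _ _ hy (by linarith))
    · obtain ⟨j, hj⟩ := mem_iUnion.1 hy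
      exact (k1 j).2.1 (mem_cthickening_of_dist_le x y _ _ hj (by linarith))
  have z1 : cthickening (2 * r₂) K₃ ⊆ Z := hZ ▸ cthickening_subset_of_subset _ subset_union_left
  have z2 : cthickening (2 * r₂) (⋃ j, K j) ⊆ Z :=
    hZ ▸ cthickening_subset_of_subset _ subset_union_right
  have z3 : ∀ j, thickening (2 * r₂) (K j) ⊆ Z := fun j => (thickening_subset_cthickening _ _).trans
    ((cthickening_subset_of_subset _ (subset_iUnion K j)).trans z2)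
  have z4 : ∀ j, thickening r₂ (K j) ⊆ Z := fun j => (thickening_mono (by linarith) _).trans (z3 j)
  have z5 : ∀ j, K j ⊆ Z := fun j => (self_subset_thickening hr₂ _).trans (z4 j)
  have z6 : cthickening r₂ K₃ ⊆ Z := (cthickening_mono (by linarith) _).trans z1
  have z7 : thickening r₂ K₃ ⊆ Z := (thickening_subset_cthickening _ _).trans z6
  have z8 : K₃ ⊆ thickening r₂ K₃ := self_subset_thickening hr₂ _
  let Y : Fin n → TyZ Ω f := fun j =>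
    tyz c (T j) (K j) r₂ (k3 j).1 (k1 j).1 hr₂ ((z4 j).trans hZΩ) (k3 j).2
  obtain ⟨l, v, Tg, B, s₁, l₀, o₁, hs₁, hl₀, ho₁, hT, hB⟩ := hB (ε := ε / 2) Y hΩ hΛ bΛ hf
    (by positivity) cZ hZΩ z5 fun j j' h =>
      (disj_cth (k1 j).1 (k1 j').1 hr₂.le (by linarith) (k2 j j' h)).mono
        (thickening_subset_cthickening _ _) (thickening_subset_cthickening _ _)
  obtain ⟨oN, hoN, hN⟩ := hN (Λ := Λ) T Y l Tg r₁ hΩ hf.cont hF hli hw hr₁ fun j =>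
    ⟨(k3 j).1, rfl, rfl, rfl, rfl, rfl, (k1 j).2.1, (k1 j).2.2, (hT j).1, ⟨_, (hT j).2.1⟩,
      (hT j).2.2⟩
  obtain ⟨r, hr, r1, r2⟩ : ∃ r : ℝ, 0 < r ∧ 6 * r ≤ s₁ ∧ 6 * r ≤ r₂ :=
    ⟨min s₁ r₂ / 6, by positivity, by linarith [min_le_left s₁ r₂], by linarith [min_le_right s₁ r₂]⟩
  obtain ⟨e, he, k₁, hN⟩ := hN r hr
  have hbp : ENNReal.ofReal b ^ p ≠ ⊤ :=
    ENNReal.rpow_ne_top_of_nonneg (by linarith) ENNReal.ofReal_ne_top
  obtain ⟨θ, ⟨b4, θ1⟩, hθ⟩ := (((ev_ofReal (X := Cf M₀ (Cu M₀) * ENNReal.ofReal b ^ p *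
    volume Ω) (by finiteness) hE0).and (ev_mul_le 10 one_pos)).and self_mem_nhdsWithin).exists
  replace hθ : 0 < θ := hθ
  obtain ⟨τ, ⟨b5, τ1⟩, hτ⟩ := (((ev_ofReal (X := Cf M₀ (Cu M₀) * volume Ω) (by finiteness) hE0).and
    (ev_mul_le 1 hτ₀)).and self_mem_nhdsWithin).exists
  replace hτ : 0 < τ := hτ
  obtain ⟨δ₃, hδ₃, b3⟩ := exists_small (X := Cf M₀ (Cu M₀) * ENNReal.ofReal b ^ p)
    (by finiteness) hE0
  obtain ⟨N, N1, N2⟩ := exists_N hb' hD hθ ha₀ hκ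
  have hVΩ := z7.trans hZΩ
  obtain ⟨ρ₁, hρ₁, hS⟩ := sel (solid_of h1
    (osc_of_mon h2p (An.mon.2.1 hΩ hΛ h1 hf hF.aestronglyMeasurable hiΩ hw) hVΩ b) hF
    ((lintegral_mono_set hVΩ).trans_lt hiΩ) k4 isOpen_thickening z8 k7
    (k8.mono subset_union_left)) k4 isOpen_thickening z8 N1 hτ hδ₃
  obtain ⟨m₀, hm₀, hmin₀⟩ := ho₁.exists_lower cZ hZΩ
  obtain ⟨k, ⟨⟨a1, a2⟩, a3⟩, a4⟩ := ((((ev_pow 1 hρ₁).and (ev_pow (θ * N / (10 * b) / 2) hl₀)).and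
    (ev_pow (D b) hm₀)).and (ev_pow 4 hr₂)).exists
  have hρ : (0:ℝ) < 2⁻¹ ^ k := by positivity
  have hs : 0 < N * (2:ℝ)⁻¹ ^ k := mul_pos (by linarith) hρ
  obtain ⟨N2, N3, N4⟩ := N2 _ hρ
  obtain ⟨Φ₃, hΦ₃, hS⟩ := hS (2⁻¹ ^ k) 1 hρ (by linarith) (pow_le_one₀ (by norm_num) (by norm_num))
  obtain ⟨Zs, vv, rr, μ₀, o, ho, hZs, hlf, hdj, hB⟩ := hB (θ * (N * 2⁻¹ ^ k) / (10 * b) / 2) e
    (by positivity) (le_trans (le_of_eq (by ring)) a2) he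
  obtain ⟨La, Φa, l1, l2, l3, l4, l5⟩ := hA τ₀ D hτD (o := fun x => min (o x) (o₁ x))
    (E := ⋃ j, f '' (Ω ∩ thickening s₁ (K j))) (W := (⋃ j, cthickening (s₁ / 2) (K j))ᶜ)
    (δ := 8⁻¹) hΩ hΛ bΩ hf hF hiΩ hw (ho.min ho₁) hZs hlf hdj
    (isOpen_iUnion fun j => An.MaxA.openOn_of hΛ hf _ (hΩ.inter isOpen_thickening)
      inter_subset_left) (isClosed_iUnion_of_finite fun j => isClosed_cthickening).isOpen_compl
    (fun x hx h h' => by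
      obtain ⟨j, hj⟩ := mem_iUnion.1 h'
      exact h (mem_iUnion.2 ⟨j, x, ⟨hx, cthickening_subset_thickening' hs₁ (by linarith) _ hj⟩,
        rfl⟩)) hρ (by norm_num)
  have lρ : ∀ i, 0 < (La i).ρ := fun i => by unfold Lay.ρ; positivity
  have lμ : ∀ i, 0 < rr i * (La i).μ := fun i => lt_of_lt_of_le
    (mul_pos (by linarith [(hτD (La i).b).2]) (lρ i)) (l1 i).r_ge
  obtain ⟨o₂, u1, u2⟩ := exists_gauge_lf l2 lρ
  obtain ⟨o₃, u3, u4⟩ := exists_gauge_lf (lf_pre hΩ hf.cont hf.mapsTo hlf)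
    (c := fun i => rr i * (La i).μ / 5) fun i => by linarith [lμ i]
  obtain ⟨δ, ς₀, g1, g2, g3, g4, g5, g6, g7⟩ := exists_gauges hΩ hΛ hf
    (((ho.div_const two_pos).min ho₁).min (u1.min u3))
    (c := min (2⁻¹ ^ k) (min (ε / 2) (oN / 6))) (by positivity) l2 lρ
  simp only [le_min_iff] at g2 g3
  obtain ⟨μ, hμ, hμ'⟩ := cZ.exists_forall_le' g4.continuous.continuousOn
    fun x hx => (g5 x (hZΩ hx)).1
  obtain ⟨k₀, ⟨e1, e2⟩, e5⟩ := (((eventually_ge_atTop k₁).and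
    (eventually_ge_atTop k)).and (eventually_all.2 fun j =>
      (ev_pow (100 * (T j).b) hr).and (ev_pow (100 * (T j).b) hμ))).exists
  have hη : (0:ℝ) < 2⁻¹ ^ k₀ := by positivity
  have hη' : ∀ j, (2:ℝ)⁻¹ ^ k₀ ≤ ((T j).b : ℝ) * 2⁻¹ ^ k₀ := fun j =>
    le_mul_of_one_le_left hη.le (by exact_mod_cast (T j).b_pos)
  have hU : ∀ j, thickening (20 * (T j).b * 2⁻¹ ^ k₀) (cthickening r (K j)) ⊆
      thickening (2 * r₂) (K j) := fun j => (thickening_subset_cthickening _ _).trans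
    (cth_cth (by linarith [hη' j]) hr.le (by linarith [hη' j, (e5 j).1]))
  have hC : ∀ j t, 3 * r ≤ t → cthickening (100 * (T j).b * 2⁻¹ ^ k₀) (cthickening r (K j)) ⊆
      thickening t (K j) := fun j t ht =>
    cth_cth (by linarith [hη' j]) hr.le (by linarith [(e5 j).1])
  obtain ⟨d, hd, hN⟩ := hN k₀ e1
  obtain ⟨e₁, he₁, hinv⟩ := inv_unif hΛ hf cZ hZΩ hd
  obtain ⟨e₂, he₂, hinv'⟩ := inv_unif hΛ hf cZ hZΩ hη
  obtain ⟨m₁, hm₁, hmin⟩ := tg_min g1 hf cZ hZΩ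
  have hsep : ∀ᶠ β in 𝓝[>] (0:ℝ), ∀ j j', j ≠ j' → ∀ x ∈ K j, ∀ y ∈ K j',
      12 * β ≤ dist (f x) (f y) :=
    eventually_all.2 fun j => eventually_all.2 fun j' => eventually_all.2 fun h => by
      obtain ⟨t, ht, H⟩ := sep_img hf (k1 j).1 (k1 j').1 ((z5 j).trans hZΩ) ((z5 j').trans hZΩ)
        (disjoint_left.2 fun x hx hx' => by linarith [k2 j j' h x hx x hx', dist_self x])
      exact (ev_mul_le 12 ht).mono fun β hβ x hx y hy => hβ.trans (H x hx y hy)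
  obtain ⟨β', ⟨⟨⟨f1, f2⟩, f3⟩, f4⟩, hβ'⟩ := (((((ev_mul_le 20 he₁).and (ev_mul_le 201 hm₁)).and
    hsep).and (ev_mul_le 20 he₂)).and self_mem_nhdsWithin).exists
  replace hβ' : 0 < β' := hβ'
  obtain ⟨n₁, hN⟩ := hN β' hβ'
  have ok : ∀ w, (par T c.m K r ς₀ k₀ (max n₁ 1) w).Ok Ω := fun w =>
    par_ok w c.m_pos (le_max_right _ _) hr (fun j => (k1 j).1) g4 g5 r2
      (fun j x hx => ⟨hZΩ (z4 j hx), hμ' x (z4 j hx)⟩)
      (fun j j' h x hx y hy => le_trans (by linarith) (k2 j j' h x hx y hy)) e5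
  obtain ⟨Φ, hΦ, hN⟩ := hN (max n₁ 1) (le_max_left _ _) ς₀ (ok 0)
  replace hN : ∀ w, NIn3 p K₂ hM₀ c₀ Cz CM Mt Sl Λ F
      (par T c.m (fun j => (Y j).K) r ς₀ k₀ (max n₁ 1) w) Y Tg oN e d β' (Φ w) := fun w => hN w
  have m1 : Mean 1 Φ (E + (∑ j, (c.Γ (T j) : ℝ≥0∞)) * δ₂) := hΦ.mono (add_le_add
    ((mul_comm _ _).trans_le b0) ((Finset.sum_le_sum fun j _ => mul_le_mul_right
      ((lintegral_mono_set (sdiff_subset_sdiff_left (hU j))).trans (t2 j ((z3 j).trans hZΩ)))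
      _).trans_eq (Finset.sum_mul _ _ _).symm))
  obtain ⟨L, hL0, hL1⟩ : ∃ L : ℕ → Lay,
      L 0 = ⟨K₃, thickening r₂ K₃, b, τ, N * 2⁻¹ ^ k, θ, k⟩ ∧ ∀ i, L (i + 1) = La i :=
    ⟨fun i => Nat.rec ⟨K₃, thickening r₂ K₃, b, τ, N * 2⁻¹ ^ k, θ, k⟩ (fun i _ => La i) i, rfl,
      fun _ => rfl⟩
  have mV : ∀ i, MeasurableSet (L i).V := fun i => by
    cases i with
    | zero => exact hL0 ▸ isOpen_thickening.measurableSet
    | succ i => exact hL1 i ▸ (l1 i).opn.measurableSet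
  have dV : ∀ i i', i ≠ i' → Disjoint (L (i + 1)).V (L (i' + 1)).V := fun i i' h => by
    rw [hL1, hL1]
    exact (l3 i i' h).1
  have m2 : Mean 1 (LAM4 S₀ ς₀ k₀ L (Ω \ ⋃ j, K j) (K₃ᶜ.indicator fun x => ‖F x‖ₑ ^ p))
      (70000 * M₀ * δ₁) := (hL k₀ hS₀.1 hS₀.2 (hΩ.measurableSet.diff cK.measurableSet)
    (mF.indicator k4.measurableSet.compl) g4.continuous mV dV).mono
    (mul_le_mul_right (le_trans (by
      rw [setLIntegral_indicator k4.measurableSet.compl]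
      exact lintegral_mono_set fun x hx => ⟨hx.2.1, fun h => h.elim hx.1 hx.2.2⟩) k9) _)
  have m3 : Mean 1 (LAM4 S₀ ς₀ k₀ L (thickening (2 * r₂) (⋃ j, K j) \ ⋃ j, K j)
      fun x => ‖F x‖ₑ ^ p) (70000 * M₀ * δ₂) := (hL k₀ hS₀.1 hS₀.2
    (isOpen_thickening.measurableSet.diff cK.measurableSet) mF g4.continuous mV dV).mono
    (mul_le_mul_right ((lintegral_mono fun x => le_add_self).trans
        (t1 ((thickening_subset_cthickening _ _).trans (z2.trans hZΩ)))) _)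
  obtain ⟨w, hw1, hw2⟩ := mark.2.2.2 hΩ hf.cont hli hw one_pos ((m1.add (((((m2.add
    (m3.const_mul (∑ j, (Ct M₀ (c.θ (T j).b) (c.N (T j).b)
      (c.t (T j).b) (c.L (T j).b) : ℝ≥0∞)))).add ((hΦ₃.add (Mean.const
      (ENNReal.ofReal θ * volume Ω))).const_mul (ENNReal.ofReal b ^ p))).add
    (Mean.const (ENNReal.ofReal τ * volume Ω))).add (Mean.const δ₁)).const_mul
      (Cf M₀ (Cu M₀)))).add (l4.const_mul (8 * E)))
  replace hw1 := hw1.trans ((add_le_add le_rfl (show 8 * E * 8⁻¹ ≤ E by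
    rw [mul_right_comm, ENNReal.mul_inv_cancel (by norm_num) (by norm_num), one_mul])).trans
    (arith b1 b2 b3 b4 b5))
  obtain ⟨P₁, P₂, A, hS, hP₂⟩ := hS w
  obtain ⟨Q₁, Q₂, A', l6⟩ := l5 w (lt_one hE0 hE1 hw1)
  have hy : Hy4 Λ Z (thickening (2 * r₂) (⋃ j, K j) \ ⋃ j, K j) f f' F
      (par T c.m K r ς₀ k₀ (max n₁ 1) w) Y τ₀ D L a₀ κ (ε / 2) s₁ oN d β' δ o o₁ Zs rr μ₀ :=
    { std := ⟨hΩ, hΛ, cΩ, cΛ.2, bΛ, hf, genbv hΩ hf.cont hli hw⟩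
      meas := hF
      ok := ok w
      good := hw2
      lay := fun i => by
        cases i with
        | zero => exact hL0 ▸ ⟨hb', ⟨hτ.le, by linarith⟩, by linarith, hs, N2⟩
        | succ i => exact hL1 i ▸ (l1 i).ok
      V_sub := fun i => by
        cases i with
        | zero => exact hL0 ▸ hVΩ
        | succ i => exact hL1 i ▸ (l1 i).sub.trans inter_subset_left
      V_off := fun i j => by
        cases i with
        | zero =>
          exact hL0 ▸ (disj_cth k4 (k1 j).1 hr₂.le (by linarith) (k6 j)).mono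
            (thickening_subset_cthickening _ _)
            ((hC j r₂ (by linarith)).trans (thickening_subset_cthickening _ _))
        | succ i =>
          exact hL1 i ▸ disjoint_left.2 fun x hx h => ((l1 i).sub hx).2 (mem_iUnion.2
            ⟨j, thickening_subset_cthickening _ _ (hC j (s₁ / 2) (by linarith) h)⟩)
      V_le := fun i => by
        cases i with
        | zero =>
          rw [hL0]
          exact fun x hx => ⟨(min_le_right _ _).trans (mul_le_mul_of_nonneg_left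
            (pow_le_pow_of_le_one (by norm_num) (by norm_num) e2) (by norm_num)), (g2 _).1,
            a3.trans (hmin₀ x (z7 hx))⟩
        | succ i =>
          rw [hL1]
          intro x hx
          have q1 := ((l1 i).sub hx).1
          have q2 := (le_min_iff.1 ((l1 i).o_ge x hx)).2
          have q3 := mul_pos (one_pos.trans_le (hτD (La i).b).2) (lρ i)
          exact ⟨(min_le_left _ _).trans (by linarith [g7 i x q1 hx, lρ i]),
            by linarith [(g3 x q1).2.1, u2 i x q1 hx, lρ i], by linarith⟩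
      V_disj := fun i i' h => by
        rw [hL1, hL1]
        exact l3 i i' h
      aux := fun i => by
        rw [hL1, hL0]
        refine ⟨(l1 i).s_le, (l1 i).μ_le, (l1 i).r_ge,
          fun x hx => (le_min_iff.1 ((l1 i).o_ge x hx)).1, fun z hz => ?_⟩
        have q1 := (hZs i).2.1 hz
        have q2 := (g3 _ (hf.mapsTo_inv q1)).2.2
        have q3 := u4 i _ (hf.mapsTo_inv q1) (show f (f' z) ∈ Zs i from (hf.right_inv q1).symm ▸ hz)
        rw [hf.right_inv q1] at q2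
        linarith
      main := hL0 ▸ ⟨N3, N4, e2⟩
      K_meas := hL0 ▸ k4.measurableSet
      K_V := hL0 ▸ z8
      K_b := hL0 ▸ fun x hx => (k7 x hx).1
      V_Ω₀ := hL0 ▸ z7
      V_G := fun j => hL0 ▸ (disj_cth k4 (k1 j).1 hr₂.le (by linarith) (k6 j)).mono
        (thickening_subset_cthickening _ _) (thickening_subset_cthickening _ _)
      K_sub := fun j => self_subset_cthickening _
      near := fun j => hC j s₁ (by linarith)
      L_ge := fun j => c.le_L _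
      X_ge := hL0 ▸ sdiff_subset_sdiff_left (inter_subset_right.trans (iUnion_subset fun j =>
        (cthickening_subset_of_subset _ (thickening_subset_cthickening _ _)).trans
          ((cth_cth (a := 3 * 2⁻¹ ^ k) (by linarith) hr₂.le (by linarith)).trans
            (thickening_subset_of_subset _ (subset_iUnion K j)))))
      tg := g1
      δ_le := ⟨fun z => ⟨(g2 z).2.1, by linarith [(g2 z).2.2]⟩,
        fun y hy => ⟨by linarith [(g3 y hy).1.1], (g3 y hy).1.2⟩⟩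
      osc := g6
      β_pos := hβ'
      β_le := fun j x hx => ⟨f2.trans (hmin x (z5 j hx)), fun y hy h => mem_thickening_iff.2
        ⟨x, self_subset_cthickening _ hx, by
          have q1 := hinv' x (z5 j hx) y hy (h.trans f4)
          change dist y x < 20 * ((T j).b : ℝ) * 2⁻¹ ^ k₀
          linarith [hη' j, dist_comm x y]⟩⟩
      sep := f3
      inv := fun j x hx y hy h => hinv x (z3 j (hU j hx)) y hy (h.trans f1) }
  have hsel : Sel p f F Y L s₁ Zs vv w (fun i => Nat.rec P₁ (fun i _ => Q₁ i) i)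
      (fun i => Nat.rec P₂ (fun i _ => Q₂ i) i) (fun i => Nat.rec A (fun i _ => A' i) i) :=
    ⟨fun i => by
      cases i with
      | zero => exact hL0 ▸ hS
      | succ i => exact hL1 i ▸ (l6 i).1, fun i => hL1 i ▸ (l6 i).2⟩
  have hB' : BIn4 p a₀ c₀ κ Cz CM Cu Ct Λ Z (ε / 2) Y Tg B s₁ ((L 0).μ / 2) e o₁ o Zs vv rr μ₀ := by
    rw [hL0]
    exact @hB
  obtain ⟨h, h2, h3⟩ := hX hy (hM _ _) hsel hB' (@hN w) (pos_iff_ne_zero.2 hE0)
  refine ⟨h.toFun, h.invFun, ⟨h.mapsTo, h.mapsTo_inv, h.left_inv, h.right_inv, h.cont, h.cont_inv⟩,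
    h.conical, fun x hx => (h2 x hx).trans_eq (by ring), ?_⟩
  rw [show ∫⁻ x in Ω, ‖fderiv ℝ h.toFun x - F₀ x‖ₑ ^ p = ∫⁻ x in Ω, ‖fderiv ℝ h.toFun x - F x‖ₑ ^ p
    from lintegral_congr_ae (hFe.mono fun x hx => by simp only [hx])]
  have hv := measure_mono (μ := volume) hVΩ
  rw [hL0] at h3
  refine h3.trans ((add_le_add (le_trans (add_le_add le_rfl (mul_le_mul_right (add_le_add
    (add_le_add (add_le_add le_rfl (mul_le_mul_right (add_le_add hP₂ (mul_le_mul_right hv _)) _))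
      (mul_le_mul_right hv _)) k9) _)) (le_self_add.trans hw1)) le_rfl).trans (le_of_eq ?_))
  rw [show 7 * E + E = 8 * E by ring, hE, ← ENNReal.ofReal_ofNat,
    ← ENNReal.ofReal_mul (by norm_num)]
  congr 1
  ring

end P073.Ac4
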