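import Vale.Agent.P073Y.Ac4.Sk
import Vale.Agent.P073Y.Ac4.Cover

/-!
# The gauge in the target for a family of cores
-/

open Set Metric Topology Filter MeasureTheory
open scoped ENNReal NNReal

namespace P073.Ac4

open Me (dy mem_U un un_pos mem_ucube)
open An (M3)
open M2 Gc

namespace Os

variable {Ω Λ : Set E3} {δ σ : E3 → ℝ} {ι : Type} {I : Set ι}

/-- bumps along sets with disjoint rooms -/
theorem bumps (T : Tg Λ δ) {Y W : ι → Set E3} {c : ι → ℝ} (hW : ∀ i ∈ I, W i ⊆ Λ)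
    (hd : ∀ i ∈ I, ∀ i' ∈ I, i ≠ i' → Disjoint (W i) (W i'))
    (hY : ∀ i ∈ I, ∀ y ∈ Y i, closedBall y (15 * c i) ⊆ W i) :
    ∃ δ', Tg Λ δ' ∧ (∀ z, δ z ≤ δ' z) ∧ (∀ i ∈ I, ∀ y ∈ Y i, ∀ z, c i - dist z y / 10 ≤ δ' z) ∧
      ∀ z ∈ Λ, δ' z = δ z ∨ ∃ i ∈ I, δ' z ≤ c i ∧ ∃ y ∈ Y i, dist z y < 10 * c i := by
  let B : E3 → Set ℝ := fun z => insert (δ z) {t | ∃ i ∈ I, ∃ y ∈ Y i, t = c i - dist z y / 10}
  have ne : ∀ z, (B z).Nonempty := fun z => insert_nonempty _ _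
  have key : ∀ z, ∀ i ∈ I, ∀ y ∈ Y i, dist z y < 10 * c i → ∀ t ∈ B z, t ≤ max (δ z) (c i) := by
    rintro z i hi y hy h _ (rfl | ⟨i', hi', y', hy', rfl⟩)
    · exact le_max_left _ _
    have h0 := dist_nonneg (x := z) (y := y)
    have h1 := dist_nonneg (x := z) (y := y')
    refine le_trans ?_ (le_max_right _ _)
    rcases eq_or_ne i i' with rfl | h2
    · linarith
    · by_contra h3
      exact disjoint_left.1 (hd i hi i' hi' h2) (hY i hi y hy (mem_closedBall.2 (by linarith)))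
        (hY i' hi' y' hy' (mem_closedBall.2 (by linarith)))
  have bd : ∀ z, BddAbove (B z) := fun z => by
    by_cases h : ∃ i ∈ I, ∃ y ∈ Y i, dist z y < 10 * c i
    · obtain ⟨i, hi, y, hy, h⟩ := h
      exact ⟨_, key z i hi y hy h⟩
    · push Not at h
      refine ⟨max (δ z) 0, ?_⟩
      rintro _ (rfl | ⟨i, hi, y, hy, rfl⟩)
      exacts [le_max_left _ _, le_trans (by linarith [h i hi y hy]) (le_max_right _ _)]
  have l1 : ∀ z, δ z ≤ sSup (B z) := fun z => le_csSup (bd z) (mem_insert _ _)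
  have l2 : ∀ i ∈ I, ∀ y ∈ Y i, ∀ z, c i - dist z y / 10 ≤ sSup (B z) := fun i hi y hy z =>
    le_csSup (bd z) (Or.inr ⟨i, hi, y, hy, rfl⟩)
  have l3 : ∀ z ∈ Λ, sSup (B z) = δ z ∨
      ∃ i ∈ I, sSup (B z) ≤ c i ∧ ∃ y ∈ Y i, dist z y < 10 * c i := fun z hz => by
    by_cases h : ∀ t ∈ B z, t ≤ δ z
    · exact Or.inl (le_antisymm (csSup_le (ne z) h) (l1 z))
    push Not at h
    obtain ⟨_, rfl | ⟨i, hi, y, hy, rfl⟩, h⟩ := h
    · exact absurd h (lt_irrefl _)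
    have h1 : dist z y < 10 * c i := by linarith [T.pos z hz]
    exact Or.inr ⟨i, hi, (csSup_le (ne z) (key z i hi y hy h1)).trans
      (max_le (by linarith [dist_nonneg (x := z) (y := y)]) le_rfl), y, hy, h1⟩
  refine ⟨fun z => sSup (B z), ⟨fun y hy => (T.pos y hy).trans_le (l1 y), fun y y' =>
    csSup_le (ne y) ?_, fun z hz => ?_⟩, l1, l2, l3⟩
  · rintro _ (rfl | ⟨i, hi, u, hu, rfl⟩)
    · linarith [T.lip y y', l1 y']
    · linarith [l2 i hi u hu y', dist_triangle_left y' u y]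
  · rcases l3 z hz with h | ⟨i, hi, h, y, a, b⟩
    · exact h.symm ▸ T.sub z hz
    · exact ((closedBall_subset_closedBall' (by linarith)).trans (hY i hi y a)).trans (hW i hi)

variable {P : Par} {f : E3 → E3} {F : E3 → M3} {c : Cr} {τ D : ℝ} {x : E3}

theorem ρ_pos (c : Cr) : 0 < c.ρ := by unfold Cr.ρ; positivity

theorem core_sub (c : Cr) (P : Par) : c.core P ⊆ closedBall c.q c.R := fun _ ⟨_, h1, h2⟩ => h1 h2

theorem sub_core (c : Cr) (P : Par) : closedBall c.q (c.R - c.ρ) ⊆ c.core P := fun x hx =>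
  ⟨fun l => ⌊dy P c.k x l⌋, fun y hy => mem_closedBall.2 (by
    linarith [Me.dist_cube hy (mem_ucube.2 fun l => ⟨Int.floor_le _, (Int.lt_floor_add_one _).le⟩ :
      dy P c.k x ∈ ucube fun l => ⌊dy P c.k x l⌋), mem_closedBall.1 hx, dist_triangle y x c.q,
      show c.ρ = 2⁻¹ ^ c.k from rfl]),
    mem_ucube.2 fun l => ⟨Int.floor_le _, (Int.lt_floor_add_one _).le⟩⟩

theorem near_a (h : c.Ok Ω P f F τ D) (hx : x ∈ closedBall c.q c.T) :
    dist (f x) (c.a f x) ≤ τ * c.ρ := by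
  rw [dist_eq_norm, Cr.a, ← sub_sub]
  exact h.close _ (mem_closedBall_self (dist_nonneg.trans hx)) x hx

theorem a_lip (h : c.Ok Ω P f F τ D) (x y : E3) : dist (c.a f x) (c.a f y) ≤ c.b * dist x y := by
  rw [Cr.a, Cr.a, dist_add_left, dist_eq_norm, ← map_sub, sub_sub_sub_cancel_right, dist_eq_norm]
  exact c.A.le_of_opNorm_le h.bil.1 _

theorem bump_le (c : Cr) (x : E3) : c.bump x ≤ 3 / 2 * c.ρ := by
  unfold Cr.bump
  linarith [infDist_nonneg (x := x) (s := closedBall c.q (c.R + 3 * c.ρ))]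

theorem bump_nonpos (hR : 0 ≤ c.R) (hx : c.R + 18 * c.ρ ≤ dist x c.q) : c.bump x ≤ 0 := by
  have h0 := ρ_pos c
  have h1 : 15 * c.ρ ≤ infDist x (closedBall c.q (c.R + 3 * c.ρ)) :=
    (le_infDist (nonempty_closedBall.2 (by linarith))).2 fun y hy => by
      linarith [mem_closedBall.1 hy, dist_triangle x y c.q]
  unfold Cr.bump
  linarith

end Os

open Os

/-- **the gauge in the target**; `C b * ρ` is its size at the cores -/
theorem gauge4 {Ω Λ : Set E3} {P : Par} {f f' f₁ f₁' : E3 → E3} {F : E3 → M3} {ι : Type}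
    {I : Set ι} {c : ι → Cr} {σ δ : E3 → ℝ} {τ D C : ℝ → ℝ} (hΛ : IsOpen Λ)
    (hf : HomeoOn f f' Ω Λ) (h₁ : HomeoOn f₁ f₁' Ω Λ) (ok : P.Ok Ω) (fam : Fam Ω P f F τ D I c)
    (siz : Siz Ω P σ I c)
    (hC : ∀ b, 1 ≤ b → 0 ≤ τ b ∧ τ b ≤ 1 ∧ 10 * b ≤ C b ∧ 60 * (b * C b) ≤ D b)
    (off : ∀ x ∈ Ω, (∀ i ∈ I, x ∉ closedBall (c i).q ((c i).R + (c i).ρ)) → f₁ x = f x)
    (chg : ∀ i ∈ I, (∀ x ∈ (c i).room, dist (f₁ x) (f x) ≤ τ (c i).b * (c i).ρ) ∧
      f₁ '' (c i).room = f '' (c i).room)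
    (T : Tg Λ δ) (hδ : ∀ i ∈ I, ∀ x ∈ (c i).room, δ (f x) ≤ (c i).ρ)
    (ho : ∀ x ∈ Ω, ∀ y ∈ Ω, dist y x ≤ 2 * P.ς x → dist (f y) (f x) < δ (f x)) :
    ∃ δ', Tg Λ δ' ∧ (∀ z, δ z ≤ δ' z) ∧
      (∀ i ∈ I, ∀ y ∈ (c i).a f '' (c i).core P, y ∈ f '' (c i).room ∧
        C (c i).b * (c i).ρ ≤ δ' y ∧
        ∀ y', y' ∉ f '' (c i).room → 7 * (δ' y + δ' y') ≤ dist y y') ∧
      ∀ {𝓒 : Set (ℕ × (Fin 3 → ℤ))} {M₀ : ℝ≥0} {Mt : Ty → ℕ → ℝ≥0} {S₀ : Set E3}
        {S : Ty → ℕ → Set E3} (𝓜 : Mesh2 Ω P σ 𝓒 M₀ Mt S₀ S),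
        (∀ l, ∀ x ∈ 𝓜.Q.cell l, ∀ y ∈ 𝓜.Q.cell l, dist (f₁ y) (f₁ x) < δ' (f₁ x)) ∧
        ∀ g : E3 → E3, (∀ x ∈ Ω, dist (g x) (f₁ x) ≤ 4 * δ' (f₁ x)) → ∀ l,
          (∀ x ∈ 𝓜.Q.cell l, ∀ y ∈ 𝓜.Q.cell l, dist (g x) (f y) ≤ 6 * δ (f y)) ∨
          ∃ i ∈ I, 𝓜.Q.cell l ⊆ (c i).room ∧ g '' 𝓜.Q.cell l ⊆ f '' (c i).room ∧
            ∀ x ∈ 𝓜.Q.cell l, ∀ y ∈ 𝓜.Q.cell l, dist (g x) (f y) ≤ D (c i).b * (c i).ρ := by
  have num : ∀ i ∈ I, 0 < (c i).ρ ∧ 0 ≤ τ (c i).b * (c i).ρ ∧ τ (c i).b * (c i).ρ ≤ (c i).ρ ∧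
      (c i).ρ ≤ (c i).b * (c i).ρ ∧ 10 * ((c i).b * (c i).ρ) ≤ C (c i).b * (c i).ρ ∧
      C (c i).b * (c i).ρ ≤ (c i).b * (C (c i).b * (c i).ρ) ∧
      60 * ((c i).b * (C (c i).b * (c i).ρ)) ≤ D (c i).b * (c i).ρ ∧
      (c i).R + D (c i).b * (c i).ρ ≤ (c i).T ∧ (c i).ρ ≤ (c i).R := fun i hi => by
    have h := fam.ok i hi
    have h0 := ρ_pos (c i)
    obtain ⟨a1, a2, a3, a4⟩ := hC _ h.b_ge
    have a5 := mul_le_mul_of_nonneg_right a3 h0.le
    have a6 := le_mul_of_one_le_left h0.le h.b_ge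
    exact ⟨h0, by positivity, mul_le_of_le_one_left h0.le a2, a6, by linarith,
      le_mul_of_one_le_left (by linarith) h.b_ge,
      by linarith [mul_le_mul_of_nonneg_right a4 h0.le], h.T_ge, h.R_ge⟩
  have rΩ : ∀ i ∈ I, (c i).room ⊆ Ω := fun i hi => ball_subset_closedBall.trans (fam.ok i hi).sub
  have cov : ∀ i ∈ I, ∀ x t, 0 ≤ t → t ≤ 51 * (C (c i).b * (c i).ρ) → dist x (c i).q +
      2 * ((c i).b * t) + 2 * ((c i).b * (c i).ρ) ≤ (c i).T ∨ dist x (c i).q ≤ (c i).R →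
      closedBall (f x) t ⊆ f '' (c i).room := fun i hi x t h0 h1 h2 => by
    obtain ⟨n0, n1, n2, n3, n4, n5, n6, n7, n8⟩ := num i hi
    have h := fam.ok i hi
    have b0 := one_pos.trans_le h.b_ge
    have a1 := mul_le_mul_of_nonneg_left n2 b0.le
    have a2 := mul_le_mul_of_nonneg_left h1 b0.le
    have a3 := mul_nonneg b0.le h0
    have a4 : dist x (c i).q + (c i).b * (t + τ (c i).b * (c i).ρ) < (c i).T := by
      rcases h2 with h2 | h2 <;> linarith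
    exact (cover hΛ hf h.sub h.bil h.close b0 h0 n1 a4).trans (image_mono fun u hu =>
      mem_ball.2 (by linarith [mem_closedBall.1 hu, dist_triangle u x (c i).q]))
  have big : ∀ i ∈ I, ∀ y ∈ (c i).a f '' (c i).core P,
      closedBall y (50 * (C (c i).b * (c i).ρ)) ⊆ f '' (c i).room := by
    rintro i hi _ ⟨u, hu, rfl⟩
    obtain ⟨n0, n1, n2, n3, n4, n5, n6, n7, n8⟩ := num i hi
    have a1 := mem_closedBall.1 (core_sub _ P hu)
    have a2 := near_a (fam.ok i hi) (x := u) (mem_closedBall.2 (by linarith))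
    exact (closedBall_subset_closedBall' (by linarith [dist_comm (f u) ((c i).a f u)])).trans
      (cov i hi u (51 * (C (c i).b * (c i).ρ)) (by linarith) le_rfl (Or.inr a1))
  have dj : ∀ i ∈ I, ∀ i' ∈ I, i ≠ i' → Disjoint (f '' (c i).room) (f '' (c i').room) :=
    fun i hi i' hi' h => disjoint_image_image fun a ha b hb e => disjoint_left.1
      (fam.disj i hi i' hi' h) ha (hf.left_inv.injOn (rΩ i hi ha) (rΩ i' hi' hb) e ▸ hb)
  have sm : ∀ i ∈ I, ∀ y ∈ (c i).a f '' (c i).core P,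
      closedBall y (15 * (C (c i).b * (c i).ρ)) ⊆ f '' (c i).room := fun i hi y hy =>
    (closedBall_subset_closedBall (by
      obtain ⟨n0, n1, n2, n3, n4, -⟩ := num i hi
      linarith)).trans (big i hi y hy)
  obtain ⟨δ', T', t1, t2, t3⟩ := bumps T (c := fun i => C (c i).b * (c i).ρ)
    (fun i hi => image_subset_iff.2 fun x hx => hf.mapsTo (rΩ i hi hx)) dj sm
  have t4 : ∀ i ∈ I, ∀ z ∈ f '' (c i).room, δ' z ≤ C (c i).b * (c i).ρ := by
    rintro i hi _ ⟨x, hx, rfl⟩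
    obtain ⟨n0, n1, n2, n3, n4, -⟩ := num i hi
    rcases t3 _ (hf.mapsTo (rΩ i hi hx)) with h | ⟨i', hi', h, y, a1, a2⟩
    · linarith [hδ i hi x hx]
    · rcases eq_or_ne i i' with rfl | e
      · exact h
      · exact absurd (sm i' hi' y a1 (mem_closedBall.2 (by
          linarith [dist_nonneg (x := f x) (y := y)])))
          (disjoint_left.1 (dj i hi i' hi' e) ⟨x, hx, rfl⟩)
  refine ⟨δ', T', t1, fun i hi y hy => ?_, fun 𝓜 => ?_⟩
  · obtain ⟨n0, n1, n2, n3, n4, -⟩ := num i hi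
    have a1 := sm i hi y hy (mem_closedBall_self (by linarith))
    refine ⟨a1, by linarith [t2 i hi y hy y, dist_self y], fun y' h => ?_⟩
    have a2 : 50 * (C (c i).b * (c i).ρ) < dist y' y :=
      lt_of_not_ge fun a => h (big i hi y hy a)
    linarith [t4 i hi y a1, T'.lip y' y, dist_comm y y']
  have cell : ∀ l, 𝓜.Q.cell l ⊆ Ω := fun l => (𝓜.Q.cell_subset_carrier l).trans_eq 𝓜.carrier
  have dm : ∀ l, ∀ x ∈ 𝓜.Q.cell l, ∀ y ∈ 𝓜.Q.cell l, ∀ i ∈ I, x ∈ (c i).room →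
      dist x y ≤ 3 * (c i).ρ := fun l x hx y hy i hi h => by
    rcases 𝓜.small hx hy with a | ⟨j, a1, -⟩
    · rw [siz.on i hi x h] at a
      linarith [max_le ((fam.ok i hi).bas x h) (bump_le (c i) x)]
    · exact absurd (thickening_subset_cthickening_of_le (by
        nlinarith [mul_nonneg (Nat.cast_nonneg (P.T j).b : (0:ℝ) ≤ _) (Me.η_pos (P := P)).le]) _
          (a1 hx)) (disjoint_left.1 ((fam.ok i hi).off j) (ball_subset_closedBall h))
  have osc : ∀ l, ∀ x ∈ 𝓜.Q.cell l, ∀ y ∈ 𝓜.Q.cell l, dist (f₁ y) (f₁ x) < δ' (f₁ x) := by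
    intro l x hx y hy
    by_cases h : ∃ i ∈ I, dist x (c i).q ≤ (c i).R + 18 * (c i).ρ
    · obtain ⟨i, hi, h⟩ := h
      obtain ⟨n0, n1, n2, n3, n4, n5, n6, n7, n8⟩ := num i hi
      have b0 := zero_le_one.trans (fam.ok i hi).b_ge
      have a1 : x ∈ (c i).room := mem_ball.2 (by linarith)
      have a2 := dm l x hx y hy i hi a1
      have a3 : y ∈ (c i).room := mem_ball.2 (by linarith [dist_triangle_left y (c i).q x])
      obtain ⟨u, a4, a5⟩ := exists_dist_le_le (x := x) (z := (c i).q)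
        (δ := 19 * (c i).ρ) (ε := (c i).R - (c i).ρ) (by linarith) (by linarith) (by linarith)
      have a6 := (close_lip (fam.ok i hi).bil (fam.ok i hi).close b0 (ball_subset_closedBall a1)
        (ball_subset_closedBall a3)).1
      linarith [t2 i hi _ ⟨u, sub_core _ P a5, rfl⟩ (f₁ x), (chg i hi).1 x a1, (chg i hi).1 y a3,
        near_a (fam.ok i hi) (ball_subset_closedBall a1), a_lip (fam.ok i hi) x u,
        mul_le_mul_of_nonneg_left a4 b0, dist_comm (f x) (f₁ x),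
        mul_le_mul_of_nonneg_left (dist_comm x y ▸ a2) b0,
        dist_triangle4 (f₁ x) (f x) ((c i).a f x) ((c i).a f u),
        dist_triangle4 (f₁ y) (f y) (f x) (f₁ x)]
    push Not at h
    have a1 : ∀ u ∈ 𝓜.Q.cell l, f₁ u = f u := fun u hu => off u (cell l hu) fun i hi a => by
      obtain ⟨n0, n1, n2, n3, n4, n5, n6, n7, n8⟩ := num i hi
      rw [mem_closedBall] at a
      linarith [dm l u hu x hx i hi (mem_ball.2 (by linarith)), h i hi,
        dist_triangle_left x (c i).q u]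
    rw [a1 x hx, a1 y hy]
    refine (ho x (cell l hx) y (cell l hy) ?_).trans_le (t1 _)
    have a2 : base P.ς P.k₀ x ≤ P.ς x := min_le_left _ _
    rcases 𝓜.small hx hy with a | ⟨j, a3, a4⟩
    · by_cases a5 : ∀ i ∈ I, x ∉ (c i).room
      · linarith [siz.off x (cell l hx) a5, dist_comm x y]
      push Not at a5
      obtain ⟨i, hi, a5⟩ := a5
      obtain ⟨n0, -, -, -, -, -, -, -, n8⟩ := num i hi
      rw [siz.on i hi x a5] at a
      linarith [max_le a2 ((bump_nonpos (by linarith) (h i hi).le).trans (ok.pos x (cell l hx)).1.le),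
        dist_comm x y]
    · have a5 := ((mem_U.1 (a3 hx)).mono (show (20:ℝ) ≤ 100 by norm_num)).big ok
      have a6 : 0 < un P j := un_pos
      unfold un at a5 a6
      linarith [a5.2, dist_comm x y]
  refine ⟨osc, fun g hg l => ?_⟩
  have cl : ∀ x ∈ 𝓜.Q.cell l, ∀ y ∈ 𝓜.Q.cell l, dist (g x) (f₁ y) ≤ 6 * δ' (f₁ y) :=
    fun x hx y hy => by
      linarith [hg x (cell l hx), osc l y hy x hx, T'.lip (f₁ x) (f₁ y),
        T'.pos _ (h₁.mapsTo (cell l hy)), dist_triangle (g x) (f₁ x) (f₁ y)]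
  by_cases h : ∃ u ∈ 𝓜.Q.cell l, ∃ i ∈ I,
      dist u (c i).q ≤ (c i).R + 11 * ((c i).b * (C (c i).b * (c i).ρ))
  · obtain ⟨u, hu, i, hi, h⟩ := h
    obtain ⟨n0, n1, n2, n3, n4, n5, n6, n7, n8⟩ := num i hi
    have a1 : ∀ x ∈ 𝓜.Q.cell l,
        dist x (c i).q ≤ (c i).R + 12 * ((c i).b * (C (c i).b * (c i).ρ)) := fun x hx => by
      linarith [dm l u hu x hx i hi (mem_ball.2 (by linarith)), dist_triangle_left x (c i).q u]
    have a2 : 𝓜.Q.cell l ⊆ (c i).room := fun x hx => mem_ball.2 (by linarith [a1 x hx])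
    have a3 : ∀ x ∈ 𝓜.Q.cell l, ∀ y ∈ 𝓜.Q.cell l,
        dist (g x) (f y) ≤ 7 * (C (c i).b * (c i).ρ) := fun x hx y hy => by
      linarith [cl x hx y hy, t4 i hi _ ((chg i hi).2.subset ⟨y, a2 hy, rfl⟩),
        (chg i hi).1 y (a2 hy), dist_triangle (g x) (f₁ y) (f y)]
    exact Or.inr ⟨i, hi, a2, image_subset_iff.2 fun x hx => cov i hi x _ (by linarith)
      (by linarith) (Or.inl (by linarith [a1 x hx])) (a3 x hx x hx),
      fun x hx y hy => by linarith [a3 x hx y hy]⟩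
  push Not at h
  refine Or.inl fun x hx y hy => ?_
  have a1 : f₁ y = f y := off y (cell l hy) fun i hi a => by
    obtain ⟨n0, n1, n2, n3, n4, n5, -⟩ := num i hi
    linarith [mem_closedBall.1 a, h y hy i hi]
  have a2 := cl x hx y hy
  rw [a1] at a2
  rcases t3 _ (hf.mapsTo (cell l hy)) with a | ⟨i, hi, -, _, ⟨u, a3, rfl⟩, a4⟩
  · exact a ▸ a2
  obtain ⟨n0, n1, n2, n3, n4, n5, n6, n7, n8⟩ := num i hi
  obtain ⟨v, a5, a6⟩ := sm i hi _ ⟨u, a3, rfl⟩ (a := f y) (mem_closedBall.2 (by linarith))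
  obtain rfl := hf.left_inv.injOn (rΩ i hi a5) (cell l hy) a6
  have b0 := zero_le_one.trans (fam.ok i hi).b_ge
  have a7 := mem_closedBall.1 (core_sub _ P a3)
  have a8 : u ∈ closedBall (c i).q (c i).T := mem_closedBall.2 (by linarith)
  have a9 := ((close_lip (fam.ok i hi).bil (fam.ok i hi).close b0 a8
    (ball_subset_closedBall a5)).2).trans (mul_le_mul_of_nonneg_left
      (show _ ≤ 11 * (C (c i).b * (c i).ρ) by
        linarith [near_a (fam.ok i hi) a8, dist_triangle_right (f v) (f u) ((c i).a f u)]) b0)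
  linarith [h v hy i hi, dist_triangle v u (c i).q]

end P073.Ac4
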