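import Vale.Agent.P073Y.B.Defs2
import Vale.Agent.P073Y.Gc.Tot
import Vale.Agent.P073Y.Ms.Start
import Vale.Agent.P073Y.Ms.Two
import Vale.Agent.P073Y.Nr.Sk5

/-!
# The accounting for exponents from three on: cores, statements
-/

open Set Metric Topology Filter MeasureTheory
open scoped ENNReal NNReal

namespace P073.Ac4

open Me (dy)
open An (M3)
open M2 Zn Gc
open _root_.P073.Top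
open B (Cer OscC Fc Main Aux Far3)
open Nr (nrc nrs Pre2L)
open G2 (Fine1)
open Inf (gim)
open Vale.Agent.P073.HB (GoodSeg WeakDeriv)

/-! ### cores -/

/-- one core: centre, dyadic scale, radius, radius of the room, matrix -/
structure Cr where
  /-- the centre -/
  q : E3
  /-- the scale -/
  k : ℕ
  /-- the radius -/
  R : ℝ
  /-- the radius of the room -/
  T : ℝ
  /-- the bound for the matrix -/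
  b : ℝ
  /-- the matrix -/
  A : M3

/-- the mesh -/
noncomputable def Cr.ρ (c : Cr) : ℝ := (2:ℝ)⁻¹ ^ c.k

/-- the room -/
def Cr.room (c : Cr) : Set E3 := ball c.q c.T

/-- the affine map -/
noncomputable def Cr.a (c : Cr) (f : E3 → E3) (x : E3) : E3 := f c.q + c.A (x - c.q)

/-- the dyadic cubes of the core -/
def Cr.Z (c : Cr) (P : Par) : Set (Fin 3 → ℤ) :=
  {z | dy P c.k ⁻¹' ucube z ⊆ closedBall c.q c.R}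

/-- the core -/
def Cr.core (c : Cr) (P : Par) : Set E3 := CoreZ P c.k (c.Z P)

/-- the mesh size round the core -/
noncomputable def Cr.bump (c : Cr) (x : E3) : ℝ :=
  3 / 2 * c.ρ - infDist x (closedBall c.q (c.R + 3 * c.ρ)) / 10

/-- the points at depth `μ` in the image of the core -/
def Cr.inn (c : Cr) (f : E3 → E3) (μ : ℝ) : Set E3 :=
  {y | closedBall y μ ⊆ c.a f '' ball c.q (c.R - c.ρ)}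

/-- the mesh size away from the cores -/
noncomputable def base (ς : E3 → ℝ) (k₀ : ℕ) (x : E3) : ℝ := min (ς x) (3 / 2 * (2:ℝ)⁻¹ ^ k₀)

/-- an admissible core -/
structure Cr.Ok (c : Cr) (Ω : Set E3) (P : Par) (f : E3 → E3) (F : E3 → M3) (τ D : ℝ) : Prop where
  b_ge : 1 ≤ c.b
  bil : Bil c.b c.A
  R_ge : c.ρ ≤ c.R
  T_ge : c.R + D * c.ρ ≤ c.T
  sub : closedBall c.q c.T ⊆ Ω
  off : ∀ j, Disjoint (closedBall c.q c.T) (cthickening (100 * (P.T j).b * P.η) (P.K j))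
  bas : ∀ x ∈ c.room, base P.ς P.k₀ x ≤ 3 / 2 * c.ρ
  close : Close f c.A (closedBall c.q c.T) (τ * c.ρ)
  wire : ∀ x y ζ, x ≠ y → segment ℝ x y = dy P c.k ⁻¹' kcell ζ →
    segment ℝ x y ⊆ closedBall c.q c.T →
    ∫⁻ u in segment ℝ x y, ‖F u - c.A‖ₑ ∂(μH[1]) ≤ ENNReal.ofReal (τ * c.ρ)

/-- a family of cores with disjoint rooms -/
structure Fam (Ω : Set E3) (P : Par) (f : E3 → E3) (F : E3 → M3) (τ D : ℝ → ℝ) {ι : Type}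
    (I : Set ι) (c : ι → Cr) : Prop where
  cnt : I.Countable
  ok : ∀ i ∈ I, (c i).Ok Ω P f F (τ (c i).b) (D (c i).b)
  disj : ∀ i ∈ I, ∀ i' ∈ I, i ≠ i' → Disjoint (c i).room (c i').room

/-- all core cubes -/
def cset (P : Par) {ι : Type} (I : Set ι) (c : ι → Cr) : Set (ℕ × (Fin 3 → ℤ)) :=
  {t | ∃ i ∈ I, t.1 = (c i).k ∧ t.2 ∈ (c i).Z P}

/-- the mesh size -/
structure Siz (Ω : Set E3) (P : Par) (σ : E3 → ℝ) {ι : Type} (I : Set ι) (c : ι → Cr) : Prop where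
  off : ∀ x ∈ Ω, (∀ i ∈ I, x ∉ (c i).room) → σ x = base P.ς P.k₀ x
  on : ∀ i ∈ I, ∀ x ∈ (c i).room, σ x = max (base P.ς P.k₀ x) ((c i).bump x)

/-- small moves of separated points -/
def BUMP : Prop := ∀ {κ : Type} (J : Set κ) (y d : κ → E3) (r L : κ → ℝ),
  (∀ j ∈ J, 0 < r j ∧ 0 ≤ L j ∧ L j ≤ 1 / 4 ∧ ‖d j‖ ≤ L j * r j) →
  (∀ j ∈ J, ∀ j' ∈ J, j ≠ j' → Disjoint (ball (y j) (r j)) (ball (y j') (r j'))) →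
  ∃ Ψ : E3 ≃ₜ E3, LipschitzWith 2 Ψ ∧
    (∀ j ∈ J, Ψ (y j) = y j + d j ∧
      ∀ u ∈ ball (y j) (r j), dist (Ψ u) u ≤ ‖d j‖ ∧ Ψ u ∈ ball (y j) (r j)) ∧
    (∀ u, (∀ j ∈ J, u ∉ ball (y j) (r j)) → Ψ u = u) ∧
    ∀ (X : Set E3) (l : ℝ), 0 ≤ l → (∀ j ∈ J, (ball (y j) (r j) ∩ X).Nonempty → L j ≤ l) →
      ∀ u ∈ X, ∀ u' ∈ X, ‖Ψ u - u - (Ψ u' - u')‖ ≤ 2 * l * ‖u - u'‖

/-- balls in the target are covered -/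
def COVER : Prop := ∀ {Ω Λ : Set E3} {f f' : E3 → E3} {A : M3} {q x : E3} {T b l t : ℝ},
  IsOpen Λ → HomeoOn f f' Ω Λ → closedBall q T ⊆ Ω → Bil b A → Close f A (closedBall q T) l →
  0 < b → 0 ≤ t → dist x q + b * (t + l) < T →
  closedBall (f x) t ⊆ f '' closedBall x (b * (t + l))

/-- the mesh size exists -/
def SIZE4 : Prop := ∀ {Ω : Set E3} {P : Par} {f : E3 → E3} {F : E3 → M3} {τ D : ℝ → ℝ} {ι : Type}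
  {I : Set ι} {c : ι → Cr}, P.Ok Ω → Fam Ω P f F τ D I c → (∀ b, 20 ≤ D b) →
  ∃ σ, Siz Ω P σ I c ∧ Ok2 Ω P σ ∅ ∧ Ok2 Ω P σ (cset P I c)

/-- `f₁` is `f` corrected at the vertices of the core -/
structure Chg (c : Cr) (P : Par) (f f₁ : E3 → E3) (τ : ℝ) : Prop where
  near : ∀ x ∈ c.room, dist (f₁ x) (f x) ≤ τ * c.ρ
  vert : ∀ v ∈ closedBall c.q c.R, (∀ l, ∃ m : ℤ, dy P c.k v l = m) → f₁ v = c.a f v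
  lip : ∀ x ∈ c.room, ∀ y ∈ c.room, ‖f₁ x - f x - (f₁ y - f y)‖ ≤ 8 * c.b * τ * ‖f x - f y‖

/-- the corrected map -/
def CHG : Prop := ∀ {Ω Λ : Set E3} {P : Par} {f f' : E3 → E3} {F : E3 → M3} {τ D : ℝ → ℝ}
  {ι : Type} {I : Set ι} {c : ι → Cr}, Std Ω Λ f f' → Fam Ω P f F τ D I c →
  (∀ b, 1 ≤ b → 0 ≤ τ b ∧ b * τ b ≤ 1 / 16 ∧ 2 ≤ D b) →
  ∃ f₁ f₁' : E3 → E3, Std Ω Λ f₁ f₁' ∧ (∀ x y, segVar f₁ x y ≤ 2 * segVar f x y) ∧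
    (∀ x ∈ Ω, (∀ i ∈ I, x ∉ closedBall (c i).q ((c i).R + (c i).ρ)) → f₁ x = f x) ∧
    ∀ i ∈ I, Chg (c i) P f f₁ (τ (c i).b) ∧ f₁ '' (c i).room = f '' (c i).room

/-- the simplices of one core are good for the corrected map -/
def GOOD1 : Prop := ∀ κ₀ : ℝ → ℝ, (∀ M, 0 < κ₀ M) → ∀ (M₀ : ℝ≥0) (b : ℝ), 1 ≤ b →
  ∃ τ₀ M : ℝ, 0 < τ₀ ∧ 1 ≤ M ∧ ∀ {Ω : Set E3} {P : Par} {f f₁ : E3 → E3} {F : E3 → M3} {c : Cr}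
    {Q : RCx E3} {τ D β : ℝ}, c.b = b → c.Ok Ω P f F τ D → 3 ≤ D → 0 ≤ τ → τ ≤ τ₀ →
  M * c.ρ ≤ β → Measurable F → ContinuousOn f₁ Ω → An.OpenOn f₁ Ω → InjOn f₁ Ω →
  Cm Ω P c.k (c.Z P) M₀ Q →
  (∀ e x y, Q.dim e = 1 → Q.cell e = segment ℝ x y → GoodSeg f F x (y - x)) →
  Chg c P f f₁ τ → ∃ γ : Good Q f₁ κ₀ β, (∀ i, i ∈ γ.G ↔ Q.cell i ⊆ c.core P) ∧
    ∀ i ∈ γ.G, EqOn (γ.A i) (c.a f) (Q.cell i)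

/-- the good cells of the types in the mesh with cores -/
def GTR : Prop := ∀ {Ω : Set E3} {P : Par} {σ : E3 → ℝ} {𝓒 : Set (ℕ × (Fin 3 → ℤ))} {M₀ : ℝ≥0}
  {Mt : Ty → ℕ → ℝ≥0} {S₀ : Set E3} {S : Ty → ℕ → Set E3} (𝓜₀ : Mesh2 Ω P σ ∅ M₀ Mt S₀ S)
  (𝓜₁ : Mesh2 Ω P σ 𝓒 M₀ Mt S₀ S) {f f₁ : E3 → E3} {κ₀ : ℝ → ℝ} {β : ℝ}
  (γ : Good 𝓜₀.Q' f κ₀ β), Ok2 Ω P σ 𝓒 → Cmp 𝓜₁ 𝓜₀ →
  (∀ i ∈ γ.G, ∃ j, 𝓜₀.Q'.cell i ⊆ Fine1 P j) →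
  (∀ j, EqOn f₁ f (cthickening (100 * (P.T j).b * P.η) (P.K j))) →
  (∀ x ∈ Ω, (x ∈ Core P 𝓒 ∨ f₁ x ≠ f x) → ∀ y ∈ gim γ, β ≤ dist (f₁ x) y) →
  ∃ γ₁ : Good 𝓜₁.Q' f₁ κ₀ β, gim γ₁ = gim γ ∧ ∀ g : E3 → E3,
    (∀ i ∈ γ₁.G, EqOn g (γ₁.A i) (𝓜₁.Q'.cell i)) → ∀ i ∈ γ.G, EqOn g (γ.A i) (𝓜₀.Q'.cell i)

/-- the position of the first map -/
structure Pos (Q : RCx E3) (P : Par) (f g : E3 → E3) (δ : E3 → ℝ) (D : ℝ → ℝ) {ι : Type}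
    (I : Set ι) (c : ι → Cr) : Prop where
  core : ∀ i ∈ I, EqOn g ((c i).a f) ((c i).core P)
  cl : ∀ l, (∀ x ∈ Q.cell l, ∀ y ∈ Q.cell l, dist (g x) (f y) ≤ 6 * δ (f y)) ∨
    ∃ i ∈ I, Q.cell l ⊆ (c i).room ∧ g '' Q.cell l ⊆ f '' (c i).room ∧
      ∀ x ∈ Q.cell l, ∀ y ∈ Q.cell l, dist (g x) (f y) ≤ D (c i).b * (c i).ρ

/-- **the first PL homeomorphism**, which is affine on the cores -/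
def PREP : Prop := ∃ K₂ : ℝ≥0, ∀ M₀ : ℝ≥0, ∃ τ D : ℝ → ℝ,
  (∀ b, 0 < τ b ∧ b * τ b ≤ 1 / 16 ∧ 20 ≤ D b) ∧
  ∀ {Ω Λ K₀ : Set E3} {P : Par} {f f' : E3 → E3} {F : E3 → M3} {ι : Type} {I : Set ι}
    {c : ι → Cr} {σ δ : E3 → ℝ} {β' : ℝ} {Mt : Ty → ℕ → ℝ≥0} {S₀ : Set E3}
    {S : Ty → ℕ → Set E3} (𝓜₀ : Mesh2 Ω P σ ∅ M₀ Mt S₀ S)
    (𝓜₁ : Mesh2 Ω P σ (cset P I c) M₀ Mt S₀ S) (γ' : Good 𝓜₀.Q' f STR.kap β')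
    (η : 𝓜₀.Q'.ι → ℝ≥0∞), Std Ω Λ f f' → Measurable F → Fam Ω P f F τ D I c → Siz Ω P σ I c →
  Ok2 Ω P σ (cset P I c) → Cmp 𝓜₁ 𝓜₀ →
  (∀ x y : E3, segment ℝ x y ⊆ Ω → (∀ i, ∃ q : ℚ, x i = P.w i + q) →
    (∀ i, ∃ q : ℚ, y i = P.w i + q) → GoodSeg f F x (y - x)) →
  0 < β' → (∀ e, 0 < η e) → Tg Λ δ → (∀ i ∈ I, ∀ x ∈ (c i).room, δ (f x) ≤ (c i).ρ) →
  (∀ x ∈ Ω, ∀ y ∈ Ω, dist y x ≤ 2 * P.ς x → dist (f y) (f x) < δ (f x)) → K₀ ⊆ Ω →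
  (∀ v ∈ K₀, 201 * β' ≤ δ (f v) ∧ ∀ x ∈ Ω, dist (f v) (f x) ≤ 20 * β' → ∃ j, x ∈ P.U j) →
  (∀ i ∈ γ'.G, (∃ j, 𝓜₀.Q'.cell i ⊆ Fine1 P j) ∧
    ∀ x ∈ 𝓜₀.Q'.cell i, ∃ v ∈ K₀, dist (γ'.A i x) (f v) ≤ β') →
  ∃ g : ConHomeo Ω Λ, (∀ i ∈ γ'.G, EqOn g.toFun (γ'.A i) (𝓜₀.Q'.cell i)) ∧
    (∀ e x y, 𝓜₀.Q'.dim e = 1 → 𝓜₀.Q'.cell e = segment ℝ x y →
      segVar g.toFun x y ≤ K₂ * segVar f x y + η e) ∧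
    Pos 𝓜₀.Q P f g.toFun δ D I c

/-- on `X` the cells are lattice boxes and `g` is `a` -/
def Flat {Ω : Set E3} (S : Src Ω) (g a : E3 → E3) (X : Set E3) : Prop :=
  X ⊆ Ω ∧ EqOn g a X ∧
    ∃ ξ : E3 ≃ᵃ[ℝ] E3, ∀ l, ∀ x ∈ S.Q.ocell l, x ∈ X → S.Q.cell l = ξ ⁻¹' hull (ξ x)

/-- the cores are flat, also after the change of speed; the face charts -/
def FLAT : Prop := ∀ {Ω : Set E3} {P : Par} {σ : E3 → ℝ} {M₀ : ℝ≥0} {Mt : Ty → ℕ → ℝ≥0}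
  {S₀ : Set E3} {S : Ty → ℕ → Set E3} (𝓜 : Mesh2 Ω P σ ∅ M₀ Mt S₀ S) (h1 : 1 ≤ M₀) (ok : P.Ok Ω),
  Fc (𝓜.src h1) ∧ (∀ j, Fc (𝓜.nrm h1 ok j).src) ∧
  ∀ {f g : E3 → E3} {F : E3 → M3} {τ D : ℝ → ℝ} {δ : E3 → ℝ} {ι : Type} {I : Set ι} {c : ι → Cr},
    Fam Ω P f F τ D I c → Siz Ω P σ I c → (∀ b, 20 ≤ D b) → Pos 𝓜.Q P f g δ D I c →
    (∀ i ∈ I, Flat (𝓜.src h1) g ((c i).a f) (ball (c i).q ((c i).R - (c i).ρ))) ∧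
    ∀ Θ : E3 → E3, (∀ l, Θ '' 𝓜.Q.cell l = 𝓜.Q.cell l) →
      (∀ l (A : E3 →ᵃ[ℝ] E3), EqOn g A (𝓜.Q.cell l) → EqOn Θ id (𝓜.Q.cell l)) →
      Pos 𝓜.Q P f (g ∘ Θ) δ D I c

/-- certificates from flat balls -/
def CERF : Prop := ∀ {Ω : Set E3} (S : Src Ω) {f g : E3 → E3} {c : Cr} {μ : ℝ}, InjOn g Ω →
  Bil c.b c.A → 0 < c.b → 0 ≤ μ → Flat S g (c.a f) (ball c.q (c.R - c.ρ)) →
  IsOpen (c.inn f μ) ∧ Cer S g (c.inn f μ) μ ∧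
    thickening μ (c.inn f μ) ⊆ g '' ball c.q (c.R - c.ρ) ∧
    ∀ x y, dist y (c.a f x) ≤ μ → dist x c.q + 2 * c.b * μ < c.R - c.ρ → y ∈ c.inn f μ

/-! ### layers of cores -/

/-- the data of a layer which do not depend on the shift -/
structure Lay where
  /-- the compact set -/
  K : Set E3
  /-- its neighbourhood -/
  V : Set E3
  /-- the bound for the matrices -/
  b : ℝ
  /-- the tolerance -/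
  τ : ℝ
  /-- the step of the centres -/
  s : ℝ
  /-- the relative width of the gaps -/
  θ : ℝ
  /-- the scale -/
  k : ℕ

/-- the mesh -/
noncomputable def Lay.ρ (L : Lay) : ℝ := (2:ℝ)⁻¹ ^ L.k

/-- the core with centre `q` -/
noncomputable def Lay.cr (L : Lay) (D : ℝ → ℝ) (A : E3 → M3) (q : E3) : Cr :=
  ⟨q, L.k, L.s / 2 - L.θ * L.s / 2, L.s / 2 - L.θ * L.s / 2 + D L.b * L.ρ, L.b, A q⟩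

/-- the depth of the certificates -/
noncomputable def Lay.μ (L : Lay) : ℝ := L.θ * L.s / (10 * L.b)

/-- the mesh size for all candidates -/
noncomputable def Lay.bmp (L : Lay) (x : E3) : ℝ :=
  3 / 2 * L.ρ - infDist x (cubes (lat0 L.s) (L.s / 2 - L.θ * L.s / 2 + 3 * L.ρ)) / 10

/-- the deep part -/
def Lay.deep (L : Lay) (T : Finset E3) : Set E3 := cubes T (L.s / 2 - L.θ * L.s)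

/-- the inequalities of a layer -/
structure Lay.Ok (L : Lay) (τ D : ℝ → ℝ) : Prop where
  b_ge : 1 ≤ L.b
  τ_mem : 0 ≤ L.τ ∧ L.τ ≤ τ L.b
  θ_le : L.θ ≤ 1 / 10
  s_pos : 0 < L.s
  ρ_le : 2 * (D L.b + 1) * L.ρ ≤ L.θ * L.s

/-- the certified part of the main cores -/
def gam (L : Lay) (D : ℝ → ℝ) (f : E3 → E3) (A : E3 → M3) (T : Finset E3) (μ : ℝ) : Set E3 :=
  ⋃ q ∈ T, (L.cr D A q).inn f μ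

/-- the images of the enlarged rooms -/
def Gam (L : Lay) (D : ℝ → ℝ) (f : E3 → E3) (A : E3 → M3) (T : Finset E3) : Set E3 :=
  ⋃ q ∈ T, f '' ball q ((L.cr D A q).T + L.ρ)

/-- the protected set -/
def prot (L : Lay) (D : ℝ → ℝ) (f : E3 → E3) (A : E3 → M3) (T : Finset E3) : Set E3 :=
  ⋃ q ∈ T, (L.cr D A q).a f '' closedBall q (L.s / 2 - L.θ * L.s)

/-- the main cores -/
def MAINB : Prop := ∃ a₀ : ℝ, 0 < a₀ ∧ a₀ ≤ 1 / 100 ∧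
  ∀ {Ω Λ : Set E3} (S : Src Ω) {f f' g : E3 → E3} {F A : E3 → M3} {p : ℝ} {τ D : ℝ → ℝ} {L : Lay}
    {w : E3} {P₁ P₂ : Finset E3}, IsOpen Λ → HomeoOn f f' Ω Λ → InjOn g Ω → L.V ⊆ Ω → L.Ok τ D →
  L.b * τ L.b ≤ 1 / 16 → 20 ≤ D L.b → Sol p f F L.K L.V L.b L.τ L.ρ L.s w P₁ P₂ A →
  L.b * (D L.b + 3) * L.ρ ≤ a₀ * (L.μ / 2) →
  (∀ q ∈ P₁, Flat S g ((L.cr D A q).a f) (ball q ((L.cr D A q).R - L.ρ))) →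
  Main S g a₀ (L.μ / 2) (gam L D f A P₁ (a₀ * (L.μ / 2))) (Gam L D f A P₁) (prot L D f A P₁)

/-- the cores of all layers, layer `0` is the main one -/
noncomputable def crs (L : ℕ → Lay) (D : ℝ → ℝ) (A : ℕ → E3 → M3) (t : ℕ × E3) : Cr :=
  (L t.1).cr D (A t.1) t.2

/-- the accepted cores -/
def acc (L : ℕ → Lay) (D : ℝ → ℝ) (A : ℕ → E3 → M3) (P₁ : ℕ → Finset E3) : Set (ℕ × E3) :=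
  {t | t.2 ∈ P₁ t.1 ∧ (t.1 = 0 ∨ ∀ q ∈ P₁ 0, Disjoint (crs L D A t).room (crs L D A (0, q)).room)}

/-- the certified part of the layer `n + 1` -/
def gau (L : ℕ → Lay) (D : ℝ → ℝ) (f : E3 → E3) (A : ℕ → E3 → M3) (P₁ : ℕ → Finset E3) (n : ℕ) :
    Set E3 :=
  ⋃ q ∈ {q | (n + 1, q) ∈ acc L D A P₁}, (crs L D A (n + 1, q)).inn f (L (n + 1)).μ

/-- the inequalities and inclusions -/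
structure Hy4 {Ω : Set E3} (Λ Ω₀ X : Set E3) (f f' : E3 → E3) (F : E3 → M3) (P : Par)
    (Y : Fin P.N → TyZ Ω f) (τ D : ℝ → ℝ) (L : ℕ → Lay) (a₀ κ ε s₁ oN d β' : ℝ)
    (δ o o₁ : E3 → ℝ) (Z : ℕ → Set E3) (rr μ₀ : ℕ → ℝ) : Prop where
  std : Std Ω Λ f f'
  meas : Measurable F
  ok : P.Ok Ω
  good : ∀ x y : E3, segment ℝ x y ⊆ Ω → (∀ i, ∃ q : ℚ, x i = P.w i + q) →
    (∀ i, ∃ q : ℚ, y i = P.w i + q) → GoodSeg f F x (y - x)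
  lay : ∀ n, (L n).Ok τ D
  V_sub : ∀ n, (L n).V ⊆ Ω
  V_off : ∀ n j, Disjoint (L n).V (cthickening (100 * (P.T j).b * P.η) (P.K j))
  V_le : ∀ n, ∀ x ∈ (L n).V, base P.ς P.k₀ x ≤ 3 / 2 * (L n).ρ ∧ δ (f x) ≤ (L n).ρ ∧
    D (L n).b * (L n).ρ ≤ o₁ x
  V_disj : ∀ n m, n ≠ m → Disjoint (L (n + 1)).V (L (m + 1)).V ∧
    Disjoint (f '' (L (n + 1)).V) (Z m)
  aux : ∀ n, (L (n + 1)).s ≤ (L 0).ρ ∧ (L (n + 1)).μ ≤ μ₀ n ∧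
    2 * D (L (n + 1)).b * (L (n + 1)).ρ ≤ rr n * (L (n + 1)).μ ∧
    (∀ x ∈ (L (n + 1)).V, 2 * D (L (n + 1)).b * (L (n + 1)).ρ ≤ o x) ∧
    ∀ z ∈ Z n, 30 * δ z ≤ rr n * (L (n + 1)).μ
  main : (L 0).b * (D (L 0).b + 3) * (L 0).ρ ≤ a₀ * ((L 0).μ / 2) ∧
    2 * D (L 0).b * (L 0).ρ ≤ κ * ((L 0).μ / 2) ∧ (L 0).k ≤ P.k₀
  K_meas : MeasurableSet (L 0).K
  K_V : (L 0).K ⊆ (L 0).V
  K_b : ∀ x ∈ (L 0).K, ‖F x‖ ≤ (L 0).b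
  V_Ω₀ : (L 0).V ⊆ Ω₀
  V_G : ∀ j, Disjoint (L 0).V (Y j).G
  K_sub : ∀ j, (Y j).K ⊆ P.K j
  near : ∀ j, cthickening (100 * (P.T j).b * P.η) (P.K j) ⊆ thickening s₁ (Y j).K
  L_ge : ∀ j, ((P.T j).b : ℝ≥0) ^ 2 * P.m j ≤ (Y j).L
  X_ge : (Ω ∩ ⋃ j, cthickening (3 * (L 0).ρ) (Y j).G) \ (⋃ j, (Y j).K) ⊆ X
  tg : Tg Λ δ
  δ_le : (∀ z, δ z ≤ ε ∧ 6 * δ z ≤ oN) ∧ ∀ y ∈ Ω, 12 * δ (f y) ≤ o y ∧ 6 * δ (f y) ≤ o₁ y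
  osc : ∀ x ∈ Ω, ∀ y ∈ Ω, dist y x ≤ 2 * P.ς x → dist (f y) (f x) < δ (f x)
  β_pos : 0 < β'
  β_le : ∀ j, ∀ v ∈ (Y j).K, 201 * β' ≤ δ (f v) ∧
    ∀ x ∈ Ω, dist (f v) (f x) ≤ 20 * β' → x ∈ P.U j
  sep : ∀ j j', j ≠ j' → ∀ v ∈ (Y j).K, ∀ v' ∈ (Y j').K, 12 * β' ≤ dist (f v) (f v')
  inv : ∀ j, ∀ x ∈ P.U j, ∀ y ∈ Ω, dist (f x) (f y) ≤ 20 * β' → dist x y ≤ d

/-- the cores for the shift `w` -/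
structure Sel (p : ℝ) {Ω : Set E3} (f : E3 → E3) (F : E3 → M3) {J : Type} (Y : J → TyZ Ω f)
    (L : ℕ → Lay) (s₁ : ℝ) (Z : ℕ → Set E3) (vv : ℕ → ℝ) (w : E3) (P₁ P₂ : ℕ → Finset E3)
    (A : ℕ → E3 → M3) : Prop where
  sol : ∀ n, Sol p f F (L n).K (L n).V (L n).b (L n).τ (L n).ρ (L n).s w (P₁ n) (P₂ n) (A n)
  vol : ∀ n, volume (Z n \ ((⋃ j, f '' (Ω ∩ thickening s₁ (Y j).K)) ∪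
    f '' (L (n + 1)).deep (P₁ (n + 1)))) ≤ ENNReal.ofReal (vv n)

/-- the accepted cores form a family; the possible mesh sizes -/
def FAM : Prop := ∀ {Ω Λ Ω₀ X : Set E3} {f f' : E3 → E3} {F : E3 → M3} {P : Par}
  {Y : Fin P.N → TyZ Ω f} {τ D : ℝ → ℝ} {L : ℕ → Lay} {p a₀ κ ε s₁ oN d β' : ℝ} {δ o o₁ : E3 → ℝ}
  {Z : ℕ → Set E3} {vv rr μ₀ : ℕ → ℝ} {P₁ P₂ : ℕ → Finset E3} {A : ℕ → E3 → M3},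
  Hy4 Λ Ω₀ X f f' F P Y τ D L a₀ κ ε s₁ oN d β' δ o o₁ Z rr μ₀ →
  Sel p f F Y L s₁ Z vv P.w P₁ P₂ A → (∀ b, 20 ≤ D b) →
  Fam Ω P f F τ D (acc L D A P₁) (crs L D A) ∧
    (∀ t ∈ acc L D A P₁, closedBall t.2 (crs L D A t).T ⊆ (L t.1).V) ∧
    ∀ σ, Siz Ω P σ (acc L D A P₁) (crs L D A) → ∀ x ∈ Ω, σ x ≤ 3 / 2 * (L 0).ρ ∧
      (σ x = base P.ς P.k₀ x ∨ ∃ n, x ∈ (L n).V ∧ σ x = (L n).bmp x)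

/-- the geometric hypotheses of the batches -/
def CERT4 : Prop := ∃ a₀ : ℝ, 0 < a₀ ∧ a₀ ≤ 1 / 100 ∧
  ∀ {Ω Λ Ω₀ X : Set E3} {f f' : E3 → E3} {F : E3 → M3} {P : Par}
  {Y : Fin P.N → TyZ Ω f} {τ D : ℝ → ℝ} {L : ℕ → Lay} {p κ ε s₁ oN d β' : ℝ} {δ o o₁ σ : E3 → ℝ}
  {Z : ℕ → Set E3} {vv rr μ₀ : ℕ → ℝ} {P₁ P₂ : ℕ → Finset E3} {A : ℕ → E3 → M3} {M₀ : ℝ≥0}
  {Mt : Ty → ℕ → ℝ≥0} {S₀ : Set E3} {S : Ty → ℕ → Set E3} (𝓜 : Mesh2 Ω P σ ∅ M₀ Mt S₀ S)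
  (h1 : 1 ≤ M₀) (g : ConHomeo Ω Λ),
  Hy4 Λ Ω₀ X f f' F P Y τ D L a₀ κ ε s₁ oN d β' δ o o₁ Z rr μ₀ →
  Sel p f F Y L s₁ Z vv P.w P₁ P₂ A → (∀ b, b * τ b ≤ 1 / 16 ∧ 20 ≤ D b) →
  Siz Ω P σ (acc L D A P₁) (crs L D A) → Pos 𝓜.Q P f g.toFun δ D (acc L D A P₁) (crs L D A) →
  Main (𝓜.src h1) g.toFun a₀ ((L 0).μ / 2) (gam (L 0) D f (A 0) (P₁ 0) (a₀ * ((L 0).μ / 2)))
      (Gam (L 0) D f (A 0) (P₁ 0)) (prot (L 0) D f (A 0) (P₁ 0)) ∧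
    Gam (L 0) D f (A 0) (P₁ 0) ⊆ f '' Ω₀ ∧
    (∀ j, Disjoint (Gam (L 0) D f (A 0) (P₁ 0)) (f '' (Y j).G)) ∧
    (∀ n, Aux (𝓜.src h1) g.toFun (Z n) (Gam (L 0) D f (A 0) (P₁ 0))
        (⋃ j, f '' (Ω ∩ thickening s₁ (Y j).K)) (gau L D f A P₁ n) (vv n) (rr n) (μ₀ n)
        (L (n + 1)).μ ∧
      ∀ j, ∀ c ∈ nrc 𝓜 j, Disjoint (g.toFun '' 𝓜.Q.cell c)
        (thickening (L (n + 1)).μ (gau L D f A P₁ n))) ∧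
    (∀ c, (∀ x ∈ 𝓜.Q.cell c, ∀ y ∈ 𝓜.Q.cell c, dist (g.toFun x) (g.toFun y) ≤ o y) ∨
      (c ∈ hit (𝓜.src h1) g.toFun (Gam (L 0) D f (A 0) (P₁ 0)) ∧
        OscC (𝓜.src h1) g.toFun c (κ * ((L 0).μ / 2)))) ∧
    (∀ x ∈ Ω, dist (g.toFun x) (f x) ≤ o₁ x) ∧
    (∀ j c, 𝓜.Q.cell c ⊆ P.U j → ∀ x ∈ 𝓜.Q.cell c, ∀ y ∈ 𝓜.Q.cell c,
      dist (g.toFun x) (f y) ≤ oN) ∧
    ∀ q ∈ P₁ 0, EqOn g.toFun (((L 0).cr D (A 0) q).a f)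
      (closedBall q ((L 0).s / 2 - (L 0).θ * (L 0).s))

/-! ### energies -/

/-- the majorant for the wires of the far cells -/
noncomputable def LAM4 (S₀ : Set E3) (ς : E3 → ℝ) (k₀ : ℕ) (L : ℕ → Lay) (X : Set E3)
    (G : E3 → ℝ≥0∞) (w : E3) : ℝ≥0∞ :=
  LamA S₀ (base ς k₀) k₀ X G w + ∑' n, LamA S₀ (L n).bmp k₀ (X ∩ (L n).V) G w

/-- its mean -/
def MEAN4 : Prop := ∀ {S₀ X : Set E3} {G : E3 → ℝ≥0∞} {M : ℝ≥0} {ς : E3 → ℝ} (k₀ : ℕ)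
  {L : ℕ → Lay}, MeasurableSet S₀ → (∀ y, μH[1] (S₀ ∩ closedBall y 1) ≤ M) → MeasurableSet X →
  Measurable G → Continuous ς → (∀ n, MeasurableSet (L n).V) →
  (∀ n m, n ≠ m → Disjoint (L (n + 1)).V (L (m + 1)).V) →
  Mean 1 (LAM4 S₀ ς k₀ L X G) (70000 * M * ∫⁻ x in X, G x)

/-- sums over far cells -/
def FARL : Prop := ∀ {Ω : Set E3} {P : Par} {σ : E3 → ℝ} {𝓒 : Set (ℕ × (Fin 3 → ℤ))} {M₀ : ℝ≥0}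
  {Mt : Ty → ℕ → ℝ≥0} {S₀ : Set E3} {S : Ty → ℕ → Set E3} (𝓜 : Mesh2 Ω P σ 𝓒 M₀ Mt S₀ S)
  (L : ℕ → Lay), (∀ x ∈ Ω, σ x = base P.ς P.k₀ x ∨ ∃ n, x ∈ (L n).V ∧ σ x = (L n).bmp x) →
  ∀ (A : Set 𝓜.Q.ι) (X : Set E3) (G : E3 → ℝ≥0∞), (∀ c ∈ A, 𝓜.far c ∧ 𝓜.Q.cell c ⊆ X) →
    tot A (fun c => 𝓜.rr c ^ 2 * wint 𝓜.Q G c) ≤ M₀ * LAM4 S₀ P.ς P.k₀ L X G P.w

/-- tolerances for the far cells of dimension three -/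
def FART (p : ℝ) : Prop := ∀ {Ω : Set E3} {P : Par} {σ : E3 → ℝ} {𝓒 : Set (ℕ × (Fin 3 → ℤ))}
  {M₀ : ℝ≥0} {Mt : Ty → ℕ → ℝ≥0} {S₀ : Set E3} {S : Ty → ℕ → Set E3}
  (𝓜 : Mesh2 Ω P σ 𝓒 M₀ Mt S₀ S) (h1 : 1 ≤ M₀) {δ : ℝ≥0∞}, P.Ok Ω → δ ≠ 0 →
  ∃ (η : 𝓜.Q'.ι → ℝ≥0∞) (t : 𝓜.Q.ι → ℝ≥0∞), (∀ e, 0 < η e) ∧ ∑' e, η e ≤ δ ∧
    tot {c | 𝓜.Q.dim c = 3 ∧ 𝓜.far c} t ≤ δ ∧
    ∀ {f g₀ g : E3 → E3} {F : E3 → M3} {K : ℝ≥0∞}, Measurable F →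
      (∀ e x y, 𝓜.Q'.dim e = 1 → 𝓜.Q'.cell e = segment ℝ x y →
        GoodSeg f F x (y - x) ∧ segVar g₀ x y ≤ K * segVar f x y + η e) →
      (∀ e x y, 𝓜.far e → 𝓜.Q.dim e = 1 → 𝓜.Q.cell e = segment ℝ x y →
        lipc g (𝓜.Q.cell e) * edist x y ≤ segVar g₀ x y) →
      ∀ c, 𝓜.far c → volume (𝓜.Q.cell c) * (𝓜.src h1).A g c ^ p ≤
        (2 * M₀ * K) ^ p * M₀ * (𝓜.rr c ^ 2 * wint 𝓜.Q (fun x => ‖F x‖ₑ ^ p) c) + t c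

/-- **the energy** -/
def ENER4 (p : ℝ) : Prop := ∃ Cf : ℝ≥0 → ℝ≥0 → ℝ≥0 → ℝ≥0,
  ∀ {Ω X : Set E3} {P : Par} {σ : E3 → ℝ} {𝓒 : Set (ℕ × (Fin 3 → ℤ))} {M₀ : ℝ≥0}
  {Mt : Ty → ℕ → ℝ≥0} {S₀ : Set E3} {S : Ty → ℕ → Set E3} (𝓜 : Mesh2 Ω P σ 𝓒 M₀ Mt S₀ S)
  (h1 : 1 ≤ M₀) {f g h k : E3 → E3} {F A : E3 → M3} {L : Lay} {D : ℝ → ℝ} {P₁ P₂ : Finset E3}
  {K₀ G : Fin P.N → Set E3} {Cw Cu : ℝ≥0} {Ct : Fin P.N → ℝ≥0} {t : 𝓜.Q.ι → ℝ≥0∞} {Φ δ : ℝ≥0∞}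
  (Lm : Set E3 → (E3 → ℝ≥0∞) → ℝ≥0∞), IsOpen Ω → P.Ok Ω → Measurable F →
  Sol p f F L.K L.V L.b L.τ L.ρ L.s P.w P₁ P₂ A → 1 ≤ L.b → 0 ≤ L.τ → L.θ ≤ 1 / 10 → 0 < L.s →
  3 * L.ρ ≤ L.θ * L.s → MeasurableSet L.K → L.K ⊆ L.V → L.V ⊆ Ω → (∀ x ∈ L.K, ‖F x‖ ≤ L.b) →
  (∀ j, Disjoint L.V (P.U j) ∧ K₀ j ⊆ P.K j) → (∀ x ∈ Ω, σ x ≤ 3 / 2 * L.ρ) →
  (Ω ∩ ⋃ j, cthickening (3 * L.ρ) (G j)) \ (⋃ j, K₀ j) ⊆ X →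
  (∀ (A : Set 𝓜.Q.ι) (X : Set E3) (G : E3 → ℝ≥0∞), (∀ c ∈ A, 𝓜.far c ∧ 𝓜.Q.cell c ⊆ X) →
    tot A (fun c => 𝓜.rr c ^ 2 * wint 𝓜.Q G c) ≤ M₀ * Lm X G) →
  (∀ c, 𝓜.far c → volume (𝓜.Q.cell c) * (𝓜.src h1).A g c ^ p ≤
    Cw * (𝓜.rr c ^ 2 * wint 𝓜.Q (fun x => ‖F x‖ₑ ^ p) c) + t c) →
  tot {c | 𝓜.Q.dim c = 3 ∧ 𝓜.far c} t ≤ δ →
  (∀ q ∈ P₁, EqOn g ((L.cr D A q).a f) (closedBall q (L.s / 2 - L.θ * L.s))) → InjOn g Ω →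
  (∀ u ∈ Ω, g u ∈ prot L D f A P₁ → h u = g u) →
  (tot {c ∈ Far3 (𝓜.src h1) (nrc 𝓜) | ¬ g '' 𝓜.Q.cell c ⊆ prot L D f A P₁}
      (fun c => volume (𝓜.Q.cell c) * lipc h (𝓜.Q.cell c) ^ p) ≤
    Cu * tot {c ∈ Far3 (𝓜.src h1) (nrc 𝓜) | ¬ g '' 𝓜.Q.cell c ⊆ prot L D f A P₁}
      (fun c => volume (𝓜.Q.cell c) * (𝓜.src h1).A g c ^ p) +
    ∑ j, Ct j * tot {c ∈ Far3 (𝓜.src h1) (nrc 𝓜) | (𝓜.Q.cell c ∩ G j).Nonempty}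
      (fun c => volume (𝓜.Q.cell c) * (𝓜.src h1).A g c ^ p) + δ) →
  (∀ x, (∀ j, x ∉ nrs 𝓜 j) → k =ᶠ[𝓝 x] h) →
  ∑ j, ∫⁻ x in nrs 𝓜 j, ‖fderiv ℝ k x - F x‖ₑ ^ p ≤ Φ →
  ∫⁻ x in Ω, ‖fderiv ℝ k x - F x‖ₑ ^ p ≤ Φ + Cf M₀ Cw Cu *
    (Lm (Ω \ ⋃ j, K₀ j) (L.Kᶜ.indicator fun x => ‖F x‖ₑ ^ p) +
      (∑ j, (Ct j : ℝ≥0∞)) * Lm X (fun x => ‖F x‖ₑ ^ p) +
      ENNReal.ofReal L.b ^ p * (ENNReal.ofReal (L.s ^ 3) * P₂.card +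
        ENNReal.ofReal L.θ * volume L.V) +
      ENNReal.ofReal L.τ * volume L.V + ∫⁻ x in Ω \ (L.K ∪ ⋃ j, K₀ j), ‖F x‖ₑ ^ p +
      (1 + ∑ j, (Ct j : ℝ≥0∞)) * δ)

end P073.Ac4
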